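import Vale.Agent.P106.Q.Defs

/-! # P106 / Q : block BGL (helper679). Points of the square without four points in general position. -/

open Set

set_option linter.all false

namespace Vale.Agent.P106.Q.BGLp

open Vale.Agent.P106.Q

/-- squared distance -/
def e2 (v w : ℝ × ℝ) : ℝ := (v.1 - w.1) ^ 2 + (v.2 - w.2) ^ 2

def qA (p q r : ℝ × ℝ) : ℝ := (q.1 - p.1) * (r.2 - p.2) - (q.2 - p.2) * (r.1 - p.1)

/-- square of the norm -/
def nn (p : ℝ × ℝ) : ℝ := p.1 ^ 2 + p.2 ^ 2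

def qB1 (p q r : ℝ × ℝ) : ℝ := (q.2 - p.2) * (nn r - nn p) - (nn q - nn p) * (r.2 - p.2)

def qB2 (p q r : ℝ × ℝ) : ℝ := -((q.1 - p.1) * (nn r - nn p) - (nn q - nn p) * (r.1 - p.1))

def qC (p q r : ℝ × ℝ) : ℝ :=
  -(p.1 * (q.2 * nn r - nn q * r.2) - p.2 * (q.1 * nn r - nn q * r.1) + nn p * (q.1 * r.2 - q.2 * r.1))

def Q (p q r v : ℝ × ℝ) : ℝ := qA p q r * nn v + qB1 p q r * v.1 + qB2 p q r * v.2 + qC p q r

lemma D4_eq (p q r v : ℝ × ℝ) : D4 ![p, q, r, v] = Q p q r v := by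
  unfold D4
  rw [Matrix.det_succ_row_zero]
  simp [Fin.sum_univ_succ, Matrix.det_fin_three, Matrix.submatrix, Fin.succAbove, Q, qA, qB1, qB2, qC, nn]
  ring

lemma disc (p q r : ℝ × ℝ) : qB1 p q r ^ 2 + qB2 p q r ^ 2 - 4 * qA p q r * qC p q r =
    e2 p q * e2 p r * e2 q r := by
  unfold qB1 qB2 qA qC e2 nn
  ring

/-- the two partial derivatives -/
def g1 (p q r v : ℝ × ℝ) : ℝ := 2 * qA p q r * v.1 + qB1 p q r

def g2 (p q r v : ℝ × ℝ) : ℝ := 2 * qA p q r * v.2 + qB2 p q r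

lemma grad_sq (p q r v : ℝ × ℝ) : g1 p q r v ^ 2 + g2 p q r v ^ 2 =
    e2 p q * e2 p r * e2 q r + 4 * qA p q r * Q p q r v := by
  rw [← disc p q r]
  unfold g1 g2 Q nn
  ring

lemma diffQ (p q r v w : ℝ × ℝ) : Q p q r w - Q p q r v =
    (g1 p q r v + g1 p q r w) / 2 * (w.1 - v.1) + (g2 p q r v + g2 p q r w) / 2 * (w.2 - v.2) := by
  unfold g1 g2 Q nn
  ring

lemma e2_nonneg (v w : ℝ × ℝ) : 0 ≤ e2 v w := by unfold e2; positivity

lemma e2_tri (p q r : ℝ × ℝ) : e2 p q ≤ 2 * (e2 p r + e2 q r) := by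
  unfold e2
  nlinarith [sq_nonneg (p.1 - r.1 + (q.1 - r.1)), sq_nonneg (p.2 - r.2 + (q.2 - r.2))]

lemma A_sq1 (p q r : ℝ × ℝ) : qA p q r ^ 2 ≤ e2 p q * e2 p r := by
  unfold qA e2
  nlinarith [sq_nonneg ((p.1 - q.1) * (p.1 - r.1) + (p.2 - q.2) * (p.2 - r.2))]

lemma A_sq2 (p q r : ℝ × ℝ) : qA p q r ^ 2 ≤ e2 p q * e2 q r := by
  unfold qA e2
  nlinarith [sq_nonneg ((p.1 - q.1) * (q.1 - r.1) + (p.2 - q.2) * (q.2 - r.2))]

lemma rho_facts (p q r : ℝ × ℝ) (h1 : 1 ≤ e2 p r) (h2 : 1 ≤ e2 q r) :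
    e2 p q ^ 2 / 4 ≤ e2 p q * e2 p r * e2 q r ∧ qA p q r ^ 2 * e2 p q / 4 ≤ e2 p q * e2 p r * e2 q r := by
  have h0 := e2_nonneg p q
  have ht := e2_tri p q r
  have hA1 := A_sq1 p q r
  have hA2 := A_sq2 p q r
  rcases le_total (e2 p r) (e2 q r) with h | h
  · have h4 : e2 p q ≤ 4 * e2 q r := by linarith
    constructor
    · have : e2 p q * e2 p q ≤ e2 p q * (4 * e2 q r) := mul_le_mul_of_nonneg_left h4 h0
      have h5 : e2 p q * e2 q r ≤ e2 p q * e2 p r * e2 q r := by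
        have : 0 ≤ e2 p q * e2 q r := by positivity
        nlinarith
      nlinarith
    · have h6 : qA p q r ^ 2 * e2 p q ≤ (e2 p q * e2 p r) * (4 * e2 q r) :=
        mul_le_mul hA1 h4 h0 (by positivity)
      linarith
  · have h4 : e2 p q ≤ 4 * e2 p r := by linarith
    constructor
    · have : e2 p q * e2 p q ≤ e2 p q * (4 * e2 p r) := mul_le_mul_of_nonneg_left h4 h0
      have h5 : e2 p q * e2 p r ≤ e2 p q * e2 p r * e2 q r := by
        have : 0 ≤ e2 p q * e2 p r := by positivity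
        nlinarith
      nlinarith
    · have h6 : qA p q r ^ 2 * e2 p q ≤ (e2 p q * e2 q r) * (4 * e2 p r) :=
        mul_le_mul hA2 h4 h0 (by positivity)
      linarith

/-- size of the gradient at the points of the set -/
lemma grad_bd (p q r v : ℝ × ℝ) (he : 10000 < e2 p q) (h1 : 1 ≤ e2 p r) (h2 : 1 ≤ e2 q r) (hQ : |Q p q r v| ≤ 1) :
    e2 p q * e2 p r * e2 q r / 2 ≤ g1 p q r v ^ 2 + g2 p q r v ^ 2 ∧
    g1 p q r v ^ 2 + g2 p q r v ^ 2 ≤ 2 * (e2 p q * e2 p r * e2 q r) := by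
  obtain ⟨f1, f2⟩ := rho_facts p q r h1 h2
  rw [grad_sq]
  set R := e2 p q * e2 p r * e2 q r with hR
  have hRe : 25000000 ≤ R := by nlinarith
  have hA : (4 * qA p q r * Q p q r v) ^ 2 ≤ (R / 2) ^ 2 := by
    have hq : Q p q r v ^ 2 ≤ 1 := by
      have := sq_abs (Q p q r v)
      rw [← this]
      have := abs_nonneg (Q p q r v)
      nlinarith
    have h3 : (4 * qA p q r * Q p q r v) ^ 2 ≤ 16 * qA p q r ^ 2 := by
      have : (4 * qA p q r * Q p q r v) ^ 2 = 16 * qA p q r ^ 2 * Q p q r v ^ 2 := by ring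
      rw [this]
      have : 0 ≤ 16 * qA p q r ^ 2 := by positivity
      nlinarith
    have h4 : qA p q r ^ 2 ≤ R := by
      have : 0 ≤ qA p q r ^ 2 := by positivity
      nlinarith
    nlinarith
  have hab := abs_le_of_sq_le_sq hA (by positivity)
  rw [abs_le] at hab
  constructor <;> linarith [hab.1, hab.2]

/-- cell of side one -/
noncomputable def cl (v : ℝ × ℝ) : ℤ × ℤ := (⌊v.1⌋, ⌊v.2⌋)

lemma floor_near {a b : ℝ} {m : ℤ} (h : |a - b| ≤ m) : ⌊b⌋ - m - 1 ≤ ⌊a⌋ ∧ ⌊a⌋ ≤ ⌊b⌋ + m + 1 := by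
  rw [abs_le] at h
  have h1 := Int.floor_le a
  have h2 := Int.lt_floor_add_one a
  have h3 := Int.floor_le b
  have h4 := Int.lt_floor_add_one b
  constructor
  · have : ((⌊b⌋ - m - 1 : ℤ) : ℝ) ≤ (⌊a⌋ : ℝ) := by push_cast; linarith
    exact_mod_cast this
  · have : ((⌊a⌋ : ℤ) : ℝ) ≤ ((⌊b⌋ + m + 1 : ℤ) : ℝ) := by push_cast; linarith
    exact_mod_cast this

lemma card_near (T : Finset (ℝ × ℝ)) (v0 : ℝ × ℝ) (m : ℕ)
    (h : ∀ v ∈ T, |v.1 - v0.1| ≤ m ∧ |v.2 - v0.2| ≤ m) : (T.image cl).card ≤ (2 * m + 3) ^ 2 := by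
  have hsub : T.image cl ⊆ (Finset.Icc (⌊v0.1⌋ - m - 1) (⌊v0.1⌋ + m + 1)) ×ˢ
      (Finset.Icc (⌊v0.2⌋ - m - 1) (⌊v0.2⌋ + m + 1)) := by
    intro c hc
    obtain ⟨v, hv, rfl⟩ := Finset.mem_image.1 hc
    obtain ⟨a, b⟩ := h v hv
    have ha := floor_near (m := (m : ℤ)) (by exact_mod_cast a)
    have hb := floor_near (m := (m : ℤ)) (by exact_mod_cast b)
    simp only [Finset.mem_product, Finset.mem_Icc, cl]
    exact ⟨ha, hb⟩
  refine (Finset.card_le_card hsub).trans ?_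
  rw [Finset.card_product, Int.card_Icc, Int.card_Icc]
  have e1 : (⌊v0.1⌋ + (m:ℤ) + 1 + 1 - (⌊v0.1⌋ - m - 1)).toNat = 2 * m + 3 := by
    have : ⌊v0.1⌋ + (m:ℤ) + 1 + 1 - (⌊v0.1⌋ - m - 1) = ((2 * m + 3 : ℕ) : ℤ) := by push_cast; ring
    rw [this, Int.toNat_natCast]
  have e2 : (⌊v0.2⌋ + (m:ℤ) + 1 + 1 - (⌊v0.2⌋ - m - 1)).toNat = 2 * m + 3 := by
    have : ⌊v0.2⌋ + (m:ℤ) + 1 + 1 - (⌊v0.2⌋ - m - 1) = ((2 * m + 3 : ℕ) : ℤ) := by push_cast; ring
    rw [this, Int.toNat_natCast]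
  rw [e1, e2]
  exact le_of_eq (by ring)

/-- rows: `f` = the coordinate along the row, `h` = the height -/
lemma card_rows (K : ℕ) (T : Finset (ℝ × ℝ)) (f h : ℝ × ℝ → ℝ) (hh : ∀ v ∈ T, 0 ≤ h v ∧ h v ≤ K)
    (hr : ∀ v ∈ T, ∀ w ∈ T, |h v - h w| ≤ 1 → |f v - f w| ≤ 8) :
    (T.image fun v => ((⌊f v⌋, ⌊h v⌋) : ℤ × ℤ)).card ≤ 19 * (K + 1) := by
  classical
  set I := T.image fun v => ((⌊f v⌋, ⌊h v⌋) : ℤ × ℤ) with hI
  have h1 : I.card ≤ 19 * (I.image Prod.snd).card := by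
    refine Finset.card_le_mul_card_image I 19 ?_
    intro j hj
    obtain ⟨c, hc, rfl⟩ := Finset.mem_image.1 hj
    obtain ⟨v, hv, rfl⟩ := Finset.mem_image.1 hc
    have hsub : (I.filter fun x => x.2 = ((⌊f v⌋, ⌊h v⌋) : ℤ × ℤ).2) ⊆
        (Finset.Icc (⌊f v⌋ - 9) (⌊f v⌋ + 9)) ×ˢ {⌊h v⌋} := by
      intro c hc
      obtain ⟨hc1, hc2⟩ := Finset.mem_filter.1 hc
      obtain ⟨w, hw, rfl⟩ := Finset.mem_image.1 hc1
      simp only at hc2
      have h3 : |h w - h v| < 1 := Int.abs_sub_lt_one_of_floor_eq_floor hc2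
      have h4 := hr w hw v hv h3.le
      have h5 := floor_near (m := (8 : ℤ)) (by exact_mod_cast h4)
      simp only [Finset.mem_product, Finset.mem_Icc, Finset.mem_singleton]
      refine ⟨⟨by linarith [h5.1], by linarith [h5.2]⟩, hc2⟩
    refine (Finset.card_le_card hsub).trans ?_
    rw [Finset.card_product, Int.card_Icc, Finset.card_singleton]
    have e1 : (⌊f v⌋ + 9 + 1 - (⌊f v⌋ - 9)).toNat = 19 := by
      have : ⌊f v⌋ + 9 + 1 - (⌊f v⌋ - 9) = ((19 : ℕ) : ℤ) := by push_cast; ring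
      rw [this, Int.toNat_natCast]
    rw [e1]
  have h2 : (I.image Prod.snd).card ≤ K + 1 := by
    have hsub : I.image Prod.snd ⊆ Finset.Icc (0 : ℤ) K := by
      intro j hj
      obtain ⟨c, hc, rfl⟩ := Finset.mem_image.1 hj
      obtain ⟨v, hv, rfl⟩ := Finset.mem_image.1 hc
      obtain ⟨a, b⟩ := hh v hv
      simp only [Finset.mem_Icc]
      refine ⟨Int.floor_nonneg.2 a, ?_⟩
      have : (⌊h v⌋ : ℝ) ≤ (K : ℝ) := (Int.floor_le _).trans b
      exact_mod_cast this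
    refine (Finset.card_le_card hsub).trans ?_
    rw [Int.card_Icc]
    have : ((K:ℤ) + 1 - 0) = ((K + 1 : ℕ) : ℤ) := by push_cast; ring
    rw [this, Int.toNat_natCast]
  exact h1.trans (Nat.mul_le_mul_left _ h2)

/-- the elementary inequality behind one row -/
lemma row_ineq {ρ a a' b b' x y u u' : ℝ} (hρ : 1 ≤ ρ) (ha : ρ / 2 ≤ a ∧ ρ / 2 ≤ a' ∨ a ≤ -(ρ / 2) ∧ a' ≤ -(ρ / 2))
    (hb : |b| ≤ 2 * ρ) (hb' : |b'| ≤ 2 * ρ) (hu : |u| ≤ 1) (hu' : |u'| ≤ 1) (hy : |y| ≤ 1)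
    (h : u' - u = (a + a') / 2 * x + (b + b') / 2 * y) : |x| ≤ 8 := by
  have h1 : |(a + a') / 2 * x| ≤ 4 * ρ := by
    have e : (a + a') / 2 * x = (u' - u) - (b + b') / 2 * y := by linarith
    rw [e]
    have h2 : |(b + b') / 2 * y| ≤ 2 * ρ := by
      rw [abs_mul]
      have h3 : |(b + b') / 2| ≤ 2 * ρ := by
        rw [abs_le] at hb hb' ⊢
        constructor <;> linarith [hb.1, hb.2, hb'.1, hb'.2]
      calc |(b + b') / 2| * |y| ≤ 2 * ρ * 1 := mul_le_mul h3 hy (abs_nonneg _) (by linarith)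
        _ = 2 * ρ := by ring
    have h4 : |u' - u| ≤ 2 := by
      rw [abs_le] at hu hu' ⊢
      constructor <;> linarith [hu.1, hu.2, hu'.1, hu'.2]
    calc |u' - u - (b + b') / 2 * y| ≤ |u' - u| + |(b + b') / 2 * y| := abs_sub _ _
      _ ≤ 2 + 2 * ρ := add_le_add h4 h2
      _ ≤ 4 * ρ := by linarith
  rw [abs_mul] at h1
  have h5 : ρ / 2 ≤ |(a + a') / 2| := by
    rcases ha with ⟨h6, h7⟩ | ⟨h6, h7⟩
    · exact (by linarith : ρ / 2 ≤ (a + a') / 2).trans (le_abs_self _)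
    · exact (by linarith : ρ / 2 ≤ -((a + a') / 2)).trans (neg_le_abs _)
  have h6 : ρ / 2 * |x| ≤ 4 * ρ := (mul_le_mul_of_nonneg_right h5 (abs_nonneg _)).trans h1
  have h7 : ρ * (|x| - 8) ≤ 0 := by linarith
  by_contra hc
  push Not at hc
  have : 0 < ρ * (|x| - 8) := mul_pos (by linarith) (by linarith)
  linarith

lemma card_image_union_le (S T1 T2 : Finset (ℝ × ℝ)) (h : S ⊆ T1 ∪ T2) :
    (S.image cl).card ≤ (T1.image cl).card + (T2.image cl).card := by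
  classical
  calc (S.image cl).card ≤ ((T1 ∪ T2).image cl).card := Finset.card_le_card (Finset.image_subset_image h)
    _ = (T1.image cl ∪ T2.image cl).card := by rw [Finset.image_union]
    _ ≤ _ := Finset.card_union_le _ _

lemma cl_swap_card (T : Finset (ℝ × ℝ)) :
    (T.image cl).card ≤ (T.image fun v => ((⌊v.2⌋, ⌊v.1⌋) : ℤ × ℤ)).card := by
  classical
  have : T.image cl = (T.image fun v => ((⌊v.2⌋, ⌊v.1⌋) : ℤ × ℤ)).image Prod.swap := by
    rw [Finset.image_image]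
    rfl
  rw [this]
  exact Finset.card_image_le

/-- the statement at the scale of the cells -/
lemma main (K : ℕ) (hK : 1 ≤ K) (S : Finset (ℝ × ℝ))
    (hS : ∀ v ∈ S, (0 ≤ v.1 ∧ v.1 ≤ K) ∧ (0 ≤ v.2 ∧ v.2 ≤ K))
    (hQ : ∀ p ∈ S, ∀ q ∈ S, ∀ r ∈ S, ∀ v ∈ S, |Q p q r v| ≤ 1) :
    (S.image cl).card ≤ 50000 * K := by
  classical
  rcases S.eq_empty_or_nonempty with rfl | hne
  · simp
  obtain ⟨⟨p, q⟩, hpq, hmax⟩ := Finset.exists_max_image (S ×ˢ S) (fun x => e2 x.1 x.2)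
    (hne.product hne)
  obtain ⟨hp, hq⟩ := Finset.mem_product.1 hpq
  have hd : ∀ v ∈ S, ∀ w ∈ S, e2 v w ≤ e2 p q := fun v hv w hw =>
    hmax (v, w) (Finset.mem_product.2 ⟨hv, hw⟩)
  by_cases hc1 : e2 p q ≤ 10000
  · -- small set
    have h1 : (S.image cl).card ≤ (2 * 100 + 3) ^ 2 := by
      refine card_near S p 100 fun v hv => ?_
      have h2 := (hd v hv p hp).trans hc1
      unfold e2 at h2
      constructor
      · refine abs_le_of_sq_le_sq ?_ (by norm_num)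
        push_cast
        nlinarith [sq_nonneg (v.2 - p.2)]
      · refine abs_le_of_sq_le_sq ?_ (by norm_num)
        push_cast
        nlinarith [sq_nonneg (v.1 - p.1)]
    have : (2 * 100 + 3) ^ 2 ≤ 50000 * K := by nlinarith
    exact h1.trans this
  push Not at hc1
  by_cases hc2 : ∃ r ∈ S, 1 ≤ e2 p r ∧ 1 ≤ e2 q r
  · obtain ⟨r, hr, hr1, hr2⟩ := hc2
    obtain ⟨f1, -⟩ := rho_facts p q r hr1 hr2
    set R := e2 p q * e2 p r * e2 q r with hR
    have hRe : 25000000 ≤ R := by nlinarith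
    set ρ := Real.sqrt R with hρ
    have hρ2 : ρ ^ 2 = R := Real.sq_sqrt (by linarith)
    have hρ0 : 0 ≤ ρ := Real.sqrt_nonneg _
    have hρ1 : 1 ≤ ρ := by
      by_contra hc
      push Not at hc
      nlinarith
    have hg : ∀ v ∈ S, R / 2 ≤ g1 p q r v ^ 2 + g2 p q r v ^ 2 ∧
        |g1 p q r v| ≤ 2 * ρ ∧ |g2 p q r v| ≤ 2 * ρ := by
      intro v hv
      obtain ⟨a, b⟩ := grad_bd p q r v hc1 hr1 hr2 (hQ p hp q hq r hr v hv)
      refine ⟨a, ?_, ?_⟩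
      · refine abs_le_of_sq_le_sq ?_ (by linarith)
        nlinarith [sq_nonneg (g2 p q r v)]
      · refine abs_le_of_sq_le_sq ?_ (by linarith)
        nlinarith [sq_nonneg (g1 p q r v)]
    -- the four classes
    have hcls : ∀ v ∈ S, (ρ / 2 ≤ g1 p q r v ∨ g1 p q r v ≤ -(ρ / 2)) ∨
        (ρ / 2 ≤ g2 p q r v ∨ g2 p q r v ≤ -(ρ / 2)) := by
      intro v hv
      obtain ⟨a, -, -⟩ := hg v hv
      by_contra hc
      push Not at hc
      obtain ⟨⟨c1, c2⟩, c3, c4⟩ := hc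
      have d1 : g1 p q r v ^ 2 < (ρ / 2) ^ 2 := by
        rw [sq_lt_sq, abs_of_nonneg (by linarith : (0:ℝ) ≤ ρ / 2), abs_lt]
        exact ⟨by linarith, by linarith⟩
      have d2 : g2 p q r v ^ 2 < (ρ / 2) ^ 2 := by
        rw [sq_lt_sq, abs_of_nonneg (by linarith : (0:ℝ) ≤ ρ / 2), abs_lt]
        exact ⟨by linarith, by linarith⟩
      nlinarith
    set T1 := S.filter fun v => ρ / 2 ≤ g1 p q r v with hT1
    set T2 := S.filter fun v => g1 p q r v ≤ -(ρ / 2) with hT2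
    set T3 := S.filter fun v => ρ / 2 ≤ g2 p q r v with hT3
    set T4 := S.filter fun v => g2 p q r v ≤ -(ρ / 2) with hT4
    have hcov : S ⊆ (T1 ∪ T2) ∪ (T3 ∪ T4) := by
      intro v hv
      simp only [hT1, hT2, hT3, hT4, Finset.mem_union, Finset.mem_filter]
      have := hcls v hv
      tauto
    have k12 : ∀ T : Finset (ℝ × ℝ), (∀ v ∈ T, v ∈ S) →
        (∀ v ∈ T, ∀ w ∈ T, (ρ / 2 ≤ g1 p q r v ∧ ρ / 2 ≤ g1 p q r w) ∨
          (g1 p q r v ≤ -(ρ / 2) ∧ g1 p q r w ≤ -(ρ / 2))) → (T.image cl).card ≤ 19 * (K + 1) := by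
      intro T hTS hT
      refine card_rows K T Prod.fst Prod.snd (fun v hv => (hS v (hTS v hv)).2) ?_
      intro v hv w hw hvw
      refine row_ineq hρ1 (hT w hw v hv) (hg w (hTS w hw)).2.2 (hg v (hTS v hv)).2.2
        (hQ p hp q hq r hr w (hTS w hw)) (hQ p hp q hq r hr v (hTS v hv)) hvw (diffQ p q r w v)
    have k34 : ∀ T : Finset (ℝ × ℝ), (∀ v ∈ T, v ∈ S) →
        (∀ v ∈ T, ∀ w ∈ T, (ρ / 2 ≤ g2 p q r v ∧ ρ / 2 ≤ g2 p q r w) ∨
          (g2 p q r v ≤ -(ρ / 2) ∧ g2 p q r w ≤ -(ρ / 2))) → (T.image cl).card ≤ 19 * (K + 1) := by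
      intro T hTS hT
      refine (cl_swap_card T).trans ?_
      refine card_rows K T Prod.snd Prod.fst (fun v hv => (hS v (hTS v hv)).1) ?_
      intro v hv w hw hvw
      refine row_ineq hρ1 (hT w hw v hv) (hg w (hTS w hw)).2.1 (hg v (hTS v hv)).2.1
        (hQ p hp q hq r hr w (hTS w hw)) (hQ p hp q hq r hr v (hTS v hv)) hvw ?_
      rw [diffQ p q r w v]
      ring
    have c1 : (T1.image cl).card ≤ 19 * (K + 1) := k12 T1 (fun v hv => (Finset.mem_filter.1 hv).1)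
      fun v hv w hw => Or.inl ⟨(Finset.mem_filter.1 hv).2, (Finset.mem_filter.1 hw).2⟩
    have c2 : (T2.image cl).card ≤ 19 * (K + 1) := k12 T2 (fun v hv => (Finset.mem_filter.1 hv).1)
      fun v hv w hw => Or.inr ⟨(Finset.mem_filter.1 hv).2, (Finset.mem_filter.1 hw).2⟩
    have c3 : (T3.image cl).card ≤ 19 * (K + 1) := k34 T3 (fun v hv => (Finset.mem_filter.1 hv).1)
      fun v hv w hw => Or.inl ⟨(Finset.mem_filter.1 hv).2, (Finset.mem_filter.1 hw).2⟩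
    have c4 : (T4.image cl).card ≤ 19 * (K + 1) := k34 T4 (fun v hv => (Finset.mem_filter.1 hv).1)
      fun v hv w hw => Or.inr ⟨(Finset.mem_filter.1 hv).2, (Finset.mem_filter.1 hw).2⟩
    have u1 := card_image_union_le S _ _ hcov
    have u2 := card_image_union_le (T1 ∪ T2) T1 T2 (Finset.Subset.refl _)
    have u3 := card_image_union_le (T3 ∪ T4) T3 T4 (Finset.Subset.refl _)
    omega
  · push Not at hc2
    -- near the two points
    set T1 := S.filter fun v => e2 p v < 1 with hT1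
    set T2 := S.filter fun v => e2 q v < 1 with hT2
    have hcov : S ⊆ T1 ∪ T2 := by
      intro v hv
      simp only [hT1, hT2, Finset.mem_union, Finset.mem_filter]
      by_cases h : 1 ≤ e2 p v
      · exact Or.inr ⟨hv, hc2 v hv h⟩
      · exact Or.inl ⟨hv, not_le.1 h⟩
    have kk : ∀ (T : Finset (ℝ × ℝ)) (p : ℝ × ℝ), (∀ v ∈ T, e2 p v < 1) → (T.image cl).card ≤ (2 * 1 + 3) ^ 2 := by
      intro T p hT
      refine card_near T p 1 fun v hv => ?_
      have h2 := hT v hv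
      unfold e2 at h2
      constructor
      · refine abs_le_of_sq_le_sq ?_ (by norm_num)
        push_cast
        nlinarith [sq_nonneg (p.2 - v.2)]
      · refine abs_le_of_sq_le_sq ?_ (by norm_num)
        push_cast
        nlinarith [sq_nonneg (p.1 - v.1)]
    have c1 := kk T1 p fun v hv => (Finset.mem_filter.1 hv).2
    have c2 := kk T2 q fun v hv => (Finset.mem_filter.1 hv).2
    have u1 := card_image_union_le S _ _ hcov
    omega

end Vale.Agent.P106.Q.BGLp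

namespace Vale.Agent.P106.Q

open BGLp

/-- **[BGL]** -/
theorem stBGL : StBGL := by
  classical
  refine ⟨1, 50000, one_pos, by norm_num, ?_⟩
  intro K S hK hS hD
  have hK0 : (0:ℝ) < K := by exact_mod_cast hK
  set sc : ℝ × ℝ → ℝ × ℝ := fun v => (K * v.1, K * v.2) with hsc
  have himg : S.image (cel K) = (S.image sc).image cl := by
    rw [Finset.image_image]
    rfl
  rw [himg]
  have hm : ((S.image sc).image cl).card ≤ 50000 * K := by
    refine main K hK (S.image sc) ?_ ?_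
    · intro v hv
      obtain ⟨w, hw, rfl⟩ := Finset.mem_image.1 hv
      obtain ⟨⟨a, b⟩, c, d⟩ := hS w hw
      simp only [hsc]
      refine ⟨⟨by positivity, ?_⟩, by positivity, ?_⟩
      · nlinarith
      · nlinarith
    · intro p hp q hq r hr v hv
      obtain ⟨p, hp, rfl⟩ := Finset.mem_image.1 hp
      obtain ⟨q, hq, rfl⟩ := Finset.mem_image.1 hq
      obtain ⟨r, hr, rfl⟩ := Finset.mem_image.1 hr
      obtain ⟨v, hv, rfl⟩ := Finset.mem_image.1 hv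
      have h1 := hD ![p, q, r, v] (by
        intro i
        fin_cases i <;> simpa)
      rw [D4_eq] at h1
      have h2 : Q (sc p) (sc q) (sc r) (sc v) = (K:ℝ) ^ 4 * Q p q r v := by
        simp only [hsc, Q, qA, qB1, qB2, qC, nn]
        ring
      rw [h2, abs_mul, abs_of_pos (by positivity : (0:ℝ) < (K:ℝ) ^ 4)]
      calc (K:ℝ) ^ 4 * |Q p q r v| ≤ (K:ℝ) ^ 4 * (1 / (K:ℝ) ^ 4) :=
            mul_le_mul_of_nonneg_left h1 (by positivity)
        _ = 1 := by field_simp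
  calc ((((S.image sc).image cl).card : ℕ) : ℝ) ≤ ((50000 * K : ℕ) : ℝ) := by exact_mod_cast hm
    _ = 50000 * K := by push_cast; ring

end Vale.Agent.P106.Q
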