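import Vale.Agent.P106.Q.DefsN

/-! # P106 / Q : block BIL3, interface of the hairbrush bound (StHB) -/

open MeasureTheory Complex Set
open scoped ENNReal NNReal

set_option linter.all false

namespace Vale.Agent.P106.Q

open Vale.Agent.P106.G

/-- index of the cell of side `1/N` of the plane containing `s` -/
noncomputable def fl (N : ℕ) (s : ℝ × ℝ) : ℤ × ℤ := (⌊(N:ℝ) * s.1⌋, ⌊(N:ℝ) * s.2⌋)

/-- base point at time zero of the line of velocity `k/N` through `z` -/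
noncomputable def bs (N : ℕ) (k : ℤ × ℤ) (z : ℝ × (ℝ × ℝ)) : ℝ × ℝ :=
  (z.2.1 - z.1 * (k.1 / N), z.2.2 - z.1 * (k.2 / N))

/-- tube of velocity `p.1/N` with base cell `p.2` -/
def Tb (N : ℕ) (p : (ℤ × ℤ) × (ℤ × ℤ)) : Set (ℝ × (ℝ × ℝ)) :=
  {z | (1/2 ≤ z.1 ∧ z.1 ≤ 4) ∧ fl N (bs N p.1 z) = p.2}

/-- [HB] hairbrush bound for weighted tubes meeting one tube transversally -/
def StHB : Prop := ∀ c : ℝ, 0 < c → ∃ C : ℝ, 0 ≤ C ∧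
  ∀ (N : ℕ) (X : Set (ℝ × (ℝ × ℝ))) (e : ℝ) (p0 : (ℤ × ℤ) × (ℤ × ℤ)) (H : Finset ((ℤ × ℤ) × (ℤ × ℤ)))
    (w : (ℤ × ℤ) × (ℤ × ℤ) → ℝ), 1 ≤ N → MeasurableSet X → 0 < e → e ≤ 1 → p0.1 ∈ grd N →
    (∀ p, 0 ≤ w p) → (∀ q : ℤ × ℤ, ∑ p ∈ H.filter (fun p => p.2 = q), w p ≤ 1) →
    (∀ p ∈ H, p.1 ∈ grd N) →
    (∀ p ∈ H, c ≤ |((p.1.1:ℝ) - p0.1.1) / N| ∨ c ≤ |((p.1.2:ℝ) - p0.1.2) / N|) →
    (∀ p ∈ H, (Tb N p ∩ Tb N p0).Nonempty) →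
    (∀ p ∈ H, ENNReal.ofReal (e / (N:ℝ) ^ 2) ≤ volume (Tb N p ∩ X)) →
    ENNReal.ofReal (e ^ 3 * ∑ p ∈ H, w p) ≤ ENNReal.ofReal (C * (N:ℝ) ^ 2 * (1 + Real.log N)) * volume X

end Vale.Agent.P106.Q
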