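import Vale.Agent.P106.Q.HairD
import Vale.Agent.P106.Q.BIL3D

/-! # P106 / Q : the hairbrush bound StHB -/

open MeasureTheory Complex Set
open scoped ENNReal NNReal

set_option linter.all false

namespace Vale.Agent.P106.Q

open Vale.Agent.P106.G

theorem Tb_eq {N : ℕ} (hN : 1 ≤ N) (p : (ℤ × ℤ) × (ℤ × ℤ)) : Tb N p = Hair.Tb N p.1 p.2 := by
  have hN0 : (N:ℝ) ≠ 0 := by exact_mod_cast (by omega : N ≠ 0)
  ext z
  have e : ∀ s t k : ℝ, (N:ℝ) * (s - t * (k / N)) = N * s - t * k := by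
    intro s t k; field_simp
  simp only [Tb, Hair.Tb, fl, bs, mem_setOf_eq, e, Prod.ext_iff, Int.floor_eq_iff]

theorem stHB : StHB := by
  intro c hc
  refine ⟨2 * Hair.Cst c, by have := Hair.Cst0 hc; positivity, ?_⟩
  intro N X e p0 H w hN mX he he1 hk0 hw0 hw hg hd hm hX
  have h := Hair.hair (N := N) hN hc he he1 (k0 := p0.1) (q0 := p0.2) hk0 (H := H) (w := fun p => ENNReal.ofReal (w p))
    hg hd (fun i hi => by have := hm i hi; rwa [Tb_eq hN, Tb_eq hN] at this) (fun i _ => ENNReal.ofReal_ne_top)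
    (fun q => by
      rw [← ENNReal.ofReal_sum_of_nonneg fun i _ => hw0 i, ← ENNReal.ofReal_one]
      exact ENNReal.ofReal_le_ofReal (hw q)) mX
    (fun i hi => by have := hX i hi; rwa [Tb_eq hN] at this)
  rw [← ENNReal.ofReal_sum_of_nonneg fun i _ => hw0 i, ← ENNReal.ofReal_mul (by positivity)] at h
  exact h

end Vale.Agent.P106.Q
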