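import Vale.Agent.P106.Q.BIL3f
import Vale.Agent.P106.Q.HairE

/-! # P106 / Q : block BIL3 -/

namespace Vale.Agent.P106.Q

/-- [BIL3] the flat bilinear level set estimate -/
theorem stBIL3 : StBIL3 := stBIL3_of_HB stHB

end Vale.Agent.P106.Q
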