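import Vale.Agent.P106.Q.BIL3D

/-! # P106 / Q : block BIL3, part (A): cells, tubes, volumes -/

open MeasureTheory Complex Set
open scoped ENNReal NNReal

set_option linter.all false

namespace Vale.Agent.P106.Q

open Vale.Agent.P106.G

/-- corner of a cell -/
noncomputable def b3cr (N : ℕ) (q : ℤ × ℤ) : ℝ × ℝ := ((q.1:ℝ) / N, (q.2:ℝ) / N)

theorem b3_fl_iff (N : ℕ) (s : ℝ × ℝ) (q : ℤ × ℤ) :
    fl N s = q ↔ ((q.1:ℝ) ≤ N * s.1 ∧ N * s.1 < q.1 + 1) ∧ ((q.2:ℝ) ≤ N * s.2 ∧ N * s.2 < q.2 + 1) := by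
  rw [fl, Prod.ext_iff]
  simp only [Int.floor_eq_iff]

theorem b3_near {N : ℕ} (hN : 1 ≤ N) {s : ℝ × ℝ} {q : ℤ × ℤ} (h : fl N s = q) :
    |s.1 - (b3cr N q).1| ≤ 1 / (N:ℝ) ∧ |s.2 - (b3cr N q).2| ≤ 1 / (N:ℝ) := by
  rw [b3_fl_iff] at h
  have hN' : (0:ℝ) < N := by exact_mod_cast hN
  have key : ∀ (a : ℝ) (b : ℤ), (b:ℝ) ≤ N * a → N * a < b + 1 → |a - b / N| ≤ 1 / (N:ℝ) := by
    intro a b h1 h2
    have h3 : a - b / N = (N * a - b) / N := by field_simp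
    rw [h3, abs_div, abs_of_pos hN']
    apply div_le_div_of_nonneg_right _ hN'.le
    rw [abs_le]; constructor <;> linarith
  exact ⟨key _ _ h.1.1 h.1.2, key _ _ h.2.1 h.2.2⟩

theorem b3_fl_cr {N : ℕ} (hN : 1 ≤ N) (q : ℤ × ℤ) : fl N (b3cr N q) = q := by
  have hN' : (N:ℝ) ≠ 0 := by exact_mod_cast (by omega : N ≠ 0)
  rw [b3_fl_iff]
  have e : ∀ a : ℤ, (N:ℝ) * ((a:ℝ) / N) = a := fun a => by field_simp
  simp only [b3cr, e]
  refine ⟨⟨le_rfl, by linarith⟩, le_rfl, by linarith⟩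

theorem b3_mu_le {C0 : ℝ} {N : ℕ} {μ : ℤ × ℤ → ℝ × ℝ → ℝ≥0∞} (hN : 1 ≤ N) (h : DenF C0 N μ)
    {s : ℝ × ℝ} {q : ℤ × ℤ} (hs : fl N s = q) (k : ℤ × ℤ) :
    μ k s ≤ ENNReal.ofReal C0 * μ k (b3cr N q) := by
  have e := hs.trans (b3_fl_cr hN q).symm
  exact h.slow k _ _ (congrArg Prod.fst e) (congrArg Prod.snd e)

theorem b3_le_mu {C0 : ℝ} {N : ℕ} {μ : ℤ × ℤ → ℝ × ℝ → ℝ≥0∞} (hN : 1 ≤ N) (h : DenF C0 N μ)
    {s : ℝ × ℝ} {q : ℤ × ℤ} (hs : fl N s = q) (k : ℤ × ℤ) :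
    μ k (b3cr N q) ≤ ENNReal.ofReal C0 * μ k s := by
  have e := (b3_fl_cr hN q).trans hs.symm
  exact h.slow k _ _ (congrArg Prod.fst e) (congrArg Prod.snd e)

theorem b3_meas_fl (N : ℕ) : Measurable (fl N) := by
  unfold fl
  exact Measurable.prodMk (Int.measurable_floor.comp (measurable_const.mul measurable_fst))
    (Int.measurable_floor.comp (measurable_const.mul measurable_snd))

theorem b3_meas_bs (N : ℕ) (k : ℤ × ℤ) : Measurable (bs N k) := by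
  unfold bs
  exact Measurable.prodMk
    ((measurable_fst.comp measurable_snd).sub (measurable_fst.mul measurable_const))
    ((measurable_snd.comp measurable_snd).sub (measurable_fst.mul measurable_const))

theorem b3_meas_tube (N : ℕ) (p : (ℤ × ℤ) × (ℤ × ℤ)) {J : Set ℝ} (hJ : MeasurableSet J) :
    MeasurableSet {z : ℝ × (ℝ × ℝ) | z.1 ∈ J ∧ fl N (bs N p.1 z) = p.2} := by
  apply MeasurableSet.inter
  · exact measurable_fst hJ
  · exact (b3_meas_fl N).comp (b3_meas_bs N p.1) (measurableSet_singleton p.2)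

theorem b3_meas_Tb (N : ℕ) (p : (ℤ × ℤ) × (ℤ × ℤ)) : MeasurableSet (Tb N p) := by
  have := b3_meas_tube N p (measurableSet_Icc : MeasurableSet (Icc (1/2:ℝ) 4))
  exact this

theorem b3_vol_cell {N : ℕ} (hN : 1 ≤ N) (a b : ℝ) (q : ℤ × ℤ) :
    volume {s : ℝ × ℝ | fl N (s.1 - a, s.2 - b) = q} = ENNReal.ofReal (1 / (N:ℝ) ^ 2) := by
  have hN' : (0:ℝ) < N := by exact_mod_cast hN
  have hset : {s : ℝ × ℝ | fl N (s.1 - a, s.2 - b) = q} =
      Ico (a + q.1 / N) (a + (q.1 + 1) / N) ×ˢ Ico (b + q.2 / N) (b + (q.2 + 1) / N) := by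
    ext s
    rw [mem_setOf_eq, b3_fl_iff, mem_prod, mem_Ico, mem_Ico]
    have key : ∀ (x y : ℝ) (m : ℤ), ((m:ℝ) ≤ N * (x - y) ∧ N * (x - y) < m + 1) ↔
        (y + m / N ≤ x ∧ x < y + (m + 1) / N) := by
      intro x y m
      constructor
      · rintro ⟨h1, h2⟩
        constructor
        · have : (m:ℝ) / N ≤ x - y := by rw [div_le_iff₀ hN']; linarith
          linarith
        · have : x - y < (m + 1) / N := by rw [lt_div_iff₀ hN']; linarith
          linarith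
      · rintro ⟨h1, h2⟩
        constructor
        · have : (m:ℝ) / N ≤ x - y := by linarith
          rw [div_le_iff₀ hN'] at this; linarith
        · have : x - y < (m + 1) / N := by linarith
          rw [lt_div_iff₀ hN'] at this; linarith
    exact and_congr (key _ _ _) (key _ _ _)
  rw [hset, Measure.volume_eq_prod, Measure.prod_prod, Real.volume_Ico, Real.volume_Ico,
    ← ENNReal.ofReal_mul (by
      have : a + ((q.1:ℝ) + 1) / N - (a + q.1 / N) = 1 / N := by field_simp; ring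
      rw [this]; positivity)]
  congr 1
  field_simp
  ring

theorem b3_vol_le {N : ℕ} (hN : 1 ≤ N) {A : Set (ℝ × (ℝ × ℝ))} (p : (ℤ × ℤ) × (ℤ × ℤ)) {J : Set ℝ}
    (hJ : MeasurableSet J) (hAJ : ∀ z ∈ A, z.1 ∈ J ∧ fl N (bs N p.1 z) = p.2) :
    volume A ≤ volume J * ENNReal.ofReal (1 / (N:ℝ) ^ 2) := by
  calc volume A ≤ volume {z : ℝ × (ℝ × ℝ) | z.1 ∈ J ∧ fl N (bs N p.1 z) = p.2} :=
        measure_mono fun z hz => hAJ z hz
    _ = ∫⁻ t, volume (Prod.mk t ⁻¹' {z : ℝ × (ℝ × ℝ) | z.1 ∈ J ∧ fl N (bs N p.1 z) = p.2}) := by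
        rw [Measure.volume_eq_prod, Measure.prod_apply (b3_meas_tube N p hJ)]
    _ ≤ ∫⁻ t, J.indicator (fun _ => ENNReal.ofReal (1 / (N:ℝ) ^ 2)) t := by
        apply lintegral_mono
        intro t
        by_cases ht : t ∈ J
        · rw [indicator_of_mem ht]
          have hs : Prod.mk t ⁻¹' {z : ℝ × (ℝ × ℝ) | z.1 ∈ J ∧ fl N (bs N p.1 z) = p.2} =
              {s : ℝ × ℝ | fl N (s.1 - t * (p.1.1 / N), s.2 - t * (p.1.2 / N)) = p.2} := by
            ext s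
            simp only [mem_preimage, mem_setOf_eq, bs]
            exact ⟨fun h => h.2, fun h => ⟨ht, h⟩⟩
          show volume (Prod.mk t ⁻¹' _) ≤ _
          rw [hs, b3_vol_cell hN]
        · have hs : Prod.mk t ⁻¹' {z : ℝ × (ℝ × ℝ) | z.1 ∈ J ∧ fl N (bs N p.1 z) = p.2} = ∅ := by
            ext s
            simp only [mem_preimage, mem_setOf_eq, mem_empty_iff_false, iff_false]
            exact fun h => ht h.1
          show volume (Prod.mk t ⁻¹' _) ≤ _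
          rw [hs, measure_empty]
          exact zero_le'
    _ = volume J * ENNReal.ofReal (1 / (N:ℝ) ^ 2) := by
        rw [lintegral_indicator hJ, setLIntegral_const, mul_comm]

theorem b3_vol_Tb {N : ℕ} (hN : 1 ≤ N) (p : (ℤ × ℤ) × (ℤ × ℤ)) :
    volume (Tb N p) ≤ ENNReal.ofReal (4 / (N:ℝ) ^ 2) := by
  have h := b3_vol_le hN p (A := Tb N p) (J := Icc (1/2:ℝ) 4) measurableSet_Icc
    (fun z hz => ⟨⟨hz.1.1, hz.1.2⟩, hz.2⟩)
  refine h.trans ?_
  rw [Real.volume_Icc, ← ENNReal.ofReal_mul (by norm_num)]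
  apply ENNReal.ofReal_le_ofReal
  have : (0:ℝ) ≤ 1 / (N:ℝ) ^ 2 := by positivity
  have h4 : (4:ℝ) / (N:ℝ) ^ 2 = 4 * (1 / (N:ℝ) ^ 2) := by ring
  rw [h4]
  nlinarith

/-- two transversal tubes meet in a set of measure `O(N⁻³)` -/
theorem b3_vol_inter {c : ℝ} (hc : 0 < c) {N : ℕ} (hN : 1 ≤ N) (p p0 : (ℤ × ℤ) × (ℤ × ℤ))
    (h : c ≤ |((p.1.1:ℝ) - p0.1.1) / N| ∨ c ≤ |((p.1.2:ℝ) - p0.1.2) / N|) :
    volume (Tb N p ∩ Tb N p0) ≤ ENNReal.ofReal (2 / c / (N:ℝ) ^ 3) := by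
  have hN' : (0:ℝ) < N := by exact_mod_cast hN
  -- the general one-coordinate statement
  have key : ∀ (D m : ℝ), c ≤ |D / N| →
      (∀ z ∈ Tb N p ∩ Tb N p0, |z.1 * D - m| ≤ 1) →
      volume (Tb N p ∩ Tb N p0) ≤ ENNReal.ofReal (2 / c / (N:ℝ) ^ 3) := by
    intro D m hD hz
    have hDabs : c * N ≤ |D| := by
      rw [abs_div, abs_of_pos hN', le_div_iff₀ hN'] at hD
      exact hD
    have hDpos : 0 < |D| := lt_of_lt_of_le (by positivity) hDabs
    have hD0 : D ≠ 0 := abs_pos.1 hDpos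
    have h1 := b3_vol_le hN p (A := Tb N p ∩ Tb N p0) (J := Metric.closedBall (m / D) (1 / |D|))
      Metric.isClosed_closedBall.measurableSet (fun z hz' => ⟨by
        rw [Metric.mem_closedBall, Real.dist_eq]
        have h2 : z.1 - m / D = (z.1 * D - m) / D := by field_simp
        rw [h2, abs_div]
        exact div_le_div_of_nonneg_right (hz z hz') hDpos.le, hz'.1.2⟩)
    refine h1.trans ?_
    rw [Real.volume_closedBall, ← ENNReal.ofReal_mul (by positivity)]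
    apply ENNReal.ofReal_le_ofReal
    have h3 : 1 / |D| ≤ 1 / (c * N) := one_div_le_one_div_of_le (by positivity) hDabs
    calc 2 * (1 / |D|) * (1 / (N:ℝ) ^ 2) ≤ 2 * (1 / (c * N)) * (1 / (N:ℝ) ^ 2) := by
          apply mul_le_mul_of_nonneg_right _ (by positivity)
          linarith
      _ = 2 / c / (N:ℝ) ^ 3 := by field_simp
  rcases h with h | h
  · refine key _ ((p0.2.1:ℝ) - p.2.1) h ?_
    rintro z ⟨hz, hz0⟩
    have e1 := (b3_fl_iff N _ _).1 hz.2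
    have e2 := (b3_fl_iff N _ _).1 hz0.2
    simp only [bs] at e1 e2
    have f1 : (N:ℝ) * (z.2.1 - z.1 * (p.1.1 / N)) = N * z.2.1 - z.1 * p.1.1 := by field_simp
    have f2 : (N:ℝ) * (z.2.1 - z.1 * (p0.1.1 / N)) = N * z.2.1 - z.1 * p0.1.1 := by field_simp
    rw [f1] at e1
    rw [f2] at e2
    rw [abs_le]
    constructor <;> nlinarith [e1.1.1, e1.1.2, e2.1.1, e2.1.2]
  · refine key _ ((p0.2.2:ℝ) - p.2.2) h ?_
    rintro z ⟨hz, hz0⟩
    have e1 := (b3_fl_iff N _ _).1 hz.2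
    have e2 := (b3_fl_iff N _ _).1 hz0.2
    simp only [bs] at e1 e2
    have f1 : (N:ℝ) * (z.2.2 - z.1 * (p.1.2 / N)) = N * z.2.2 - z.1 * p.1.2 := by field_simp
    have f2 : (N:ℝ) * (z.2.2 - z.1 * (p0.1.2 / N)) = N * z.2.2 - z.1 * p0.1.2 := by field_simp
    rw [f1] at e1
    rw [f2] at e2
    rw [abs_le]
    constructor <;> nlinarith [e1.2.1, e1.2.2, e2.2.1, e2.2.2]

end Vale.Agent.P106.Q
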