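import Vale.Agent.P106.Q.BIL3a

/-! # P106 / Q : block BIL3, part (A): decomposition of integrals into tubes -/

open MeasureTheory Complex Set
open scoped ENNReal NNReal

set_option linter.all false

namespace Vale.Agent.P106.Q

open Vale.Agent.P106.G

theorem b3_cover (N : ℕ) (k : ℤ × ℤ) {Y : Set (ℝ × (ℝ × ℝ))} (hY : ∀ z ∈ Y, 1/2 ≤ z.1 ∧ z.1 ≤ 4) :
    Y = ⋃ q : ℤ × ℤ, (Tb N (k, q) ∩ Y) := by
  ext z
  simp only [mem_iUnion, mem_inter_iff]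
  constructor
  · intro hz
    exact ⟨fl N (bs N k z), ⟨hY z hz, rfl⟩, hz⟩
  · rintro ⟨q, _, hz⟩
    exact hz

/-- upper bound of an integral by a sum over tubes -/
theorem b3_decomp {C0 : ℝ} {N : ℕ} {μ : ℤ × ℤ → ℝ × ℝ → ℝ≥0∞} (hN : 1 ≤ N) (h : DenF C0 N μ)
    {Y : Set (ℝ × (ℝ × ℝ))} (hYm : MeasurableSet Y) (hY : ∀ z ∈ Y, 1/2 ≤ z.1 ∧ z.1 ≤ 4)
    (k : ℤ × ℤ) (φ : ℤ × ℤ → ℝ≥0∞) (g : ℝ × (ℝ × ℝ) → ℝ≥0∞) (hg : Measurable g) :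
    ∫⁻ z in Y, φ (fl N (bs N k z)) * μ k (bs N k z) * g z ≤
      ∑' q : ℤ × ℤ, φ q * (ENNReal.ofReal C0 * μ k (b3cr N q)) * ∫⁻ z in Tb N (k, q) ∩ Y, g z := by
  conv_lhs => rw [b3_cover N k hY]
  refine (lintegral_iUnion_le _ _).trans ?_
  apply ENNReal.tsum_le_tsum
  intro q
  calc ∫⁻ z in Tb N (k, q) ∩ Y, φ (fl N (bs N k z)) * μ k (bs N k z) * g z
      ≤ ∫⁻ z in Tb N (k, q) ∩ Y, φ q * (ENNReal.ofReal C0 * μ k (b3cr N q)) * g z := by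
        apply setLIntegral_mono' ((b3_meas_Tb N (k, q)).inter hYm)
        intro z hz
        have hq : fl N (bs N k z) = q := hz.1.2
        have h1 := b3_mu_le hN h hq k
        rw [hq]
        gcongr
    _ = φ q * (ENNReal.ofReal C0 * μ k (b3cr N q)) * ∫⁻ z in Tb N (k, q) ∩ Y, g z :=
        lintegral_const_mul _ hg

/-- the sum of the corner values is bounded by the integral -/
theorem b3_corner_sum {C0 : ℝ} {N : ℕ} {μ : ℤ × ℤ → ℝ × ℝ → ℝ≥0∞} (hN : 1 ≤ N) (h : DenF C0 N μ)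
    (k : ℤ × ℤ) :
    ∑' q : ℤ × ℤ, μ k (b3cr N q) * ENNReal.ofReal (1 / (N:ℝ) ^ 2) ≤ ENNReal.ofReal C0 * ∫⁻ s, μ k s := by
  have hcell : ∀ q : ℤ × ℤ, MeasurableSet {s : ℝ × ℝ | fl N s = q} := fun q =>
    (b3_meas_fl N) (measurableSet_singleton q)
  have hvol : ∀ q : ℤ × ℤ, volume {s : ℝ × ℝ | fl N s = q} = ENNReal.ofReal (1 / (N:ℝ) ^ 2) := by
    intro q
    have := b3_vol_cell hN 0 0 q
    simpa using this
  have h1 : ∀ q : ℤ × ℤ, μ k (b3cr N q) * ENNReal.ofReal (1 / (N:ℝ) ^ 2) ≤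
      ∫⁻ s in {s : ℝ × ℝ | fl N s = q}, ENNReal.ofReal C0 * μ k s := by
    intro q
    rw [← hvol q, ← setLIntegral_const]
    apply setLIntegral_mono' (hcell q)
    intro s hs
    exact b3_le_mu hN h hs k
  calc ∑' q : ℤ × ℤ, μ k (b3cr N q) * ENNReal.ofReal (1 / (N:ℝ) ^ 2)
      ≤ ∑' q : ℤ × ℤ, ∫⁻ s in {s : ℝ × ℝ | fl N s = q}, ENNReal.ofReal C0 * μ k s :=
        ENNReal.tsum_le_tsum h1
    _ = ∫⁻ s in ⋃ q : ℤ × ℤ, {s : ℝ × ℝ | fl N s = q}, ENNReal.ofReal C0 * μ k s := by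
        rw [lintegral_iUnion hcell]
        intro q q' hqq'
        rw [Function.onFun, Set.disjoint_left]
        intro s hs hs'
        exact hqq' (hs.symm.trans hs')
    _ ≤ ∫⁻ s, ENNReal.ofReal C0 * μ k s := setLIntegral_le_lintegral _ _
    _ = ENNReal.ofReal C0 * ∫⁻ s, μ k s := lintegral_const_mul _ (h.meas k)

/-- sum over the directions of the previous bound -/
theorem b3_corner_total {C0 : ℝ} {N : ℕ} {μ : ℤ × ℤ → ℝ × ℝ → ℝ≥0∞} (hN : 1 ≤ N) (h : DenF C0 N μ) :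
    ∑ k ∈ grd N, ∑' q : ℤ × ℤ, μ k (b3cr N q) * ENNReal.ofReal (1 / (N:ℝ) ^ 2) ≤
      ENNReal.ofReal C0 * ∑ k ∈ grd N, ∫⁻ s, μ k s := by
  rw [Finset.mul_sum]
  exact Finset.sum_le_sum fun k _ => b3_corner_sum hN h k

/-- If every tube carries at most `B/N²` of `g`, the integral of `Wf * g` is at most `C0² B E`. -/
theorem b3_total {C0 : ℝ} {N : ℕ} {μ : ℤ × ℤ → ℝ × ℝ → ℝ≥0∞} (hN : 1 ≤ N) (h : DenF C0 N μ)
    {Y : Set (ℝ × (ℝ × ℝ))} (hYm : MeasurableSet Y) (hY : ∀ z ∈ Y, 1/2 ≤ z.1 ∧ z.1 ≤ 4)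
    (φ : (ℤ × ℤ) → (ℤ × ℤ) → ℝ≥0∞) (g : ℝ × (ℝ × ℝ) → ℝ≥0∞) (hg : Measurable g) (B : ℝ≥0∞)
    (hB : ∀ k ∈ grd N, ∀ q, μ k (b3cr N q) ≠ 0 →
      φ k q * ∫⁻ z in Tb N (k, q) ∩ Y, g z ≤ B * ENNReal.ofReal (1 / (N:ℝ) ^ 2)) :
    ∑ k ∈ grd N, ∫⁻ z in Y, φ k (fl N (bs N k z)) * μ k (bs N k z) * g z ≤
      ENNReal.ofReal C0 * ENNReal.ofReal C0 * B * ∑ k ∈ grd N, ∫⁻ s, μ k s := by
  calc ∑ k ∈ grd N, ∫⁻ z in Y, φ k (fl N (bs N k z)) * μ k (bs N k z) * g z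
      ≤ ∑ k ∈ grd N, ∑' q : ℤ × ℤ, ENNReal.ofReal C0 * B *
          (μ k (b3cr N q) * ENNReal.ofReal (1 / (N:ℝ) ^ 2)) := by
        apply Finset.sum_le_sum
        intro k hk
        refine (b3_decomp hN h hYm hY k (φ k) g hg).trans ?_
        apply ENNReal.tsum_le_tsum
        intro q
        by_cases h0 : μ k (b3cr N q) = 0
        · rw [h0]; simp
        · have h1 := hB k hk q h0
          calc φ k q * (ENNReal.ofReal C0 * μ k (b3cr N q)) * ∫⁻ z in Tb N (k, q) ∩ Y, g z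
              = ENNReal.ofReal C0 * μ k (b3cr N q) * (φ k q * ∫⁻ z in Tb N (k, q) ∩ Y, g z) := by ring
            _ ≤ ENNReal.ofReal C0 * μ k (b3cr N q) * (B * ENNReal.ofReal (1 / (N:ℝ) ^ 2)) := by gcongr
            _ = _ := by ring
    _ = ENNReal.ofReal C0 * B * ∑ k ∈ grd N, ∑' q : ℤ × ℤ,
          (μ k (b3cr N q) * ENNReal.ofReal (1 / (N:ℝ) ^ 2)) := by
        rw [Finset.mul_sum]
        exact Finset.sum_congr rfl fun k _ => ENNReal.tsum_mul_left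
    _ ≤ ENNReal.ofReal C0 * B * (ENNReal.ofReal C0 * ∑ k ∈ grd N, ∫⁻ s, μ k s) := by
        gcongr
        exact b3_corner_total hN h
    _ = _ := by ring

theorem b3_meas_term {C0 : ℝ} {N : ℕ} {μ : ℤ × ℤ → ℝ × ℝ → ℝ≥0∞} (h : DenF C0 N μ) (k : ℤ × ℤ) :
    Measurable fun z : ℝ × (ℝ × ℝ) => μ k (bs N k z) := (h.meas k).comp (b3_meas_bs N k)

theorem b3_meas_phi (N : ℕ) (k : ℤ × ℤ) (φ : ℤ × ℤ → ℝ≥0∞) :
    Measurable fun z : ℝ × (ℝ × ℝ) => φ (fl N (bs N k z)) :=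
  (measurable_of_countable φ).comp ((b3_meas_fl N).comp (b3_meas_bs N k))

theorem b3_Wf (N : ℕ) (μ : ℤ × ℤ → ℝ × ℝ → ℝ≥0∞) (z : ℝ × (ℝ × ℝ)) :
    Wf N μ z.1 z.2 = ∑ k ∈ grd N, μ k (bs N k z) := rfl

theorem b3_meas_Wf {C0 : ℝ} {N : ℕ} {μ : ℤ × ℤ → ℝ × ℝ → ℝ≥0∞} (h : DenF C0 N μ) :
    Measurable fun z : ℝ × (ℝ × ℝ) => Wf N μ z.1 z.2 := by
  simp only [b3_Wf]
  exact Finset.measurable_sum _ fun k _ => b3_meas_term h k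

/-- the mass of `Wf` on `X` -/
theorem b3_mass {C0 : ℝ} {N : ℕ} {μ : ℤ × ℤ → ℝ × ℝ → ℝ≥0∞} (hN : 1 ≤ N) (h : DenF C0 N μ)
    {Y : Set (ℝ × (ℝ × ℝ))} (hYm : MeasurableSet Y) (hY : ∀ z ∈ Y, 1/2 ≤ z.1 ∧ z.1 ≤ 4) :
    ∫⁻ z in Y, Wf N μ z.1 z.2 ≤
      ENNReal.ofReal C0 * ENNReal.ofReal C0 * ENNReal.ofReal 4 * ∑ k ∈ grd N, ∫⁻ s, μ k s := by
  have hN' : (0:ℝ) < N := by exact_mod_cast hN
  have h1 : ∫⁻ z in Y, Wf N μ z.1 z.2 =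
      ∑ k ∈ grd N, ∫⁻ z in Y, 1 * μ k (bs N k z) * 1 := by
    simp only [b3_Wf]
    rw [lintegral_finset_sum _ fun k _ => b3_meas_term h k]
    simp
  rw [h1]
  apply b3_total hN h hYm hY (fun _ _ => 1) (fun _ => 1) measurable_const
  intro k hk q _
  rw [one_mul, setLIntegral_one]
  calc volume (Tb N (k, q) ∩ Y) ≤ volume (Tb N (k, q)) := measure_mono inter_subset_left
    _ ≤ ENNReal.ofReal (4 / (N:ℝ) ^ 2) := b3_vol_Tb hN _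
    _ = ENNReal.ofReal 4 * ENNReal.ofReal (1 / (N:ℝ) ^ 2) := by
        rw [← ENNReal.ofReal_mul (by norm_num)]
        congr 1; ring

end Vale.Agent.P106.Q
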