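import Vale.Agent.P106.Q.BIL3b

/-! # P106 / Q : block BIL3, part (A): from the hairbrush bound to one half of the bilinear estimate -/

open MeasureTheory Complex Set
open scoped ENNReal NNReal

set_option linter.all false

namespace Vale.Agent.P106.Q

open Vale.Agent.P106.G

/-- conclusion of the hairbrush bound with constants `c`, `C` -/
def HBc (c C : ℝ) : Prop :=
  ∀ (N : ℕ) (X : Set (ℝ × (ℝ × ℝ))) (e : ℝ) (p0 : (ℤ × ℤ) × (ℤ × ℤ)) (H : Finset ((ℤ × ℤ) × (ℤ × ℤ)))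
    (w : (ℤ × ℤ) × (ℤ × ℤ) → ℝ), 1 ≤ N → MeasurableSet X → 0 < e → e ≤ 1 → p0.1 ∈ grd N →
    (∀ p, 0 ≤ w p) → (∀ q : ℤ × ℤ, ∑ p ∈ H.filter (fun p => p.2 = q), w p ≤ 1) →
    (∀ p ∈ H, p.1 ∈ grd N) →
    (∀ p ∈ H, c ≤ |((p.1.1:ℝ) - p0.1.1) / N| ∨ c ≤ |((p.1.2:ℝ) - p0.1.2) / N|) →
    (∀ p ∈ H, (Tb N p ∩ Tb N p0).Nonempty) →
    (∀ p ∈ H, ENNReal.ofReal (e / (N:ℝ) ^ 2) ≤ volume (Tb N p ∩ X)) →
    ENNReal.ofReal (e ^ 3 * ∑ p ∈ H, w p) ≤ ENNReal.ofReal (C * (N:ℝ) ^ 2 * (1 + Real.log N)) * volume X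

theorem b3_hb_finite {c C : ℝ} (hHB : HBc c C) {N : ℕ} (hN : 1 ≤ N) {X : Set (ℝ × (ℝ × ℝ))}
    (hX : MeasurableSet X) {e : ℝ} (he : 0 < e) (he1 : e ≤ 1) {p0 : (ℤ × ℤ) × (ℤ × ℤ)}
    (hp0 : p0.1 ∈ grd N) (v : (ℤ × ℤ) → (ℤ × ℤ) → ℝ≥0∞) (hv : ∀ q, ∑ k ∈ grd N, v k q ≤ 1)
    (h1 : ∀ k ∈ grd N, ∀ q, v k q ≠ 0 →
      c ≤ |((k.1:ℝ) - p0.1.1) / N| ∨ c ≤ |((k.2:ℝ) - p0.1.2) / N|)
    (h2 : ∀ k ∈ grd N, ∀ q, v k q ≠ 0 → (Tb N (k, q) ∩ Tb N p0).Nonempty)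
    (h3 : ∀ k ∈ grd N, ∀ q, v k q ≠ 0 → ENNReal.ofReal (e / (N:ℝ) ^ 2) ≤ volume (Tb N (k, q) ∩ X))
    (F : Finset (ℤ × ℤ)) :
    ENNReal.ofReal (e ^ 3) * ∑ q ∈ F, ∑ k ∈ grd N, v k q ≤
      ENNReal.ofReal (C * (N:ℝ) ^ 2 * (1 + Real.log N)) * volume X := by
  classical
  let H : Finset ((ℤ × ℤ) × (ℤ × ℤ)) := ((grd N) ×ˢ F).filter fun p => v p.1 p.2 ≠ 0
  let w : (ℤ × ℤ) × (ℤ × ℤ) → ℝ := fun p => (v p.1 p.2).toReal
  have hmem : ∀ p ∈ H, p.1 ∈ grd N ∧ v p.1 p.2 ≠ 0 := by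
    intro p hp
    rw [Finset.mem_filter, Finset.mem_product] at hp
    exact ⟨hp.1.1, hp.2⟩
  have hle1 : ∀ k ∈ grd N, ∀ q, v k q ≤ 1 := fun k hk q =>
    (Finset.single_le_sum (f := fun k => v k q) (fun _ _ => zero_le') hk).trans (hv q)
  have hne : ∀ k ∈ grd N, ∀ q, v k q ≠ ⊤ := fun k hk q =>
    ne_top_of_le_ne_top ENNReal.one_ne_top (hle1 k hk q)
  have hw1 : ∀ q : ℤ × ℤ, ∑ p ∈ H.filter (fun p => p.2 = q), w p ≤ 1 := by
    intro q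
    have hsub : ∑ p ∈ H.filter (fun p => p.2 = q), w p ≤ ∑ k ∈ grd N, (v k q).toReal := by
      have e1 : ∑ p ∈ H.filter (fun p => p.2 = q), w p =
          ∑ k ∈ (H.filter (fun p => p.2 = q)).image Prod.fst, (v k q).toReal := by
        rw [Finset.sum_image]
        · apply Finset.sum_congr rfl
          intro p hp
          rw [Finset.mem_filter] at hp
          show (v p.1 p.2).toReal = _
          rw [hp.2]
        · intro p hp p' hp' hpp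
          have a1 := (Finset.mem_filter.1 (Finset.mem_coe.1 hp)).2
          have a2 := (Finset.mem_filter.1 (Finset.mem_coe.1 hp')).2
          exact Prod.ext hpp (a1.trans a2.symm)
      rw [e1]
      apply Finset.sum_le_sum_of_subset_of_nonneg
      · intro k hk
        rw [Finset.mem_image] at hk
        obtain ⟨p, hp, rfl⟩ := hk
        exact (hmem p (Finset.mem_filter.1 hp).1).1
      · intro _ _ _
        exact ENNReal.toReal_nonneg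
    refine hsub.trans ?_
    rw [← ENNReal.toReal_sum fun k hk => hne k hk q]
    exact ENNReal.toReal_le_of_le_ofReal zero_le_one (by simpa using hv q)
  have key := hHB N X e p0 H w hN hX he he1 hp0 (fun _ => ENNReal.toReal_nonneg) hw1
    (fun p hp => (hmem p hp).1) (fun p hp => h1 _ (hmem p hp).1 _ (hmem p hp).2)
    (fun p hp => h2 _ (hmem p hp).1 _ (hmem p hp).2) (fun p hp => h3 _ (hmem p hp).1 _ (hmem p hp).2)
  have e2 : ENNReal.ofReal (e ^ 3 * ∑ p ∈ H, w p) =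
      ENNReal.ofReal (e ^ 3) * ∑ q ∈ F, ∑ k ∈ grd N, v k q := by
    rw [ENNReal.ofReal_mul (by positivity), ENNReal.ofReal_sum_of_nonneg fun _ _ =>
      ENNReal.toReal_nonneg]
    congr 1
    rw [Finset.sum_comm, ← Finset.sum_product']
    calc ∑ p ∈ H, ENNReal.ofReal (w p) = ∑ p ∈ H, v p.1 p.2 :=
          Finset.sum_congr rfl fun p hp => ENNReal.ofReal_toReal (hne _ (hmem p hp).1 _)
      _ = ∑ p ∈ (grd N) ×ˢ F, v p.1 p.2 := Finset.sum_filter_ne_zero _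
  rw [e2] at key
  exact key

theorem b3_hb_sum {c C : ℝ} (hHB : HBc c C) {N : ℕ} (hN : 1 ≤ N) {X : Set (ℝ × (ℝ × ℝ))}
    (hX : MeasurableSet X) {e : ℝ} (he : 0 < e) (he1 : e ≤ 1) {p0 : (ℤ × ℤ) × (ℤ × ℤ)}
    (hp0 : p0.1 ∈ grd N) (v : (ℤ × ℤ) → (ℤ × ℤ) → ℝ≥0∞) (hv : ∀ q, ∑ k ∈ grd N, v k q ≤ 1)
    (h1 : ∀ k ∈ grd N, ∀ q, v k q ≠ 0 →
      c ≤ |((k.1:ℝ) - p0.1.1) / N| ∨ c ≤ |((k.2:ℝ) - p0.1.2) / N|)
    (h2 : ∀ k ∈ grd N, ∀ q, v k q ≠ 0 → (Tb N (k, q) ∩ Tb N p0).Nonempty)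
    (h3 : ∀ k ∈ grd N, ∀ q, v k q ≠ 0 → ENNReal.ofReal (e / (N:ℝ) ^ 2) ≤ volume (Tb N (k, q) ∩ X)) :
    ENNReal.ofReal (e ^ 3) * ∑ k ∈ grd N, ∑' q, v k q ≤
      ENNReal.ofReal (C * (N:ℝ) ^ 2 * (1 + Real.log N)) * volume X := by
  have hcomm : ∑ k ∈ grd N, ∑' q, v k q = ∑' q, ∑ k ∈ grd N, v k q :=
    (Summable.tsum_finsetSum fun _ _ => ENNReal.summable).symm
  rw [hcomm, ← ENNReal.tsum_mul_left]
  refine ENNReal.summable.tsum_le_of_sum_le fun F => ?_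
  rw [← Finset.mul_sum]
  exact b3_hb_finite hHB hN hX he he1 hp0 v hv h1 h2 h3 F

/-- the energy of a family with bounded base points -/
theorem b3_energy {C0 : ℝ} {N : ℕ} {μ : ℤ × ℤ → ℝ × ℝ → ℝ≥0∞} (h : DenF C0 N μ)
    (hs : ∀ k s, μ k s ≠ 0 → |s.1| ≤ 10 ∧ |s.2| ≤ 10) :
    ∑ k ∈ grd N, ∫⁻ s, μ k s ≤ ENNReal.ofReal 400 := by
  rw [← lintegral_finset_sum _ fun k _ => h.meas k]
  calc ∫⁻ s, ∑ k ∈ grd N, μ k s
      ≤ ∫⁻ s, (Icc (-10:ℝ) 10 ×ˢ Icc (-10:ℝ) 10).indicator (fun _ => (1:ℝ≥0∞)) s := by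
        apply lintegral_mono
        intro s
        by_cases hsm : s ∈ Icc (-10:ℝ) 10 ×ˢ Icc (-10:ℝ) 10
        · rw [indicator_of_mem hsm]
          exact h.sum s
        · rw [indicator_of_notMem hsm]
          apply le_of_eq
          apply Finset.sum_eq_zero
          intro k _
          by_contra h0
          obtain ⟨a, b⟩ := hs k s h0
          exact hsm ⟨abs_le.1 a, abs_le.1 b⟩
    _ = volume (Icc (-10:ℝ) 10 ×ˢ Icc (-10:ℝ) 10) := by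
        rw [lintegral_indicator (measurableSet_Icc.prod measurableSet_Icc), setLIntegral_one]
    _ = ENNReal.ofReal 400 := by
        rw [Measure.volume_eq_prod, Measure.prod_prod, Real.volume_Icc,
          ← ENNReal.ofReal_mul (by norm_num)]
        norm_num

end Vale.Agent.P106.Q
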