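import Vale.Agent.P106.Q.BIL3c

/-! # P106 / Q : block BIL3, part (A): the good part, the stem tube, one half of the estimate -/

open MeasureTheory Complex Set
open scoped ENNReal NNReal

set_option linter.all false

namespace Vale.Agent.P106.Q

open Vale.Agent.P106.G

/-- part of the transported density on the tubes selected by `φ` -/
noncomputable def b3W (N : ℕ) (μ : ℤ × ℤ → ℝ × ℝ → ℝ≥0∞) (φ : (ℤ × ℤ) → (ℤ × ℤ) → ℝ≥0∞)
    (z : ℝ × (ℝ × ℝ)) : ℝ≥0∞ := ∑ k ∈ grd N, φ k (fl N (bs N k z)) * μ k (bs N k z)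

theorem b3W_meas {C0 : ℝ} {N : ℕ} {μ : ℤ × ℤ → ℝ × ℝ → ℝ≥0∞} (h : DenF C0 N μ)
    (φ : (ℤ × ℤ) → (ℤ × ℤ) → ℝ≥0∞) : Measurable (b3W N μ φ) :=
  Finset.measurable_sum _ fun k _ => (b3_meas_phi N k (φ k)).mul (b3_meas_term h k)

theorem b3W_lintegral {C0 : ℝ} {N : ℕ} {μ : ℤ × ℤ → ℝ × ℝ → ℝ≥0∞} (h : DenF C0 N μ)
    (φ : (ℤ × ℤ) → (ℤ × ℤ) → ℝ≥0∞) (Y : Set (ℝ × (ℝ × ℝ))) :
    ∫⁻ z in Y, b3W N μ φ z = ∑ k ∈ grd N, ∫⁻ z in Y, φ k (fl N (bs N k z)) * μ k (bs N k z) * 1 := by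
  have hm : ∀ k, Measurable fun z : ℝ × (ℝ × ℝ) => φ k (fl N (bs N k z)) * μ k (bs N k z) :=
    fun k => (b3_meas_phi N k (φ k)).mul (b3_meas_term h k)
  unfold b3W
  rw [lintegral_finset_sum _ fun k _ => hm k]
  simp

theorem b3_ofReal_split {C0 δ : ℝ} (hC0 : 1 ≤ C0) {e1 : ℝ} (he : 0 ≤ e1) (hδ : δ = e1 / (2 * C0 ^ 2)) :
    ENNReal.ofReal C0 * ENNReal.ofReal C0 * ENNReal.ofReal δ = ENNReal.ofReal (1/2) * ENNReal.ofReal e1 := by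
  have h0 : 0 ≤ C0 := by linarith
  rw [← ENNReal.ofReal_mul h0, ← ENNReal.ofReal_mul (by positivity), ← ENNReal.ofReal_mul (by norm_num)]
  congr 1
  rw [hδ]
  have : C0 ≠ 0 := by positivity
  field_simp

/-- (3) the good tubes carry half of `σ1 |X|` -/
theorem b3_good {C0 : ℝ} (hC0 : 1 ≤ C0) {N : ℕ} {μ : ℤ × ℤ → ℝ × ℝ → ℝ≥0∞} (hN : 1 ≤ N)
    (h : DenF C0 N μ) {X : Set (ℝ × (ℝ × ℝ))} (hX : MeasurableSet X)
    (hXt : ∀ z ∈ X, 1/2 ≤ z.1 ∧ z.1 ≤ 4) {σ e δ : ℝ} (he : 0 ≤ e) (hδ : δ = e / (2 * C0 ^ 2))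
    (hσ : ∀ z ∈ X, ENNReal.ofReal σ ≤ Wf N μ z.1 z.2)
    (hE : ENNReal.ofReal e * ∑ k ∈ grd N, ∫⁻ s, μ k s ≤ ENNReal.ofReal σ * volume X)
    (hfin : volume X ≠ ⊤) (φ : (ℤ × ℤ) → (ℤ × ℤ) → ℝ≥0∞)
    (hφ : ∀ k q, (φ k q = 1 ∧ ENNReal.ofReal (δ / (N:ℝ) ^ 2) ≤ volume (Tb N (k, q) ∩ X)) ∨
      (φ k q = 0 ∧ volume (Tb N (k, q) ∩ X) ≤ ENNReal.ofReal (δ / (N:ℝ) ^ 2))) :
    ENNReal.ofReal (1/2) * (ENNReal.ofReal σ * volume X) ≤ ∫⁻ z in X, b3W N μ φ z := by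
  classical
  have hδ0 : 0 ≤ δ := by rw [hδ]; positivity
  set ψ : (ℤ × ℤ) → (ℤ × ℤ) → ℝ≥0∞ := fun k q => if φ k q = 0 then 1 else 0 with hψ
  have hsum : ∀ z, Wf N μ z.1 z.2 = b3W N μ φ z + b3W N μ ψ z := by
    intro z
    rw [b3_Wf, b3W, b3W, ← Finset.sum_add_distrib]
    apply Finset.sum_congr rfl
    intro k _
    rcases hφ k (fl N (bs N k z)) with ⟨h1, -⟩ | ⟨h1, -⟩
    · simp [hψ, h1]
    · simp [hψ, h1]
  have hbad : ∫⁻ z in X, b3W N μ ψ z ≤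
      ENNReal.ofReal (1/2) * (ENNReal.ofReal σ * volume X) := by
    rw [b3W_lintegral h]
    have h1 := b3_total hN h hX hXt ψ (fun _ => 1) measurable_const (ENNReal.ofReal δ) (by
      intro k _ q _
      rw [setLIntegral_one]
      have hd : ENNReal.ofReal δ * ENNReal.ofReal (1 / (N:ℝ) ^ 2) = ENNReal.ofReal (δ / (N:ℝ) ^ 2) := by
        rw [← ENNReal.ofReal_mul hδ0]
        congr 1
        ring
      rw [hd]
      rcases hφ k q with ⟨h1, -⟩ | ⟨h1, h2⟩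
      · simp [hψ, h1]
      · simpa [hψ, h1] using h2)
    refine h1.trans ?_
    rw [b3_ofReal_split hC0 he hδ, mul_assoc]
    gcongr
  have htot : ENNReal.ofReal σ * volume X ≤
      (∫⁻ z in X, b3W N μ φ z) + ∫⁻ z in X, b3W N μ ψ z := by
    rw [← lintegral_add_left (b3W_meas h φ), ← setLIntegral_const]
    apply setLIntegral_mono' hX
    intro z hz
    rw [← hsum z]
    exact hσ z hz
  have hafin : ENNReal.ofReal (1/2) * (ENNReal.ofReal σ * volume X) ≠ ⊤ :=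
    ENNReal.mul_ne_top ENNReal.ofReal_ne_top (ENNReal.mul_ne_top ENNReal.ofReal_ne_top hfin)
  have hhalf : ENNReal.ofReal (1/2) * (ENNReal.ofReal σ * volume X) +
      ENNReal.ofReal (1/2) * (ENNReal.ofReal σ * volume X) = ENNReal.ofReal σ * volume X := by
    rw [← add_mul, ← ENNReal.ofReal_add (by norm_num) (by norm_num)]
    norm_num
  have h2 : ENNReal.ofReal (1/2) * (ENNReal.ofReal σ * volume X) +
      ENNReal.ofReal (1/2) * (ENNReal.ofReal σ * volume X) ≤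
      (∫⁻ z in X, b3W N μ φ z) + ENNReal.ofReal (1/2) * (ENNReal.ofReal σ * volume X) := by
    rw [hhalf]
    exact htot.trans (by gcongr)
  exact (ENNReal.add_le_add_iff_right hafin).1 h2

/-- (4) there is a stem tube of the second family with a large integral of `g` -/
theorem b3_stem {C0 : ℝ} {N : ℕ} {μ : ℤ × ℤ → ℝ × ℝ → ℝ≥0∞} (hN : 1 ≤ N)
    (h : DenF C0 N μ) {X : Set (ℝ × (ℝ × ℝ))} (hX : MeasurableSet X)
    (hXt : ∀ z ∈ X, 1/2 ≤ z.1 ∧ z.1 ≤ 4) {σ : ℝ}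
    (hσ : ∀ z ∈ X, ENNReal.ofReal σ ≤ Wf N μ z.1 z.2) (g : ℝ × (ℝ × ℝ) → ℝ≥0∞) (hg : Measurable g)
    (B : ℝ≥0∞)
    (hB : ENNReal.ofReal C0 * ENNReal.ofReal C0 * B * ∑ k ∈ grd N, ∫⁻ s, μ k s <
      ENNReal.ofReal σ * ∫⁻ z in X, g z) :
    ∃ k ∈ grd N, ∃ q, μ k (b3cr N q) ≠ 0 ∧
      B * ENNReal.ofReal (1 / (N:ℝ) ^ 2) < ∫⁻ z in Tb N (k, q) ∩ X, g z := by
  by_contra hcon
  push Not at hcon
  have h1 := b3_total hN h hX hXt (fun _ _ => 1) g hg B (by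
    intro k hk q hq
    rw [one_mul]
    exact hcon k hk q hq)
  have h2 : ENNReal.ofReal σ * ∫⁻ z in X, g z ≤
      ∑ k ∈ grd N, ∫⁻ z in X, 1 * μ k (bs N k z) * g z := by
    have hm : ∀ k, Measurable fun z : ℝ × (ℝ × ℝ) => 1 * μ k (bs N k z) * g z :=
      fun k => (measurable_const.mul (b3_meas_term h k)).mul hg
    rw [← lintegral_finset_sum _ fun k _ => hm k,
      ← lintegral_const_mul _ hg]
    apply setLIntegral_mono' hX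
    intro z hz
    rw [← Finset.sum_mul]
    simp only [one_mul]
    rw [← b3_Wf]
    gcongr
    exact hσ z hz
  exact absurd (hB.trans_le h2) (not_lt.2 h1)

/-- (5) the integral of the good part on the stem tube -/
theorem b3_stem_le {C0 c : ℝ} (hc : 0 < c) (hC0 : 1 ≤ C0) {N : ℕ} {μ : ℤ × ℤ → ℝ × ℝ → ℝ≥0∞} (hN : 1 ≤ N)
    (h : DenF C0 N μ) {X : Set (ℝ × (ℝ × ℝ))} (hX : MeasurableSet X) (p0 : (ℤ × ℤ) × (ℤ × ℤ))
    (φ v : (ℤ × ℤ) → (ℤ × ℤ) → ℝ≥0∞)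
    (hv : ∀ k ∈ grd N, ∀ q, v k q = φ k q * μ k (b3cr N q) ∨
      φ k q * μ k (b3cr N q) * volume (Tb N (k, q) ∩ (Tb N p0 ∩ X)) = 0)
    (hsep : ∀ k ∈ grd N, ∀ q, v k q ≠ 0 →
      c ≤ |((k.1:ℝ) - p0.1.1) / N| ∨ c ≤ |((k.2:ℝ) - p0.1.2) / N|) :
    ∫⁻ z in Tb N p0 ∩ X, b3W N μ φ z ≤
      ENNReal.ofReal C0 * ENNReal.ofReal (2 / c / (N:ℝ) ^ 3) * ∑ k ∈ grd N, ∑' q, v k q := by
  rw [b3W_lintegral h, Finset.mul_sum]
  apply Finset.sum_le_sum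
  intro k hk
  refine (b3_decomp hN h ((b3_meas_Tb N p0).inter hX) (fun z hz => hz.1.1) k (φ k) (fun _ => 1)
    measurable_const).trans ?_
  rw [← ENNReal.tsum_mul_left]
  apply ENNReal.tsum_le_tsum
  intro q
  rw [setLIntegral_one]
  rcases hv k hk q with h1 | h1
  · by_cases hv0 : v k q = 0
    · rw [hv0, mul_zero]
      have h2 : φ k q * μ k (b3cr N q) = 0 := by rw [← h1, hv0]
      have h3 : φ k q * (ENNReal.ofReal C0 * μ k (b3cr N q)) = 0 := by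
        calc φ k q * (ENNReal.ofReal C0 * μ k (b3cr N q)) =
            ENNReal.ofReal C0 * (φ k q * μ k (b3cr N q)) := by ring
          _ = 0 := by rw [h2, mul_zero]
      rw [h3, zero_mul]
    · have hvol := b3_vol_inter hc hN (k, q) p0 (hsep k hk q hv0)
      calc φ k q * (ENNReal.ofReal C0 * μ k (b3cr N q)) * volume (Tb N (k, q) ∩ (Tb N p0 ∩ X))
          = ENNReal.ofReal C0 * (φ k q * μ k (b3cr N q)) * volume (Tb N (k, q) ∩ (Tb N p0 ∩ X)) := by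
            ring
        _ ≤ ENNReal.ofReal C0 * (φ k q * μ k (b3cr N q)) * ENNReal.ofReal (2 / c / (N:ℝ) ^ 3) := by
            gcongr
            refine (measure_mono ?_).trans hvol
            intro z hz
            exact ⟨hz.1, hz.2.1⟩
        _ = ENNReal.ofReal C0 * ENNReal.ofReal (2 / c / (N:ℝ) ^ 3) * v k q := by rw [h1]; ring
  · calc φ k q * (ENNReal.ofReal C0 * μ k (b3cr N q)) * volume (Tb N (k, q) ∩ (Tb N p0 ∩ X))
        = ENNReal.ofReal C0 * (φ k q * μ k (b3cr N q) * volume (Tb N (k, q) ∩ (Tb N p0 ∩ X))) := by ring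
      _ = 0 := by rw [h1, mul_zero]
      _ ≤ _ := zero_le'

end Vale.Agent.P106.Q
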