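import Vale.Agent.P106.Q.BIL3e

/-! # P106 / Q : block BIL3, part (A): the bilinear estimate from the hairbrush bound -/

open MeasureTheory Complex Set
open scoped ENNReal NNReal

set_option linter.all false

namespace Vale.Agent.P106.Q

open Vale.Agent.P106.G

theorem b3_final_real {C0 c C σ1 σ2 e δ x E L : ℝ} {N : ℕ} (hN : 1 ≤ N) (hC0 : 1 ≤ C0) (hc : 0 < c)
    (hC : 0 ≤ C) (hx : 0 < x) (hE : 0 < E) (hE4 : E ≤ 400) (hL : 0 ≤ L) (hδ : δ = e / (2 * C0 ^ 2))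
    (h : δ ^ 3 * (σ1 * σ2 * x / (4 * C0 ^ 2 * E)) * (1 / (N:ℝ) ^ 2) ≤
      C0 * (2 / c / (N:ℝ) ^ 3) * (C * (N:ℝ) ^ 2 * L) * x) :
    σ1 * σ2 * e ^ 3 ≤ 25600 * C0 ^ 9 * C / c * N * L := by
  have hN' : (0:ℝ) < N := by exact_mod_cast hN
  have hC0' : 0 < C0 := by linarith
  have h1 : δ ^ 3 * (σ1 * σ2 * x / (4 * C0 ^ 2 * E)) * (1 / (N:ℝ) ^ 2) =
      (σ1 * σ2 * e ^ 3) * (x / (32 * C0 ^ 8 * E * (N:ℝ) ^ 2)) := by
    rw [hδ]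
    field_simp
    ring
  have h2 : C0 * (2 / c / (N:ℝ) ^ 3) * (C * (N:ℝ) ^ 2 * L) * x =
      (64 * C0 ^ 9 * C / c * N * L * E) * (x / (32 * C0 ^ 8 * E * (N:ℝ) ^ 2)) := by
    field_simp
    ring
  rw [h1, h2] at h
  have h3 : 0 < x / (32 * C0 ^ 8 * E * (N:ℝ) ^ 2) := by positivity
  have h4 := le_of_mul_le_mul_right h h3
  refine h4.trans ?_
  have h5 : 0 ≤ 64 * C0 ^ 9 * C / c * N * L := by positivity
  calc 64 * C0 ^ 9 * C / c * N * L * E ≤ 64 * C0 ^ 9 * C / c * N * L * 400 :=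
        mul_le_mul_of_nonneg_left hE4 h5
    _ = 25600 * C0 ^ 9 * C / c * N * L := by ring

theorem b3_half {C0 c C : ℝ} (hHB : HBc c C) (hc : 0 < c) (hC : 0 ≤ C) (hC0 : 1 ≤ C0) {N : ℕ}
    {μ1 μ2 : ℤ × ℤ → ℝ × ℝ → ℝ≥0∞} (hN : 1 ≤ N) (h1 : DenF C0 N μ1) (h2 : DenF C0 N μ2)
    (hsep : ∀ k ∈ grd N, ∀ k' ∈ grd N, (∃ s, μ1 k s ≠ 0) → (∃ s, μ2 k' s ≠ 0) →
      c ≤ |((k.1:ℝ) - k'.1) / N| ∨ c ≤ |((k.2:ℝ) - k'.2) / N|)
    (hs2 : ∀ k s, μ2 k s ≠ 0 → |s.1| ≤ 10 ∧ |s.2| ≤ 10)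
    {X : Set (ℝ × (ℝ × ℝ))} {σ1 σ2 e : ℝ} (hX : MeasurableSet X)
    (hXt : ∀ z ∈ X, 1/2 ≤ z.1 ∧ z.1 ≤ 4) (hσ1 : 0 < σ1) (hσ2 : 0 < σ2) (he : 0 < e) (he1 : e ≤ 1)
    (hW1 : ∀ z ∈ X, ENNReal.ofReal σ1 ≤ Wf N μ1 z.1 z.2)
    (hW2 : ∀ z ∈ X, ENNReal.ofReal σ2 ≤ Wf N μ2 z.1 z.2)
    (hE : ENNReal.ofReal e * ∑ k ∈ grd N, ∫⁻ s, μ1 k s ≤ ENNReal.ofReal σ1 * volume X)
    (hE1 : ∑ k ∈ grd N, ∫⁻ s, μ1 k s ≠ 0) (hE2 : ∑ k ∈ grd N, ∫⁻ s, μ2 k s ≠ 0) :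
    σ1 * σ2 * e ^ 3 ≤ 25600 * C0 ^ 9 * C / c * N * (1 + Real.log N) := by
  classical
  have hN' : (0:ℝ) < N := by exact_mod_cast hN
  have hN1 : (1:ℝ) ≤ N := by exact_mod_cast hN
  have hC0' : 0 < C0 := by linarith
  have hlog : 0 ≤ Real.log N := Real.log_nonneg hN1
  -- finite positive volume
  have hfin : volume X ≠ ⊤ := by
    intro htop
    have a1 : ENNReal.ofReal σ1 * volume X ≤ ∫⁻ z in X, Wf N μ1 z.1 z.2 := by
      rw [← setLIntegral_const]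
      exact setLIntegral_mono' hX hW1
    have a2 := a1.trans (b3_mass hN h1 hX hXt)
    rw [htop, ENNReal.mul_top (by simpa using hσ1)] at a2
    exact absurd (top_le_iff.1 a2) (ENNReal.mul_ne_top (ENNReal.mul_ne_top (ENNReal.mul_ne_top
      ENNReal.ofReal_ne_top ENNReal.ofReal_ne_top) ENNReal.ofReal_ne_top) h1.fin.ne)
  have hpos : volume X ≠ 0 := by
    intro h0
    rw [h0, mul_zero, le_zero_iff, mul_eq_zero] at hE
    rcases hE with h | h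
    · exact absurd (ENNReal.ofReal_eq_zero.1 h) (not_le.2 he)
    · exact hE1 h
  have hE2fin : ∑ k ∈ grd N, ∫⁻ s, μ2 k s ≠ ⊤ := h2.fin.ne
  obtain ⟨x, hx⟩ : ∃ x : ℝ, x = (volume X).toReal := ⟨_, rfl⟩
  obtain ⟨E, hEE⟩ : ∃ E : ℝ, E = (∑ k ∈ grd N, ∫⁻ s, μ2 k s).toReal := ⟨_, rfl⟩
  have hxv : volume X = ENNReal.ofReal x := by rw [hx, ENNReal.ofReal_toReal hfin]
  have hEv : ∑ k ∈ grd N, ∫⁻ s, μ2 k s = ENNReal.ofReal E := by rw [hEE, ENNReal.ofReal_toReal hE2fin]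
  have hx0 : 0 < x := by rw [hx]; exact ENNReal.toReal_pos hpos hfin
  have hE0 : 0 < E := by rw [hEE]; exact ENNReal.toReal_pos hE2 hE2fin
  have hE4 : E ≤ 400 := by
    have := b3_energy h2 hs2
    rw [hEv] at this
    exact (ENNReal.ofReal_le_ofReal_iff (by norm_num)).1 this
  obtain ⟨δ, hδ⟩ : ∃ δ : ℝ, δ = e / (2 * C0 ^ 2) := ⟨_, rfl⟩
  have hδ0 : 0 < δ := by rw [hδ]; positivity
  have hδ1 : δ ≤ 1 := by
    rw [hδ, div_le_one (by positivity)]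
    nlinarith
  let φ : (ℤ × ℤ) → (ℤ × ℤ) → ℝ≥0∞ := fun k q =>
    if ENNReal.ofReal (δ / (N:ℝ) ^ 2) ≤ volume (Tb N (k, q) ∩ X) then 1 else 0
  have hφ : ∀ k q, (φ k q = 1 ∧ ENNReal.ofReal (δ / (N:ℝ) ^ 2) ≤ volume (Tb N (k, q) ∩ X)) ∨
      (φ k q = 0 ∧ volume (Tb N (k, q) ∩ X) ≤ ENNReal.ofReal (δ / (N:ℝ) ^ 2)) := by
    intro k q
    by_cases hg : ENNReal.ofReal (δ / (N:ℝ) ^ 2) ≤ volume (Tb N (k, q) ∩ X)
    · exact Or.inl ⟨if_pos hg, hg⟩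
    · exact Or.inr ⟨if_neg hg, (not_le.1 hg).le⟩
  have hgood := b3_good hC0 hN h1 hX hXt he.le hδ hW1 hE hfin φ hφ
  -- the stem
  obtain ⟨b, hb⟩ : ∃ b : ℝ, b = σ1 * σ2 * x / (4 * C0 ^ 2 * E) := ⟨_, rfl⟩
  have hb0 : 0 < b := by rw [hb]; positivity
  have hB : ENNReal.ofReal C0 * ENNReal.ofReal C0 * ENNReal.ofReal b * ∑ k ∈ grd N, ∫⁻ s, μ2 k s <
      ENNReal.ofReal σ2 * ∫⁻ z in X, b3W N μ1 φ z := by
    refine lt_of_lt_of_le ?_ (mul_le_mul_right hgood (ENNReal.ofReal σ2))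
    rw [hEv, hxv, ← ENNReal.ofReal_mul hC0'.le, ← ENNReal.ofReal_mul (by positivity),
      ← ENNReal.ofReal_mul (by positivity), ← ENNReal.ofReal_mul hσ1.le,
      ← ENNReal.ofReal_mul (by norm_num), ← ENNReal.ofReal_mul hσ2.le]
    rw [ENNReal.ofReal_lt_ofReal_iff (by positivity)]
    have e1 : C0 * C0 * b * E = σ1 * σ2 * x / 4 := by
      rw [hb]; field_simp
    rw [e1]
    have : 0 < σ1 * σ2 * x := by positivity
    nlinarith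
  obtain ⟨k0, hk0, q0, hq0, hst⟩ := b3_stem hN h2 hX hXt hW2 (b3W N μ1 φ) (b3W_meas h1 φ)
    (ENNReal.ofReal b) hB
  let v : (ℤ × ℤ) → (ℤ × ℤ) → ℝ≥0∞ := fun k q =>
    if (ENNReal.ofReal (δ / (N:ℝ) ^ 2) ≤ volume (Tb N (k, q) ∩ X) ∧
      (Tb N (k, q) ∩ Tb N (k0, q0)).Nonempty) then μ1 k (b3cr N q) else 0
  have hvne : ∀ k q, v k q ≠ 0 → (ENNReal.ofReal (δ / (N:ℝ) ^ 2) ≤ volume (Tb N (k, q) ∩ X) ∧
      (Tb N (k, q) ∩ Tb N (k0, q0)).Nonempty) ∧ μ1 k (b3cr N q) ≠ 0 := by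
    intro k q hv
    by_cases hcond : (ENNReal.ofReal (δ / (N:ℝ) ^ 2) ≤ volume (Tb N (k, q) ∩ X) ∧
      (Tb N (k, q) ∩ Tb N (k0, q0)).Nonempty)
    · refine ⟨hcond, ?_⟩
      have : v k q = μ1 k (b3cr N q) := if_pos hcond
      rwa [this] at hv
    · exact absurd (if_neg hcond) hv
  have hvsep : ∀ k ∈ grd N, ∀ q, v k q ≠ 0 →
      c ≤ |((k.1:ℝ) - k0.1) / N| ∨ c ≤ |((k.2:ℝ) - k0.2) / N| := fun k hk q hv =>
    hsep k hk k0 hk0 ⟨_, (hvne k q hv).2⟩ ⟨_, hq0⟩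
  have h5 := b3_stem_le hc hC0 hN h1 hX (k0, q0) φ v (by
    intro k hk q
    by_cases hg : ENNReal.ofReal (δ / (N:ℝ) ^ 2) ≤ volume (Tb N (k, q) ∩ X)
    · by_cases hne : (Tb N (k, q) ∩ Tb N (k0, q0)).Nonempty
      · left
        have e1 : v k q = μ1 k (b3cr N q) := if_pos ⟨hg, hne⟩
        have e2 : φ k q = 1 := if_pos hg
        rw [e1, e2, one_mul]
      · right
        have e3 : Tb N (k, q) ∩ (Tb N (k0, q0) ∩ X) = ∅ := by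
          rw [← inter_assoc, Set.not_nonempty_iff_eq_empty.1 hne, empty_inter]
        rw [e3, measure_empty, mul_zero]
    · right
      have e2 : φ k q = 0 := if_neg hg
      rw [e2, zero_mul, zero_mul]) hvsep
  have h6 := b3_hb_sum hHB hN hX hδ0 hδ1 (p0 := (k0, q0)) hk0 v (by
    intro q
    refine le_trans ?_ (h1.sum (b3cr N q))
    apply Finset.sum_le_sum
    intro k _
    show (if _ then μ1 k (b3cr N q) else 0) ≤ _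
    split_ifs
    · exact le_rfl
    · exact zero_le') hvsep (fun k _ q hv => (hvne k q hv).1.2) (fun k _ q hv => (hvne k q hv).1.1)
  have h7 : ENNReal.ofReal (δ ^ 3) * (ENNReal.ofReal b * ENNReal.ofReal (1 / (N:ℝ) ^ 2)) ≤
      ENNReal.ofReal C0 * ENNReal.ofReal (2 / c / (N:ℝ) ^ 3) *
        (ENNReal.ofReal (C * (N:ℝ) ^ 2 * (1 + Real.log N)) * volume X) := by
    calc ENNReal.ofReal (δ ^ 3) * (ENNReal.ofReal b * ENNReal.ofReal (1 / (N:ℝ) ^ 2))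
        ≤ ENNReal.ofReal (δ ^ 3) * (ENNReal.ofReal C0 * ENNReal.ofReal (2 / c / (N:ℝ) ^ 3) *
            ∑ k ∈ grd N, ∑' q, v k q) := by
          exact mul_le_mul_right (hst.le.trans h5) _
      _ = ENNReal.ofReal C0 * ENNReal.ofReal (2 / c / (N:ℝ) ^ 3) *
            (ENNReal.ofReal (δ ^ 3) * ∑ k ∈ grd N, ∑' q, v k q) := by ring
      _ ≤ _ := by gcongr
  rw [hxv, ← ENNReal.ofReal_mul hb0.le, ← ENNReal.ofReal_mul (by positivity),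
    ← ENNReal.ofReal_mul hC0'.le, ← ENNReal.ofReal_mul (by positivity),
    ← ENNReal.ofReal_mul (by positivity), ENNReal.ofReal_le_ofReal_iff (by positivity)] at h7
  refine b3_final_real hN hC0 hc hC hx0 hE0 hE4 (by positivity) hδ ?_
  rw [← hb]
  calc δ ^ 3 * b * (1 / (N:ℝ) ^ 2) = δ ^ 3 * (b * (1 / (N:ℝ) ^ 2)) := by ring
    _ ≤ _ := h7
    _ = _ := by ring

theorem b3_combine {A σ1 σ2 e1 e2 : ℝ} (hσ1 : 0 < σ1) (hσ2 : 0 < σ2) (he1 : 0 ≤ e1) (he2 : 0 ≤ e2)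
    (hA : 0 ≤ A) (h1 : σ1 * σ2 * e1 ^ 3 ≤ A) (h2 : σ1 * σ2 * e2 ^ 3 ≤ A) :
    σ1 * σ2 * (e1 * e2) ^ (3/2 : ℝ) ≤ A := by
  have h3 : (e1 * e2) ^ (3/2 : ℝ) = Real.sqrt (e1 ^ 3 * e2 ^ 3) := by
    rw [Real.sqrt_eq_rpow, ← mul_pow, ← Real.rpow_natCast (e1 * e2) 3,
      ← Real.rpow_mul (by positivity)]
    norm_num
  have h4 : (σ1 * σ2 * (e1 * e2) ^ (3/2 : ℝ)) ^ 2 ≤ A ^ 2 := by
    have h5 : (σ1 * σ2 * (e1 * e2) ^ (3/2 : ℝ)) ^ 2 = (σ1 * σ2 * e1 ^ 3) * (σ1 * σ2 * e2 ^ 3) := by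
      rw [h3, mul_pow, Real.sq_sqrt (by positivity)]
      ring
    rw [h5, sq]
    exact mul_le_mul h1 h2 (by positivity) hA
  exact (abs_le_of_sq_le_sq' h4 hA).2

/-- the bilinear level set estimate from the hairbrush bound -/
theorem stBIL3_of_HB (hHB : StHB) : StBIL3 := by
  intro c C0 hc hC0
  obtain ⟨C, hC, hH⟩ := hHB c hc
  have hH' : HBc c C := hH
  refine ⟨25600 * C0 ^ 9 * C / c, by positivity, ?_⟩
  intro N μ1 μ2 hN h1 h2 hsep hs1 hs2 X σ1 σ2 e1 e2 hX hXt hσ1 hσ2 he1 he1' he2 he2' hW1 hW2 hE1 hE2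
    hn1 hn2
  have hN1 : (1:ℝ) ≤ N := by exact_mod_cast hN
  have hlog : 0 ≤ Real.log N := Real.log_nonneg hN1
  set A : ℝ := 25600 * C0 ^ 9 * C / c * N * (1 + Real.log N) with hA
  have hA0 : 0 ≤ A := by positivity
  have hpos : 0 < σ1 * σ2 := mul_pos hσ1 hσ2
  have f1 : σ1 * σ2 * e1 ^ 3 ≤ A := by
    rcases he1.eq_or_lt with h | h
    · rw [← h]; simpa using hA0
    · exact b3_half hH' hc hC hC0 hN h1 h2 hsep hs2 hX hXt hσ1 hσ2 h he1'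
        (fun z hz => (hW1 z hz).1) (fun z hz => (hW2 z hz).1) hE1 hn1 hn2
  have f2 : σ1 * σ2 * e2 ^ 3 ≤ A := by
    rcases he2.eq_or_lt with h | h
    · rw [← h]; simpa using hA0
    · have := b3_half hH' hc hC hC0 hN h2 h1 (fun k hk k' hk' a b => by
          have h3 := hsep k' hk' k hk b a
          rcases h3 with h3 | h3
          · left
            have e4 : ((k.1:ℝ) - k'.1) / N = -(((k'.1:ℝ) - k.1) / N) := by ring
            rw [e4, abs_neg]; exact h3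
          · right
            have e4 : ((k.2:ℝ) - k'.2) / N = -(((k'.2:ℝ) - k.2) / N) := by ring
            rw [e4, abs_neg]; exact h3) hs1 hX hXt hσ2 hσ1 h he2'
        (fun z hz => (hW2 z hz).1) (fun z hz => (hW1 z hz).1) hE2 hn2 hn1
      rw [mul_comm σ1 σ2]
      exact this
  refine (b3_combine hσ1 hσ2 he1 he2 hA0 f1 f2).trans ?_
  rw [hA]
  apply mul_le_mul_of_nonneg_left _ (by positivity)
  calc (1 + Real.log N) = (1 + Real.log N) ^ 1 := (pow_one _).symm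
    _ ≤ (1 + Real.log N) ^ 4 := pow_le_pow_right₀ (by linarith) (by norm_num)

end Vale.Agent.P106.Q
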