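import Vale.Agent.P106.Q.BRDe

/-! # P106 / Q / BRD : conclusion -/

open MeasureTheory Complex Set
open scoped ENNReal NNReal

set_option linter.all false

namespace Vale.Agent.P106.Q

namespace BRD

open Vale.Agent.P106.G Vale.Agent.P106.Q.MLK

theorem tm_sub_le {Cb θ c σ : ℝ} {H : Hyp} {N : ℕ} {A : Fin 4 → Finset (ℤ × ℤ)} {e : (Fin 4 → ℝ) ≃L[ℝ] E4}
    {al : Fin 4 → ℤ × ℤ → (Fin 4 → ℝ)} (hF : Fr Cb H N θ c σ A e al) (u w : V4) {s T : ℝ} (hw : ‖w‖ ≤ s) (hu : |H.tm (e u)| ≤ T) :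
    |H.tm (e (u + w))| ≤ T + 8 * s := by
  have h1 : H.tm (e (u + w)) = H.tm (e u) + H.tm (e w) := by
    rw [map_add]
    have := tm_add_smul H (e u) (e w) 1
    rwa [one_smul, one_mul] at this
  rw [h1]
  have h2 := hF.tm w
  calc |H.tm (e u) + H.tm (e w)| ≤ |H.tm (e u)| + |H.tm (e w)| := abs_add_le _ _
    _ ≤ T + 8 * s := by linarith

/-- the core estimate -/
theorem core {B C0 ε r Cb θ M : ℝ} (hB : 1 ≤ B) (hC0 : 1 ≤ C0) (hε : 0 < ε) (hr : 1 ≤ r) (hr' : r ≤ 4/3) (hCb : 1 ≤ Cb)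
    (hθ : θ ≤ 1) (hM : 0 ≤ M) (hMK : MK ε θ C0 M) {N : ℕ} {R D : ℝ} {H : Hyp} {ν : ℤ × ℤ → E3 → ℝ≥0∞} (hd : DenR B C0 N R D H ν)
    {c σ : ℝ} {A : Fin 4 → Finset (ℤ × ℤ)} {e : (Fin 4 → ℝ) ≃L[ℝ] E4} {al : Fin 4 → ℤ × ℤ → (Fin 4 → ℝ)}
    (hF : Fr Cb H N θ c σ A e al) (hA : ∀ j, A j ⊆ grd N) (hσ : 0 < σ) (hσ1 : σ ≤ 1) (hN : 1 ≤ N * σ) :
    ∫⁻ z in {z : E4 | |H.tm z| ≤ 4 * R}, ∏ i, (∑ k ∈ A i, ν k (H.bp (k.1 / N) (k.2 / N) z)) ^ (r / 4) ≤
      ENNReal.ofReal ((M ^ (3 * r / 4) * 16 ^ (1 - 3 * r / 4) * (184 * 392 ^ 4 : ℝ) ^ (r - 1) * Cb ^ ε * (10 ^ 4 * 184)) *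
        (N:ℝ) ^ ε * D ^ (r - 1) * R) * ∏ i, (∑ k ∈ A i, ∫⁻ y, ν k y) ^ (1/4 : ℝ) := by
  have hNr : (1:ℝ) ≤ N := by exact_mod_cast hd.N1
  have hR : 0 < R := lt_of_lt_of_le (by positivity) hd.R1
  have hD := hd.D0
  set G : Fin 4 → V4 → ℝ≥0∞ := fun j => Fu H N ν (A j) e with hG
  have mG : ∀ j, Measurable (G j) := fun j => meas_Fu H N hd.meas (A j) e
  have hm : ∀ j, ∀ k ∈ A j, 1 ≤ H.m (k.1 / N) (k.2 / N) := by
    intro j k hk
    have h1 := hA j hk
    unfold grd at h1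
    rw [Finset.mem_product, Finset.mem_Ico, Finset.mem_Ico] at h1
    have hN0 : (0:ℝ) < N := by linarith
    have q1 : (0:ℝ) ≤ k.1 := by exact_mod_cast h1.1.1
    have q2 : (k.1:ℝ) ≤ N := by exact_mod_cast h1.1.2.le
    have q3 : (0:ℝ) ≤ k.2 := by exact_mod_cast h1.2.1
    have q4 : (k.2:ℝ) ≤ N := by exact_mod_cast h1.2.2.le
    exact (hd.ok.m_bd (div_nonneg q1 hN0.le) ((div_le_one hN0).2 q2) (div_nonneg q3 hN0.le) ((div_le_one hN0).2 q4)).1
  -- the slabs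
  set Ω : ℝ → Set V4 := fun T => {u : V4 | |H.tm (e u)| ≤ T} with hΩ
  have mΩ : ∀ T, MeasurableSet (Ω T) := fun T =>
    measurableSet_le (((continuous_tm H).comp e.continuous).abs.measurable) measurable_const
  -- the scale
  set l : ℝ := R / (N * (Cb * σ)) with hldef
  have hNCb : 1 ≤ N * (Cb * σ) := by
    calc 1 ≤ N * σ := hN
      _ = N * (1 * σ) := by ring
      _ ≤ N * (Cb * σ) := by gcongr
  have hl : 0 < l := by rw [hldef]; positivity
  have hlR : l ≤ R := by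
    rw [hldef]
    exact div_le_self hR.le hNCb
  have hRl : R / l = N * (Cb * σ) := by
    rw [hldef]
    field_simp
  set g : V4 → ℝ≥0∞ := fun u => ∏ j, G j u ^ (r / 4) with hg
  have mg : Measurable g := Finset.measurable_prod _ fun j _ => (mG j).pow_const _
  set E : ℝ≥0∞ := ENNReal.ofReal (184 * 392 ^ 4 * D * R ^ 4) with hE
  set K : ℝ := M ^ (3 * r / 4) * 16 ^ (1 - 3 * r / 4) * (184 * 392 ^ 4 : ℝ) ^ (r - 1) * (N * (Cb * σ)) ^ ε * D ^ (r - 1) with hK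
  have hK0 : 0 ≤ K := by rw [hK]; positivity
  -- bound on a cube
  have hcube : ∀ c' ∈ Ω (12 * R), Av R g c' ≤ ENNReal.ofReal K * ∏ j, Av (10 * R) (G j) c' ^ (1/4 : ℝ) := by
    intro c' hc'
    have hX : ∀ j, Av (10 * R) (G j) c' ≤ E := by
      intro j
      rw [av_eq]
      have h1 := int_cube hF hθ hd.meas j (hm j) (D := D) (fun y => (Finset.sum_le_sum_of_subset (hA j)).trans (hd.sum y)) c'
        (r0 := 10 * R) (T := 92 * R) (R := R) (by positivity) hR (by positivity) (fun u hu => by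
          have h2 := tm_sub_le hF c' (u - c') (s := 10 * R) (T := 12 * R) (mem_closedBall_iff_norm.1 hu) hc'
          rw [add_sub_cancel] at h2
          refine h2.trans (le_of_eq (by ring)))
      have hR0 : ENNReal.ofReal R ≠ 0 := by
        simp only [ne_eq, ENNReal.ofReal_eq_zero, not_le]
        exact hR
      refine (ENNReal.mul_le_mul_iff_right hR0 ENNReal.ofReal_ne_top).1 (h1.trans (le_of_eq ?_))
      rw [hE, ← ENNReal.ofReal_mul (by positivity), ← ENNReal.ofReal_mul (by positivity), ← ENNReal.ofReal_mul (by positivity)]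
      congr 1
      ring
    classical
    set f : Fin 4 → ℤ × ℤ → (Fin 4 → ℝ) → ℝ≥0∞ := fun j k u => if k ∈ A j then ν k (H.bp (k.1 / N) (k.2 / N) (e u)) else 0 with hf
    have hsum : ∀ j u, ∑ k ∈ A j, f j k u = G j u := by
      intro j u
      rw [hG]
      unfold Fu
      refine Finset.sum_congr rfl fun k hk => ?_
      simp only [hf, if_pos hk]
    have h3 := mlk_scaled hM hMK (A := A) (u := al) (f := f)
      (fun j k => by
        simp only [hf]
        by_cases hk : k ∈ A j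
        · simp only [if_pos hk]
          exact (hd.meas k).comp ((cont_bp H _ _).measurable.comp e.continuous.measurable)
        · simp only [if_neg hk]
          exact measurable_const) hF.clo
      (fun j k hk z t => by
        simp only [hf, if_pos hk]
        rw [map_add, map_smul, hF.dir j k hk, bp_add_kap H (by have := hm j k hk; linarith)]) hl
      (fun j k z z' hz => by
        simp only [hf]
        by_cases hk : k ∈ A j
        · simp only [if_pos hk]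
          refine hd.slow k _ _ ((hF.lip j k hk z z').trans ?_)
          calc Cb * σ * ‖z - z'‖ ≤ Cb * σ * l := by gcongr
            _ = R / N := by
              rw [hldef]
              field_simp
        · simp only [if_neg hk, mul_zero, le_refl]) c' hlR
    simp_rw [hsum] at h3
    have h4 := cube_est (μ := volume.restrict (Metric.closedBall c' R)) mG hr hr' hX (a := ENNReal.ofReal (M * (R / l) ^ ε * R ^ (-(4/3) : ℝ)))
      (b := ENNReal.ofReal ((2 * R) ^ 4)) (by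
        simp_rw [av_eq]
        exact h3) (by rw [Measure.restrict_apply_univ, vol_ball c' hR.le])
    rw [av_eq]
    refine h4.trans (mul_le_mul' ?_ le_rfl)
    have h5 := consts hM (ρ := R / l) (R := R) (D := D) (ε := ε) (r := r) (E0 := 184 * 392 ^ 4) (by rw [hRl]; exact hNCb) hR hD (by norm_num) hε.le hr hr'
    rw [hE]
    refine h5.trans (ENNReal.ofReal_le_ofReal (le_of_eq ?_))
    rw [hK, hRl]
  -- integration over the centres
  have h1 : ENNReal.ofReal ((2 * R) ^ 4) * ∫⁻ u in Ω (4 * R), g u ≤ ∫⁻ c' in Ω (12 * R), Av R g c' :=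
    av_ge mg (mΩ _) (mΩ _) hR.le (fun u hu w hw => by
      have := tm_sub_le hF u (-w) (s := R) (T := 4 * R) (by rwa [norm_neg]) hu
      rw [← sub_eq_add_neg] at this
      refine this.trans (le_of_eq (by ring)))
  have h2 : ∫⁻ c' in Ω (12 * R), Av R g c' ≤ ENNReal.ofReal K * ∏ j, (∫⁻ c' in Ω (12 * R), Av (10 * R) (G j) c') ^ (1/4 : ℝ) := by
    calc ∫⁻ c' in Ω (12 * R), Av R g c' ≤ ∫⁻ c' in Ω (12 * R), ENNReal.ofReal K * ∏ j, Av (10 * R) (G j) c' ^ (1/4 : ℝ) :=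
          setLIntegral_mono' (mΩ _) hcube
      _ = ENNReal.ofReal K * ∫⁻ c' in Ω (12 * R), ∏ j, Av (10 * R) (G j) c' ^ (1/4 : ℝ) := by
          rw [lintegral_const_mul' _ _ ENNReal.ofReal_ne_top]
      _ ≤ _ := mul_le_mul' le_rfl (holder4 fun j => measurable_Av (mG j) _)
  have h3 : ∀ j, ∫⁻ c' in Ω (12 * R), Av (10 * R) (G j) c' ≤ ENNReal.ofReal ((2 * (10 * R)) ^ 4) * ∫⁻ u in Ω (92 * R), G j u := fun j =>
    av_le (mG j) (mΩ _) (mΩ _) (by positivity) (fun u hu w hw => by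
      have := tm_sub_le hF u w (s := 10 * R) (T := 12 * R) hw hu
      refine this.trans (le_of_eq (by ring)))
  have h4 : ∀ j, ENNReal.ofReal c * ∫⁻ u in Ω (92 * R), G j u = ENNReal.ofReal (2 * (92 * R)) * ∑ k ∈ A j, ∫⁻ y, ν k y := fun j =>
    int_slab hF hd.meas j (by positivity)
  -- change of variables on the left
  have mS : MeasurableSet {z : E4 | |H.tm z| ≤ 4 * R} :=
    measurableSet_le ((continuous_tm H).abs.measurable) measurable_const
  have h5 : ∫⁻ z in {z : E4 | |H.tm z| ≤ 4 * R}, ∏ i, (∑ k ∈ A i, ν k (H.bp (k.1 / N) (k.2 / N) z)) ^ (r / 4) =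
      ENNReal.ofReal c * ∫⁻ u in Ω (4 * R), g u := by
    rw [← lintegral_indicator mS, ← lintegral_indicator (mΩ _), hF.jac]
    rfl
  have hR4 : ENNReal.ofReal ((2 * R) ^ 4) ≠ 0 := by
    simp only [ne_eq, ENNReal.ofReal_eq_zero, not_le]
    positivity
  rw [h5]
  refine (ENNReal.mul_le_mul_iff_right hR4 ENNReal.ofReal_ne_top).1 ?_
  calc ENNReal.ofReal ((2 * R) ^ 4) * (ENNReal.ofReal c * ∫⁻ u in Ω (4 * R), g u)
      = ENNReal.ofReal c * (ENNReal.ofReal ((2 * R) ^ 4) * ∫⁻ u in Ω (4 * R), g u) := by ring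
    _ ≤ ENNReal.ofReal c * (ENNReal.ofReal K * ∏ j, (ENNReal.ofReal ((2 * (10 * R)) ^ 4) * ∫⁻ u in Ω (92 * R), G j u) ^ (1/4 : ℝ)) := by
        refine mul_le_mul' le_rfl (h1.trans (h2.trans (mul_le_mul' le_rfl ?_)))
        exact Finset.prod_le_prod' fun j _ => ENNReal.rpow_le_rpow (h3 j) (by norm_num)
    _ = ENNReal.ofReal K * ENNReal.ofReal ((2 * (10 * R)) ^ 4) * ∏ j, (ENNReal.ofReal c * ∫⁻ u in Ω (92 * R), G j u) ^ (1/4 : ℝ) := by
        rw [prod4_const, prod4_const]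
        ring
    _ = ENNReal.ofReal K * ENNReal.ofReal ((2 * (10 * R)) ^ 4) * (ENNReal.ofReal (2 * (92 * R)) * ∏ j, (∑ k ∈ A j, ∫⁻ y, ν k y) ^ (1/4 : ℝ)) := by
        simp_rw [h4]
        rw [prod4_const]
    _ = ENNReal.ofReal ((2 * R) ^ 4) * (ENNReal.ofReal (K * (10 ^ 4 * 184) * R) * ∏ j, (∑ k ∈ A j, ∫⁻ y, ν k y) ^ (1/4 : ℝ)) := by
        have e6 : ENNReal.ofReal K * ENNReal.ofReal ((2 * (10 * R)) ^ 4) * ENNReal.ofReal (2 * (92 * R)) =
            ENNReal.ofReal ((2 * R) ^ 4) * ENNReal.ofReal (K * (10 ^ 4 * 184) * R) := by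
          rw [← ENNReal.ofReal_mul hK0, ← ENNReal.ofReal_mul (by positivity), ← ENNReal.ofReal_mul (by positivity)]
          congr 1
          ring
        rw [← mul_assoc, e6, mul_assoc]
    _ ≤ _ := by
        refine mul_le_mul' le_rfl (mul_le_mul' (ENNReal.ofReal_le_ofReal ?_) le_rfl)
        have h6 : (N * (Cb * σ)) ^ ε ≤ Cb ^ ε * (N:ℝ) ^ ε := by
          rw [← Real.mul_rpow (by linarith) (by linarith)]
          refine Real.rpow_le_rpow (by positivity) ?_ hε.le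
          calc N * (Cb * σ) ≤ N * (Cb * 1) := by gcongr
            _ = Cb * N := by ring
        rw [hK]
        calc M ^ (3 * r / 4) * 16 ^ (1 - 3 * r / 4) * (184 * 392 ^ 4 : ℝ) ^ (r - 1) * (N * (Cb * σ)) ^ ε * D ^ (r - 1) * (10 ^ 4 * 184) * R
            ≤ M ^ (3 * r / 4) * 16 ^ (1 - 3 * r / 4) * (184 * 392 ^ 4 : ℝ) ^ (r - 1) * (Cb ^ ε * (N:ℝ) ^ ε) * D ^ (r - 1) * (10 ^ 4 * 184) * R := by
              gcongr
          _ = _ := by ring

end BRD

open BRD Vale.Agent.P106.G in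
/-- **[BRD]** from the multilinear Kakeya estimate and the linear coordinates -/
theorem brd_of (h : StMLK) (f : StFR) : StBRD := by
  obtain ⟨Cb, hCb, f⟩ := f
  intro B C0 δ ε r hB hC0 hδ hε hr hr'
  obtain ⟨θ, hθ, h⟩ := h ε hε
  obtain ⟨M, hM, h⟩ := h C0 hC0
  obtain ⟨K1, hK1, f⟩ := f (min θ 1) δ (by positivity) hδ
  have hMK : MK ε (min θ 1) C0 M := by
    intro A u f hm hu hinv hs z0 ρ hρ
    exact h A u f hm (fun j a ha => (hu j a ha).trans (min_le_left _ _)) hinv hs z0 ρ hρ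
  refine ⟨K1, hK1, fun K' hK' => ⟨M ^ (3 * r / 4) * 16 ^ (1 - 3 * r / 4) * (184 * 392 ^ 4 : ℝ) ^ (r - 1) * Cb ^ ε * (10 ^ 4 * 184),
    by positivity, ?_⟩⟩
  intro N R D H ν hd a1 a2 σ x hσ ha1 ha1' ha2 ha2' hN hx hD4
  obtain ⟨e, al, hF⟩ := f K' hK' N H a1 a2 σ x hd.N1 hd.ok hσ ha1 ha1' ha2 ha2' hx hD4
  exact core hB hC0 hε hr hr' hCb (min_le_right _ _) hM hMK hd hF (fun j => Finset.filter_subset _ _) hσ (by linarith) hN

end Vale.Agent.P106.Q
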