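import Vale.Agent.P106.Q.BRDb
import Vale.Agent.P106.Q.BRDf

/-! # P106 / Q / BRD : the broad estimate -/

set_option linter.all false

namespace Vale.Agent.P106.Q

/-- **[BRD]** -/
theorem stBRD (h : StMLK) : StBRD := brd_of h stFR

/-- **[BRD]**, unconditional -/
theorem stBRD' : StBRD := stBRD stMLK

end Vale.Agent.P106.Q
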