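import Vale.Agent.P106.Q.MLK

/-! # P106 / Q / BRD : the linear coordinates adapted to four directions (interface) -/

open MeasureTheory Complex Set
open scoped ENNReal NNReal

set_option linter.all false

namespace Vale.Agent.P106.Q

open Vale.Agent.P106.G

/-- linear coordinates adapted to four families of directions -/
structure Fr (Cb : ℝ) (H : Hyp) (N : ℕ) (θ c σ : ℝ) (A : Fin 4 → Finset (ℤ × ℤ)) (e : (Fin 4 → ℝ) ≃L[ℝ] E4)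
    (al : Fin 4 → ℤ × ℤ → (Fin 4 → ℝ)) : Prop where
  c0 : 0 < c
  jac : ∀ F : E4 → ℝ≥0∞, ∫⁻ z, F z = ENNReal.ofReal c * ∫⁻ u, F (e u)
  dir : ∀ j, ∀ k ∈ A j, e (al j k) = kap (k.1 / N) (k.2 / N)
  clo : ∀ j, ∀ k ∈ A j, ‖al j k - Pi.single j 1‖ ≤ θ
  lip : ∀ j, ∀ k ∈ A j, ∀ u u' : Fin 4 → ℝ,
    ‖H.bp (k.1 / N) (k.2 / N) (e u) - H.bp (k.1 / N) (k.2 / N) (e u')‖ ≤ Cb * σ * ‖u - u'‖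
  tm : ∀ u : Fin 4 → ℝ, |H.tm (e u)| ≤ 8 * ‖u‖

/-- [FR] existence of the coordinates: `e u = ∑ i, u i • kap (a + σ x i)` -/
def StFR : Prop := ∃ Cb : ℝ, 1 ≤ Cb ∧ ∀ θ δ : ℝ, 0 < θ → 0 < δ → ∃ K1 : ℕ, 1 ≤ K1 ∧ ∀ K' : ℕ, K1 ≤ K' →
  ∀ (N : ℕ) (H : Hyp) (a1 a2 σ : ℝ) (x : Fin 4 → ℝ × ℝ), 1 ≤ N → H.ok2 →
    0 < σ → 0 ≤ a1 → a1 + σ ≤ 1 → 0 ≤ a2 → a2 + σ ≤ 1 →
    (∀ i, (0 ≤ (x i).1 ∧ (x i).1 ≤ 1) ∧ (0 ≤ (x i).2 ∧ (x i).2 ≤ 1)) → δ ≤ |D4 x| →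
    ∃ (e : (Fin 4 → ℝ) ≃L[ℝ] E4) (al : Fin 4 → ℤ × ℤ → (Fin 4 → ℝ)),
      Fr Cb H N θ (4 * σ ^ 4 * |D4 x|) σ (fun i => capN N (a1 + σ * (x i).1) (a2 + σ * (x i).2) (σ / K')) e al

end Vale.Agent.P106.Q
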