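import Vale.Agent.P106.Q.BRDa
import Vale.Agent.P106.G.BrA
import Vale.Agent.P106.G.Resc

/-! # P106 / Q / BRD (i) : the linear coordinates adapted to four directions -/

open MeasureTheory Complex Set
open scoped ENNReal NNReal

set_option linter.all false

namespace Vale.Agent.P106.Q

open Vale.Agent.P106.G

namespace FRb

/-- point of the paraboloid -/
noncomputable def par (v : ℝ × ℝ) : Fin 4 → ℝ := ![1, v.1, v.2, v.1 ^ 2 + v.2 ^ 2]

/-- rows `par (x i)` -/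
noncomputable def Mx (x : Fin 4 → ℝ × ℝ) : Matrix (Fin 4) (Fin 4) ℝ := Matrix.of fun i => par (x i)

theorem D4_eq (x : Fin 4 → ℝ × ℝ) : D4 x = (Mx x).det := rfl

/-- matrix of the coordinates: columns `kap (v i)` -/
noncomputable def Bx (v : Fin 4 → ℝ × ℝ) : Matrix (Fin 4) (Fin 4) ℝ := Matrix.of fun r i => kap (v i).1 (v i).2 r

/-- `kap (a + σ y) = T (par y)` -/
noncomputable def Tm (a1 a2 σ : ℝ) : Matrix (Fin 4) (Fin 4) ℝ :=
  !![a1 ^ 2 + a2 ^ 2, 2 * σ * a1, 2 * σ * a2, σ ^ 2;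
    -2 * a1, -2 * σ, 0, 0;
    -2 * a2, 0, -2 * σ, 0;
    1, 0, 0, 0]

theorem Tm_mul (a1 a2 σ : ℝ) (y : ℝ × ℝ) (r : Fin 4) :
    kap (a1 + σ * y.1) (a2 + σ * y.2) r = ((Tm a1 a2 σ).mulVec (par y)) r := by
  fin_cases r <;> simp [Tm, kap, par, Matrix.mulVec, dotProduct, Fin.sum_univ_four] <;> ring

theorem Tm_det (a1 a2 σ : ℝ) : (Tm a1 a2 σ).det = - (4 * σ ^ 4) := by
  unfold Tm
  rw [Matrix.det_succ_row_zero]
  simp [Fin.sum_univ_four, Matrix.det_fin_three, Fin.succAbove, Matrix.submatrix]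
  ring

theorem Bx_eq (a1 a2 σ : ℝ) (x : Fin 4 → ℝ × ℝ) :
    Bx (fun i => (a1 + σ * (x i).1, a2 + σ * (x i).2)) = Tm a1 a2 σ * (Mx x).transpose := by
  ext r i
  rw [Matrix.mul_apply_eq_vecMul]
  show kap (a1 + σ * (x i).1) (a2 + σ * (x i).2) r = _
  rw [Tm_mul]
  simp [Matrix.mulVec, Matrix.vecMul, dotProduct, Fin.sum_univ_four, Mx]

theorem Bx_det (a1 a2 σ : ℝ) (x : Fin 4 → ℝ × ℝ) :
    (Bx (fun i => (a1 + σ * (x i).1, a2 + σ * (x i).2))).det = - (4 * σ ^ 4) * D4 x := by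
  rw [Bx_eq, Matrix.det_mul, Matrix.det_transpose, Tm_det, D4_eq]

theorem abs_Bx_det (a1 a2 σ : ℝ) (x : Fin 4 → ℝ × ℝ) :
    |(Bx (fun i => (a1 + σ * (x i).1, a2 + σ * (x i).2))).det| = 4 * σ ^ 4 * |D4 x| := by
  rw [Bx_det, abs_mul, abs_neg, abs_of_nonneg (by positivity)]

/-- the coordinates of a matrix with nonzero determinant -/
noncomputable def eM (B : Matrix (Fin 4) (Fin 4) ℝ) (h : B.det ≠ 0) : (Fin 4 → ℝ) ≃L[ℝ] E4 :=
  (EuclideanSpace.equiv (Fin 4) ℝ).symm.trans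
    (LinearMap.equivOfDetNeZero (mat4 B) (by rwa [mat4_det])).toContinuousLinearEquiv

theorem eM_apply {B : Matrix (Fin 4) (Fin 4) ℝ} (h : B.det ≠ 0) (u : Fin 4 → ℝ) :
    eM B h u = mat4 B (WithLp.toLp 2 u) := rfl

theorem eM_coord {B : Matrix (Fin 4) (Fin 4) ℝ} (h : B.det ≠ 0) (u : Fin 4 → ℝ) (r : Fin 4) :
    eM B h u r = (B.mulVec u) r := by
  rw [eM_apply, mat4_apply]
  simp [Matrix.mulVec, dotProduct, Fin.sum_univ_four]

theorem eM_jac {B : Matrix (Fin 4) (Fin 4) ℝ} (h : B.det ≠ 0) (F : E4 → ℝ≥0∞) :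
    ∫⁻ z, F z = ENNReal.ofReal |B.det| * ∫⁻ u, F (eM B h u) := by
  have h1 := lintegral_mat4 h F
  have h2 : ∫⁻ u, F (eM B h u) = ∫⁻ y : E4, F (mat4 B y) :=
    (PiLp.volume_preserving_toLp (Fin 4)).lintegral_comp_emb
      (MeasurableEquiv.toLp 2 (Fin 4 → ℝ)).measurableEmbedding (fun y : E4 => F (mat4 B y))
  rw [h2, h1, ← mul_assoc, ← ENNReal.ofReal_mul (abs_nonneg _), ← abs_mul, mul_inv_cancel₀ h, abs_one,
    ENNReal.ofReal_one, one_mul]

/-! ### coefficients -/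

/-- coefficients of `par y` in the basis `par (x i)` -/
noncomputable def cf (x : Fin 4 → ℝ × ℝ) (y : ℝ × ℝ) : Fin 4 → ℝ := (D4 x)⁻¹ • (Mx x).transpose.cramer (par y)

theorem cf_mul {x : Fin 4 → ℝ × ℝ} (h : D4 x ≠ 0) (y : ℝ × ℝ) : (Mx x).transpose.mulVec (cf x y) = par y := by
  unfold cf
  rw [Matrix.mulVec_smul, Matrix.mulVec_cramer, Matrix.det_transpose, ← D4_eq, smul_smul, inv_mul_cancel₀ h, one_smul]

theorem cf_self {x : Fin 4 → ℝ × ℝ} (h : D4 x ≠ 0) (j : Fin 4) : cf x (x j) = Pi.single j 1 := by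
  unfold cf
  have : (Mx x).transpose.cramer (par (x j)) = Pi.single j (Mx x).det := Matrix.cramer_transpose_row_self (Mx x) j
  rw [this, ← D4_eq]
  ext i
  by_cases hij : i = j
  · subst hij
    simp [inv_mul_cancel₀ h]
  · simp [hij]

theorem adj_bd {x : Fin 4 → ℝ × ℝ} (hx : ∀ i, (0 ≤ (x i).1 ∧ (x i).1 ≤ 1) ∧ (0 ≤ (x i).2 ∧ (x i).2 ≤ 1)) (i j : Fin 4) :
    |(Mx x).transpose.adjugate i j| ≤ 384 := by
  rw [Matrix.adjugate_apply]
  have hent : ∀ a b, |((Mx x).transpose.updateRow j (Pi.single i 1)) a b| ≤ 2 := by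
    intro a b
    by_cases haj : a = j
    · subst haj
      rw [Matrix.updateRow_self]
      by_cases hb : b = i
      · subst hb; simp
      · simp [hb]
    · rw [Matrix.updateRow_ne haj]
      show |par (x b) a| ≤ 2
      obtain ⟨⟨h1, h2⟩, h3, h4⟩ := hx b
      fin_cases a
      · simp [par]
      · simp [par]; rw [abs_of_nonneg h1]; linarith
      · simp [par]; rw [abs_of_nonneg h3]; linarith
      · simp [par]
        rw [abs_of_nonneg (by positivity)]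
        nlinarith
  have := Matrix.det_le (A := (Mx x).transpose.updateRow j (Pi.single i 1)) (abv := (AbsoluteValue.abs : AbsoluteValue ℝ ℝ)) (x := 2) hent
  simp only [AbsoluteValue.abs_apply, Fintype.card_fin] at this
  norm_num [Nat.factorial] at this
  exact this

theorem cf_sub_bd {x : Fin 4 → ℝ × ℝ} (hx : ∀ i, (0 ≤ (x i).1 ∧ (x i).1 ≤ 1) ∧ (0 ≤ (x i).2 ∧ (x i).2 ≤ 1)) {δ : ℝ}
    (hδ : 0 < δ) (hD : δ ≤ |D4 x|) (y y' : ℝ × ℝ) {η : ℝ} (hη : ∀ r, |par y r - par y' r| ≤ η) :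
    ‖cf x y - cf x y'‖ ≤ 1536 * η / δ := by
  have hη0 : 0 ≤ η := (abs_nonneg _).trans (hη 0)
  rw [pi_norm_le_iff_of_nonneg (by positivity)]
  intro i
  have e1 : (cf x y - cf x y') i = (D4 x)⁻¹ * ∑ r, (Mx x).transpose.adjugate i r * (par y r - par y' r) := by
    unfold cf
    rw [Matrix.cramer_eq_adjugate_mulVec, Matrix.cramer_eq_adjugate_mulVec, ← smul_sub, ← Matrix.mulVec_sub]
    rfl
  rw [e1, Real.norm_eq_abs, abs_mul, abs_inv]
  have e2 : |∑ r, (Mx x).transpose.adjugate i r * (par y r - par y' r)| ≤ 1536 * η := by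
    refine (Finset.abs_sum_le_sum_abs _ _).trans ?_
    calc ∑ r, |(Mx x).transpose.adjugate i r * (par y r - par y' r)| ≤ ∑ r : Fin 4, 384 * η := by
          apply Finset.sum_le_sum
          intro r _
          rw [abs_mul]
          exact mul_le_mul (adj_bd hx i r) (hη r) (abs_nonneg _) (by norm_num)
      _ = 1536 * η := by simp; ring
  have hD0 : 0 < |D4 x| := lt_of_lt_of_le hδ hD
  rw [div_eq_inv_mul]
  have e3 : |D4 x|⁻¹ ≤ δ⁻¹ := inv_anti₀ hδ hD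
  exact mul_le_mul e3 e2 (abs_nonneg _) (by positivity)

theorem par_sub_bd {y y' : ℝ × ℝ} {η : ℝ} (hy1 : |y.1| ≤ 2) (hy2 : |y.2| ≤ 2) (hy1' : |y'.1| ≤ 2) (hy2' : |y'.2| ≤ 2)
    (h1 : |y.1 - y'.1| ≤ η) (h2 : |y.2 - y'.2| ≤ η) (r : Fin 4) : |par y r - par y' r| ≤ 8 * η := by
  have hη0 : 0 ≤ η := (abs_nonneg _).trans h1
  fin_cases r
  · simp [par]; linarith
  · simp [par]; linarith
  · simp [par]; linarith
  · simp [par]
    have e : y.1 ^ 2 + y.2 ^ 2 - (y'.1 ^ 2 + y'.2 ^ 2) = (y.1 - y'.1) * (y.1 + y'.1) + (y.2 - y'.2) * (y.2 + y'.2) := by ring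
    rw [e]
    refine (abs_add_le _ _).trans ?_
    rw [abs_mul, abs_mul]
    have a1 : |y.1 + y'.1| ≤ 4 := (abs_add_le _ _).trans (by linarith)
    have a2 : |y.2 + y'.2| ≤ 4 := (abs_add_le _ _).trans (by linarith)
    have b1 := mul_le_mul h1 a1 (abs_nonneg _) hη0
    have b2 := mul_le_mul h2 a2 (abs_nonneg _) hη0
    linarith

/-! ### the base points -/

theorem tm_kap (H : Hyp) (v1 v2 : ℝ) : H.tm (kap v1 v2) = H.m v1 v2 := by
  simp [Hyp.tm, kap, Hyp.m]; ring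

theorem tm_add' (H : Hyp) (z z' : E4) : H.tm (z + z') = H.tm z + H.tm z' := by
  simp [Hyp.tm]; ring

theorem bp_add (H : Hyp) (v1 v2 : ℝ) (z z' : E4) : H.bp v1 v2 (z + z') = H.bp v1 v2 z + H.bp v1 v2 z' := by
  apply ext3 <;> simp [Hyp.bp, tm_add'] <;> ring

/-- linear map of the base points -/
noncomputable def bpL (H : Hyp) (v1 v2 : ℝ) : E4 →ₗ[ℝ] E3 where
  toFun := H.bp v1 v2
  map_add' := bp_add H v1 v2
  map_smul' := fun c z => bp_smul H v1 v2 c z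

noncomputable def tmL (H : Hyp) : E4 →ₗ[ℝ] ℝ where
  toFun := H.tm
  map_add' := tm_add' H
  map_smul' := fun c z => tm_smul H c z

theorem m_sub_bd {H : Hyp} (hb : H.Bd) {v1 v2 w1 w2 η : ℝ} (hv1 : 0 ≤ v1) (hv1' : v1 ≤ 1) (hv2 : 0 ≤ v2) (hv2' : v2 ≤ 1)
    (hw1 : 0 ≤ w1) (hw1' : w1 ≤ 1) (hw2 : 0 ≤ w2) (hw2' : w2 ≤ 1) (h1 : |v1 - w1| ≤ η) (h2 : |v2 - w2| ≤ η) :
    |H.m v1 v2 - H.m w1 w2| ≤ η := by
  obtain ⟨s0, s1, q1, q2, D0, D1⟩ := hb
  have hη0 : 0 ≤ η := (abs_nonneg _).trans h1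
  have e : H.m v1 v2 - H.m w1 w2 = (H.s * (v1 + w1) - 2 * H.q1) * (v1 - w1) + (H.s * (v2 + w2) - 2 * H.q2) * (v2 - w2) := by
    unfold Hyp.m; ring
  have a1 : |H.s * (v1 + w1) - 2 * H.q1| ≤ 1/2 := by
    refine (abs_sub _ _).trans ?_
    rw [abs_mul, abs_mul, abs_of_pos s0, abs_of_nonneg (by linarith : (0:ℝ) ≤ v1 + w1), abs_of_pos (by norm_num : (0:ℝ) < 2)]
    nlinarith
  have a2 : |H.s * (v2 + w2) - 2 * H.q2| ≤ 1/2 := by
    refine (abs_sub _ _).trans ?_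
    rw [abs_mul, abs_mul, abs_of_pos s0, abs_of_nonneg (by linarith : (0:ℝ) ≤ v2 + w2), abs_of_pos (by norm_num : (0:ℝ) < 2)]
    nlinarith
  rw [e]
  refine (abs_add_le _ _).trans ?_
  rw [abs_mul, abs_mul]
  have b1 := mul_le_mul a1 h1 (abs_nonneg _) (by norm_num)
  have b2 := mul_le_mul a2 h2 (abs_nonneg _) (by norm_num)
  linarith

theorem bp_kap_bd {H : Hyp} (hH : H.ok2) {v1 v2 w1 w2 η : ℝ} (hv1 : 0 ≤ v1) (hv1' : v1 ≤ 1) (hv2 : 0 ≤ v2) (hv2' : v2 ≤ 1)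
    (hw1 : 0 ≤ w1) (hw1' : w1 ≤ 1) (hw2 : 0 ≤ w2) (hw2' : w2 ≤ 1) (h1 : |v1 - w1| ≤ η) (h2 : |v2 - w2| ≤ η) :
    ‖H.bp w1 w2 (kap v1 v2)‖ ≤ 20 * η := by
  have hη0 : 0 ≤ η := (abs_nonneg _).trans h1
  have hb := hH.ok.bd
  obtain ⟨hmw, hmw'⟩ := hH.m_bd hw1 hw1' hw2 hw2'
  obtain ⟨hmv, hmv'⟩ := hH.m_bd hv1 hv1' hv2 hv2'
  have hmm := m_sub_bd hb hv1 hv1' hv2 hv2' hw1 hw1' hw2 hw2' h1 h2
  set q := H.m v1 v2 / H.m w1 w2 with hq
  have hq1 : |q - 1| ≤ η := by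
    have : q - 1 = (H.m v1 v2 - H.m w1 w2) / H.m w1 w2 := by rw [hq]; field_simp
    rw [this, abs_div, abs_of_pos (by linarith : 0 < H.m w1 w2)]
    exact (div_le_self (abs_nonneg _) hmw).trans hmm
  have c0 : |H.bp w1 w2 (kap v1 v2) 0| ≤ 8 * η := by
    have e : H.bp w1 w2 (kap v1 v2) 0 = (v1 - w1) * (v1 + w1) + (v2 - w2) * (v2 + w2) - (q - 1) * (w1 ^ 2 + w2 ^ 2) := by
      simp only [Hyp.bp, tm_kap]
      simp [kap, hq]; ring
    rw [e]
    have a1 : |(v1 - w1) * (v1 + w1)| ≤ η * 2 := by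
      rw [abs_mul, abs_of_nonneg (by linarith : (0:ℝ) ≤ v1 + w1)]
      exact mul_le_mul h1 (by linarith) (by linarith) hη0
    have a2 : |(v2 - w2) * (v2 + w2)| ≤ η * 2 := by
      rw [abs_mul, abs_of_nonneg (by linarith : (0:ℝ) ≤ v2 + w2)]
      exact mul_le_mul h2 (by linarith) (by linarith) hη0
    have a3 : |(q - 1) * (w1 ^ 2 + w2 ^ 2)| ≤ η * 2 := by
      rw [abs_mul, abs_of_nonneg (by positivity : (0:ℝ) ≤ w1 ^ 2 + w2 ^ 2)]
      exact mul_le_mul hq1 (by nlinarith) (by positivity) hη0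
    exact (abs_sub _ _).trans ((add_le_add ((abs_add_le _ _).trans (add_le_add a1 a2)) a3).trans (by linarith))
  have c1 : |H.bp w1 w2 (kap v1 v2) 1| ≤ 4 * η := by
    have e : H.bp w1 w2 (kap v1 v2) 1 = -2 * (v1 - w1) + 2 * ((q - 1) * w1) := by
      simp only [Hyp.bp, tm_kap]
      simp [kap, hq]; ring
    rw [e]
    have a1 : |-2 * (v1 - w1)| ≤ 2 * η := by
      rw [abs_mul, abs_neg, abs_of_pos (by norm_num : (0:ℝ) < 2)]; linarith
    have a2 : |2 * ((q - 1) * w1)| ≤ 2 * (η * 1) := by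
      rw [abs_mul, abs_mul, abs_of_pos (by norm_num : (0:ℝ) < 2), abs_of_nonneg hw1]
      have := mul_le_mul hq1 hw1' hw1 hη0
      linarith
    exact (abs_add_le _ _).trans (by linarith)
  have c2 : |H.bp w1 w2 (kap v1 v2) 2| ≤ 4 * η := by
    have e : H.bp w1 w2 (kap v1 v2) 2 = -2 * (v2 - w2) + 2 * ((q - 1) * w2) := by
      simp only [Hyp.bp, tm_kap]
      simp [kap, hq]; ring
    rw [e]
    have a1 : |-2 * (v2 - w2)| ≤ 2 * η := by
      rw [abs_mul, abs_neg, abs_of_pos (by norm_num : (0:ℝ) < 2)]; linarith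
    have a2 : |2 * ((q - 1) * w2)| ≤ 2 * (η * 1) := by
      rw [abs_mul, abs_mul, abs_of_pos (by norm_num : (0:ℝ) < 2), abs_of_nonneg hw2]
      have := mul_le_mul hq1 hw2' hw2 hη0
      linarith
    exact (abs_add_le _ _).trans (by linarith)
  exact (norm3_le1 _).trans (by linarith)

/-! ### assembly -/

theorem eM_sum {v : Fin 4 → ℝ × ℝ} (h : (Bx v).det ≠ 0) (u : Fin 4 → ℝ) : eM (Bx v) h u = ∑ i, u i • kap (v i).1 (v i).2 := by
  apply ext4
  all_goals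
    rw [eM_coord]
    simp [Matrix.mulVec, dotProduct, Fin.sum_univ_four, Bx]
    ring

end FRb

open FRb

/-- [FR] the linear coordinates adapted to four directions in general position -/
theorem stFR : StFR := by
  refine ⟨160, by norm_num, ?_⟩
  intro θ δ hθ hδ
  obtain ⟨K1, hK1⟩ := exists_nat_ge (12288 / (δ * θ))
  refine ⟨K1 + 1, by omega, ?_⟩
  intro K' hK' N H a1 a2 σ x hN hH hσ ha1 ha1' ha2 ha2' hx hD
  have hσ1 : σ ≤ 1 := by linarith
  have hK0 : (0:ℝ) < K' := by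
    have : 1 ≤ K' := by omega
    exact_mod_cast this
  have hKK : 12288 / (δ * θ) ≤ K' := hK1.trans (by exact_mod_cast (by omega : K1 ≤ K'))
  have hK1' : (1:ℝ) ≤ K' := by exact_mod_cast (by omega : 1 ≤ K')
  have hη : 1536 * (8 * (1 / (K':ℝ))) / δ ≤ θ := by
    rw [div_le_iff₀ (by positivity)] at hKK
    rw [div_le_iff₀ hδ]
    have : 1536 * (8 * (1 / (K':ℝ))) = 12288 / K' := by ring
    rw [this, div_le_iff₀ hK0]
    nlinarith
  have hD0 : D4 x ≠ 0 := by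
    intro h0
    rw [h0, abs_zero] at hD
    linarith
  set v : Fin 4 → ℝ × ℝ := fun i => (a1 + σ * (x i).1, a2 + σ * (x i).2) with hv
  have hdet : |(Bx v).det| = 4 * σ ^ 4 * |D4 x| := abs_Bx_det a1 a2 σ x
  have hne : (Bx v).det ≠ 0 := by
    rw [← abs_pos, hdet]
    positivity
  have hN0 : (0:ℝ) < N := by exact_mod_cast hN
  -- the rescaled direction
  set y : ℤ × ℤ → ℝ × ℝ := fun k => (((k.1:ℝ) / N - a1) / σ, ((k.2:ℝ) / N - a2) / σ) with hy
  have hy1 : ∀ k, a1 + σ * (y k).1 = (k.1:ℝ) / N := by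
    intro k
    simp only [hy]; field_simp; ring
  have hy2 : ∀ k, a2 + σ * (y k).2 = (k.2:ℝ) / N := by
    intro k
    simp only [hy]; field_simp; ring
  have hcap : ∀ j, ∀ k ∈ capN N (a1 + σ * (x j).1) (a2 + σ * (x j).2) (σ / K'),
      ((0 ≤ (k.1:ℝ) / N ∧ (k.1:ℝ) / N ≤ 1) ∧ (0 ≤ (k.2:ℝ) / N ∧ (k.2:ℝ) / N ≤ 1)) ∧
      ((x j).1 ≤ (y k).1 ∧ (y k).1 ≤ (x j).1 + 1 / K') ∧ ((x j).2 ≤ (y k).2 ∧ (y k).2 ≤ (x j).2 + 1 / K') := by
    intro j k hk
    unfold capN at hk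
    rw [Finset.mem_filter] at hk
    obtain ⟨hg, ⟨c1, c2⟩, c3, c4⟩ := hk
    unfold grd at hg
    rw [Finset.mem_product, Finset.mem_Ico, Finset.mem_Ico] at hg
    obtain ⟨⟨g1, g2⟩, g3, g4⟩ := hg
    have g1' : (0:ℝ) ≤ k.1 := by exact_mod_cast g1
    have g2' : (k.1:ℝ) ≤ N := by exact_mod_cast g2.le
    have g3' : (0:ℝ) ≤ k.2 := by exact_mod_cast g3
    have g4' : (k.2:ℝ) ≤ N := by exact_mod_cast g4.le
    have e1 := hy1 k
    have e2 := hy2 k
    have f1 : σ * (1 / (K':ℝ)) = σ / K' := by ring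
    refine ⟨⟨⟨by positivity, by rw [div_le_one hN0]; exact g2'⟩, by positivity, by rw [div_le_one hN0]; exact g4'⟩, ⟨?_, ?_⟩, ?_, ?_⟩
    · have : σ * (x j).1 ≤ σ * (y k).1 := by linarith
      exact le_of_mul_le_mul_left this hσ
    · have : σ * (y k).1 ≤ σ * ((x j).1 + 1 / K') := by rw [mul_add, f1]; linarith
      exact le_of_mul_le_mul_left this hσ
    · have : σ * (x j).2 ≤ σ * (y k).2 := by linarith
      exact le_of_mul_le_mul_left this hσ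
    · have : σ * (y k).2 ≤ σ * ((x j).2 + 1 / K') := by rw [mul_add, f1]; linarith
      exact le_of_mul_le_mul_left this hσ
  have hKinv : (1:ℝ) / K' ≤ 1 := by rw [div_le_one hK0]; exact hK1'
  have hKinv0 : (0:ℝ) < 1 / K' := by positivity
  have hvbd : ∀ i, (0 ≤ (v i).1 ∧ (v i).1 ≤ 1) ∧ (0 ≤ (v i).2 ∧ (v i).2 ≤ 1) := by
    intro i
    obtain ⟨⟨h1, h2⟩, h3, h4⟩ := hx i
    have q1 : σ * (x i).1 ≤ σ := by nlinarith
    have q2 : σ * (x i).2 ≤ σ := by nlinarith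
    refine ⟨⟨?_, ?_⟩, ?_, ?_⟩
    · show 0 ≤ a1 + σ * (x i).1
      positivity
    · show a1 + σ * (x i).1 ≤ 1
      linarith
    · show 0 ≤ a2 + σ * (x i).2
      positivity
    · show a2 + σ * (x i).2 ≤ 1
      linarith
  refine ⟨eM (Bx v) hne, fun _ k => cf x (y k), ?_, ?_, ?_, ?_, ?_, ?_⟩
  · have : 0 < |D4 x| := lt_of_lt_of_le hδ hD
    positivity
  · intro F
    rw [← hdet]
    exact eM_jac hne F
  · intro j k hk
    apply ext4
    all_goals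
      rw [eM_coord, ← hy1 k, ← hy2 k, Tm_mul, hv, Bx_eq, ← Matrix.mulVec_mulVec, cf_mul hD0]
  · intro j k hk
    obtain ⟨_, ⟨h1, h2⟩, h3, h4⟩ := hcap j k hk
    obtain ⟨⟨x1, x2⟩, x3, x4⟩ := hx j
    show ‖cf x (y k) - Pi.single j 1‖ ≤ θ
    rw [← cf_self hD0 j]
    refine (cf_sub_bd hx hδ hD (y k) (x j) (η := 8 * (1 / (K':ℝ))) ?_).trans hη
    apply par_sub_bd
    · rw [abs_le]; constructor <;> linarith
    · rw [abs_le]; constructor <;> linarith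
    · rw [abs_le]; constructor <;> linarith
    · rw [abs_le]; constructor <;> linarith
    · rw [abs_le]; constructor <;> linarith
    · rw [abs_le]; constructor <;> linarith
  · intro j k hk u u'
    obtain ⟨⟨⟨w1, w1'⟩, w2, w2'⟩, ⟨h1, h2⟩, h3, h4⟩ := hcap j k hk
    have hlin : H.bp (k.1 / N) (k.2 / N) (eM (Bx v) hne u) - H.bp (k.1 / N) (k.2 / N) (eM (Bx v) hne u') =
        ∑ i, (u i - u' i) • H.bp (k.1 / N) (k.2 / N) (kap (v i).1 (v i).2) := by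
      show bpL H (k.1 / N) (k.2 / N) _ - bpL H (k.1 / N) (k.2 / N) _ = ∑ i, _ • bpL H (k.1 / N) (k.2 / N) _
      rw [← map_sub, ← map_sub, eM_sum, map_sum]
      simp only [map_smul, Pi.sub_apply]
    rw [hlin]
    refine (norm_sum_le _ _).trans ?_
    calc ∑ i, ‖(u i - u' i) • H.bp (k.1 / N) (k.2 / N) (kap (v i).1 (v i).2)‖ ≤ ∑ i : Fin 4, ‖u - u'‖ * (20 * (2 * σ)) := by
          apply Finset.sum_le_sum
          intro i _
          rw [norm_smul]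
          have n1 : ‖u i - u' i‖ ≤ ‖u - u'‖ := norm_le_pi_norm (u - u') i
          obtain ⟨⟨v1, v1'⟩, v2, v2'⟩ := hvbd i
          have e1 := hy1 k
          have e2 := hy2 k
          obtain ⟨⟨x1, x2⟩, x3, x4⟩ := hx i
          obtain ⟨⟨z1, z2⟩, z3, z4⟩ := hx j
          have d1 : |(v i).1 - (k.1:ℝ) / N| ≤ 2 * σ := by
            rw [← e1]
            show |a1 + σ * (x i).1 - (a1 + σ * (y k).1)| ≤ 2 * σ
            have : a1 + σ * (x i).1 - (a1 + σ * (y k).1) = σ * ((x i).1 - (y k).1) := by ring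
            rw [this, abs_mul, abs_of_pos hσ, mul_comm]
            apply mul_le_mul_of_nonneg_right _ hσ.le
            rw [abs_le]; constructor <;> linarith
          have d2 : |(v i).2 - (k.2:ℝ) / N| ≤ 2 * σ := by
            rw [← e2]
            show |a2 + σ * (x i).2 - (a2 + σ * (y k).2)| ≤ 2 * σ
            have : a2 + σ * (x i).2 - (a2 + σ * (y k).2) = σ * ((x i).2 - (y k).2) := by ring
            rw [this, abs_mul, abs_of_pos hσ, mul_comm]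
            apply mul_le_mul_of_nonneg_right _ hσ.le
            rw [abs_le]; constructor <;> linarith
          have n2 := bp_kap_bd hH v1 v1' v2 v2' w1 w1' w2 w2' d1 d2
          exact mul_le_mul n1 n2 (norm_nonneg _) (norm_nonneg _)
      _ = 160 * σ * ‖u - u'‖ := by simp; ring
  · intro u
    have hlin : H.tm (eM (Bx v) hne u) = ∑ i, u i * H.m (v i).1 (v i).2 := by
      show tmL H _ = _
      rw [eM_sum, map_sum]
      apply Finset.sum_congr rfl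
      intro i _
      rw [map_smul, smul_eq_mul]
      congr 1
      exact tm_kap H _ _
    rw [hlin]
    refine (Finset.abs_sum_le_sum_abs _ _).trans ?_
    calc ∑ i, |u i * H.m (v i).1 (v i).2| ≤ ∑ i : Fin 4, ‖u‖ * 2 := by
          apply Finset.sum_le_sum
          intro i _
          obtain ⟨⟨v1, v1'⟩, v2, v2'⟩ := hvbd i
          obtain ⟨m1, m2⟩ := hH.m_bd v1 v1' v2 v2'
          rw [abs_mul, abs_of_nonneg (by linarith : 0 ≤ H.m (v i).1 (v i).2)]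
          exact mul_le_mul (norm_le_pi_norm u i) m2 (by linarith) (norm_nonneg _)
      _ = 8 * ‖u‖ := by simp; ring

end Vale.Agent.P106.Q
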