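import Vale.Agent.P106.Q.Defs2
import Vale.Agent.P106.G.Nik
import Vale.Agent.P106.G.BrA

/-! # P106 / Q / NKC : rescaling of the velocities and changes of variables -/

open MeasureTheory Complex Set Filter
open scoped ENNReal NNReal ContDiff FourierTransform Topology

set_option linter.all false

namespace Vale.Agent.P106.Q

open Vale.Agent.P106.G

theorem nkc_m_sub (H : Hyp) {β1 β2 τ w1 w2 : ℝ} (hm : H.m β1 β2 ≠ 0) :
    H.m β1 β2 * (H.sub β1 β2 τ).m w1 w2 = H.m (β1 + τ * w1) (β2 + τ * w2) := by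
  have e1 : (H.sub β1 β2 τ).s = H.s * τ ^ 2 / H.m β1 β2 := rfl
  have e2 : (H.sub β1 β2 τ).q1 = τ * (H.q1 - H.s * β1) / H.m β1 β2 := rfl
  have e3 : (H.sub β1 β2 τ).q2 = τ * (H.q2 - H.s * β2) / H.m β1 β2 := rfl
  have em : H.m β1 β2 = H.s * (β1 ^ 2 + β2 ^ 2) - 2 * (H.q1 * β1 + H.q2 * β2) + 1 := rfl
  have em2 : H.m (β1 + τ * w1) (β2 + τ * w2) = H.s * ((β1 + τ * w1) ^ 2 + (β2 + τ * w2) ^ 2) -
      2 * (H.q1 * (β1 + τ * w1) + H.q2 * (β2 + τ * w2)) + 1 := rfl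
  have em3 : (H.sub β1 β2 τ).m w1 w2 = (H.sub β1 β2 τ).s * (w1 ^ 2 + w2 ^ 2) - 2 * ((H.sub β1 β2 τ).q1 * w1 + (H.sub β1 β2 τ).q2 * w2) + 1 := rfl
  rw [em3, e1, e2, e3, em2]
  set m := H.m β1 β2 with hmdef
  have h0 : m * (H.s * τ ^ 2 / m * (w1 ^ 2 + w2 ^ 2) - 2 * (τ * (H.q1 - H.s * β1) / m * w1 + τ * (H.q2 - H.s * β2) / m * w2) + 1) =
      H.s * τ ^ 2 * (w1 ^ 2 + w2 ^ 2) - 2 * (τ * (H.q1 - H.s * β1) * w1 + τ * (H.q2 - H.s * β2) * w2) + m := by
    field_simp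
  rw [h0, em]
  ring

/-- velocities after the rescaling -/
theorem nkc_vel_resc (H : Hyp) {β1 β2 τ w1 w2 : ℝ} (hm : H.m β1 β2 ≠ 0) (hm' : H.m (β1 + τ * w1) (β2 + τ * w2) ≠ 0) :
    mat3 (H.AT β1 β2 τ).transpose (H.vel (β1 + τ * w1) (β2 + τ * w2)) + !₂[β1 ^ 2 + β2 ^ 2, 2 * τ * β1, 2 * τ * β2] =
      (τ ^ 2 / H.m β1 β2) • (H.sub β1 β2 τ).vel w1 w2 := by
  have h1 := nkc_m_sub H (w1 := w1) (w2 := w2) (τ := τ) hm
  have h2 : (H.sub β1 β2 τ).m w1 w2 ≠ 0 := by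
    intro h
    rw [h, mul_zero] at h1
    exact hm' h1.symm
  have em : H.m (β1 + τ * w1) (β2 + τ * w2) = H.s * ((β1 + τ * w1) ^ 2 + (β2 + τ * w2) ^ 2) -
      2 * (H.q1 * (β1 + τ * w1) + H.q2 * (β2 + τ * w2)) + 1 := rfl
  have e0 : ∀ x : ℝ, τ ^ 2 / H.m β1 β2 * (x / (H.sub β1 β2 τ).m w1 w2) = τ ^ 2 * x / H.m (β1 + τ * w1) (β2 + τ * w2) := by
    intro x
    rw [← h1]
    field_simp
  unfold Hyp.vel
  set m := H.m (β1 + τ * w1) (β2 + τ * w2) with hmdef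
  ext i
  rw [PiLp.add_apply, mat3_apply, PiLp.smul_apply, smul_eq_mul]
  fin_cases i
  · simp only [Fin.zero_eta, PiLp.toLp_apply, Matrix.cons_val_zero, Matrix.cons_val_one, Matrix.cons_val, Matrix.transpose_apply, Hyp.AT,
      Matrix.of_apply, Matrix.cons_val', e0]
    field_simp
    rw [em]
    ring
  · simp only [Fin.mk_one, PiLp.toLp_apply, Matrix.cons_val_zero, Matrix.cons_val_one, Matrix.cons_val, Matrix.transpose_apply, Hyp.AT,
      Matrix.of_apply, Matrix.cons_val', e0]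
    field_simp
    rw [em]
    ring
  · simp only [Fin.reduceFinMk, PiLp.toLp_apply, Matrix.cons_val_zero, Matrix.cons_val_one, Matrix.cons_val, Matrix.transpose_apply, Hyp.AT,
      Matrix.of_apply, Matrix.cons_val', e0]
    field_simp
    rw [em]
    ring

theorem nkc_time_int (H : Hyp) {F : E4 → ℝ≥0∞} (hF : Measurable F) (T : ℝ) :
    ∫⁻ z in {z : E4 | |H.tm z| ≤ T}, F z = ∫⁻ t in Icc (-T) T, ∫⁻ y, F (H.zt t y) := by
  have mS : MeasurableSet {z : E4 | |H.tm z| ≤ T} :=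
    measurableSet_le ((continuous_tm H).abs.measurable) measurable_const
  rw [← lintegral_indicator mS, lint_zt H (hF.indicator mS), ← lintegral_indicator measurableSet_Icc]
  refine lintegral_congr fun t => ?_
  by_cases ht : |t| ≤ T
  · rw [indicator_of_mem (show t ∈ Icc (-T) T from abs_le.1 ht)]
    refine lintegral_congr fun y => ?_
    rw [indicator_of_mem (by simp only [mem_setOf_eq, tm_zt]; exact ht)]
  · rw [indicator_of_notMem (show t ∉ Icc (-T) T from fun h => ht (abs_le.2 h))]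
    have e : ∀ y : E3, {z : E4 | |H.tm z| ≤ T}.indicator F (H.zt t y) = 0 := by
      intro y
      rw [indicator_of_notMem]
      simp only [mem_setOf_eq, tm_zt]
      exact ht
    simp_rw [e]
    simp

theorem nkc_lint_scale {l : ℝ} (hl : 0 < l) (a b : ℝ) (F : ℝ → ℝ≥0∞) :
    ∫⁻ t in Icc a b, F (l * t) = ENNReal.ofReal l⁻¹ * ∫⁻ T in Icc (l * a) (l * b), F T := by
  rw [← lintegral_indicator measurableSet_Icc, ← lintegral_indicator measurableSet_Icc]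
  have h1 := Real.map_volume_mul_left hl.ne'
  have h2 : ∀ t : ℝ, (Icc a b).indicator (fun t => F (l * t)) t = ((Icc (l * a) (l * b)).indicator F) (l * t) := by
    intro t
    by_cases ht : t ∈ Icc a b
    · rw [indicator_of_mem ht, indicator_of_mem]
      exact ⟨mul_le_mul_of_nonneg_left ht.1 hl.le, mul_le_mul_of_nonneg_left ht.2 hl.le⟩
    · rw [indicator_of_notMem ht, indicator_of_notMem]
      intro h
      exact ht ⟨le_of_mul_le_mul_left h.1 hl, le_of_mul_le_mul_left h.2 hl⟩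
  simp_rw [h2]
  have h3 : ∫⁻ t : ℝ, ((Icc (l * a) (l * b)).indicator F) (l * t) =
      ∫⁻ T, ((Icc (l * a) (l * b)).indicator F) T ∂(Measure.map (l * ·) (volume : Measure ℝ)) :=
    (MeasureTheory.lintegral_map_equiv _ (Homeomorph.mulLeft₀ l hl.ne').toMeasurableEquiv).symm
  rw [h3, h1, lintegral_smul_measure, abs_of_pos (inv_pos.2 hl)]
  rfl

/-- sums over a set of indices contained in a translated square -/
theorem nkc_sum_tr (c : Finset (ℤ × ℤ)) (N' : ℕ) (kk : ℤ × ℤ) (hc : ∀ k ∈ c, ∃ k' ∈ grd N', k = kk + k') (F : ℤ × ℤ → ℝ≥0∞) :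
    ∑ k' ∈ grd N', (c : Set (ℤ × ℤ)).indicator F (kk + k') = ∑ k ∈ c, F k := by
  have h1 : ∑ k ∈ c, F k = ∑ k ∈ c, (c : Set (ℤ × ℤ)).indicator F k :=
    Finset.sum_congr rfl fun k hk => (indicator_of_mem (Finset.mem_coe.2 hk) F).symm
  have h2 : ∑ k ∈ c, (c : Set (ℤ × ℤ)).indicator F k = ∑ k ∈ (grd N').map (addLeftEmbedding kk), (c : Set (ℤ × ℤ)).indicator F k := by
    apply Finset.sum_subset
    · intro k hk
      obtain ⟨k', h3, h4⟩ := hc k hk
      rw [Finset.mem_map]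
      exact ⟨k', h3, h4.symm⟩
    · intro k _ hk
      exact indicator_of_notMem (fun h => hk (Finset.mem_coe.1 h)) F
  rw [h1, h2, Finset.sum_map]
  rfl

end Vale.Agent.P106.Q
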