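import Vale.Agent.P106.Q.BRDa
import Vale.Agent.P106.Q.NKCa

/-! # P106 / Q / BRD : slices, energies and averages -/

open MeasureTheory Complex Set
open scoped ENNReal NNReal

set_option linter.all false

namespace Vale.Agent.P106.Q.BRD

open Vale.Agent.P106.G Vale.Agent.P106.Q Vale.Agent.P106.Q.MLK

/-! ### Rays -/

theorem tm_kap (H : Hyp) (v1 v2 : ℝ) : H.tm (kap v1 v2) = H.m v1 v2 := by
  unfold Hyp.tm kap Hyp.m
  simp only [PiLp.toLp_apply, Matrix.cons_val_zero, Matrix.cons_val_one, Matrix.cons_val]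
  ring

theorem tm_add_smul (H : Hyp) (z w : E4) (t : ℝ) : H.tm (z + t • w) = H.tm z + t * H.tm w := by
  unfold Hyp.tm
  simp only [PiLp.add_apply, PiLp.smul_apply, smul_eq_mul]
  ring

theorem bp_add_kap (H : Hyp) {v1 v2 : ℝ} (hm : H.m v1 v2 ≠ 0) (z : E4) (t : ℝ) :
    H.bp v1 v2 (z + t • kap v1 v2) = H.bp v1 v2 z := by
  unfold Hyp.bp
  rw [tm_add_smul, tm_kap]
  have e : (H.tm z + t * H.m v1 v2) / H.m v1 v2 = H.tm z / H.m v1 v2 + t := by
    field_simp
  rw [e]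
  apply ext3
  · simp [kap]; ring
  · simp [kap]; ring
  · simp [kap]; ring

theorem zt_ray (H : Hyp) {v1 v2 : ℝ} (hm : H.m v1 v2 ≠ 0) (t : ℝ) (y : E3) :
    H.zt t (y + t • H.vel v1 v2) = H.pt y + (t / H.m v1 v2) • kap v1 v2 := by
  have em : H.m v1 v2 = H.s * (v1 ^ 2 + v2 ^ 2) - 2 * (H.q1 * v1 + H.q2 * v2) + 1 := rfl
  unfold Hyp.zt Hyp.pt kap Hyp.vel
  ext i
  fin_cases i
  · simp; ring
  · simp; ring
  · simp; ring
  · simp
    have h1 : t = t / H.m v1 v2 * H.m v1 v2 := by field_simp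
    set l := t / H.m v1 v2 with hl
    have e1 : ∀ x : ℝ, t * (x / H.m v1 v2) = l * x := by
      intro x
      rw [hl]; ring
    rw [e1, e1, e1]
    rw [em] at h1
    linear_combination h1

/-! ### Averages -/

theorem av_ge {g : V4 → ℝ≥0∞} (hg : Measurable g) {Ω Ω1 : Set V4} (hΩ : MeasurableSet Ω) (hΩ1 : MeasurableSet Ω1) {s : ℝ}
    (hs : 0 ≤ s) (h : ∀ u ∈ Ω, ∀ w : V4, ‖w‖ ≤ s → u - w ∈ Ω1) :
    ENNReal.ofReal ((2 * s) ^ 4) * ∫⁻ u in Ω, g u ≤ ∫⁻ c in Ω1, Av s g c := by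
  have h1 : ∫⁻ c in Ω1, Av s g c = ∫⁻ w in Metric.closedBall (0 : V4) s, ∫⁻ c in Ω1, g (c + w) := by
    unfold Av
    rw [lintegral_lintegral_swap]
    exact (hg.comp (by fun_prop)).aemeasurable
  rw [h1, ← vol_ball (0 : V4) hs, mul_comm, ← setLIntegral_const]
  refine setLIntegral_mono' measurableSet_closedBall fun w hw => ?_
  rw [mem_closedBall_zero_iff] at hw
  rw [← lintegral_indicator hΩ, ← lintegral_indicator hΩ1, ← lintegral_add_right_eq_self (fun c => Ω.indicator g c) w]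
  refine lintegral_mono fun c => ?_
  simp only
  by_cases hc : c + w ∈ Ω
  · have h2 : c ∈ Ω1 := by
      have := h _ hc w hw
      rwa [add_sub_cancel_right] at this
    rw [indicator_of_mem hc, indicator_of_mem h2]
  · rw [indicator_of_notMem hc]
    exact zero_le

theorem av_le {g : V4 → ℝ≥0∞} (hg : Measurable g) {Ω1 Ω2 : Set V4} (hΩ1 : MeasurableSet Ω1) (hΩ2 : MeasurableSet Ω2) {s : ℝ}
    (hs : 0 ≤ s) (h : ∀ u ∈ Ω1, ∀ w : V4, ‖w‖ ≤ s → u + w ∈ Ω2) :
    ∫⁻ c in Ω1, Av s g c ≤ ENNReal.ofReal ((2 * s) ^ 4) * ∫⁻ u in Ω2, g u := by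
  have h1 : ∫⁻ c in Ω1, Av s g c = ∫⁻ w in Metric.closedBall (0 : V4) s, ∫⁻ c in Ω1, g (c + w) := by
    unfold Av
    rw [lintegral_lintegral_swap]
    exact (hg.comp (by fun_prop)).aemeasurable
  rw [h1, ← vol_ball (0 : V4) hs, mul_comm, ← setLIntegral_const]
  refine setLIntegral_mono' measurableSet_closedBall fun w hw => ?_
  rw [mem_closedBall_zero_iff] at hw
  rw [← lintegral_indicator hΩ1, ← lintegral_indicator hΩ2, ← lintegral_add_right_eq_self (fun c => Ω2.indicator g c) w]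
  refine lintegral_mono fun c => ?_
  simp only
  by_cases hc : c ∈ Ω1
  · have h2 : c + w ∈ Ω2 := h _ hc w hw
    rw [indicator_of_mem hc, indicator_of_mem h2]
  · rw [indicator_of_notMem hc]
    exact zero_le

theorem av_eq (g : V4 → ℝ≥0∞) (c : V4) (s : ℝ) : Av s g c = ∫⁻ u in Metric.closedBall c s, g u := by
  refine le_antisymm ?_ (ball_le_Av g c s)
  have h3 := Av_le_ball g (z0 := c) (z := c) (R := 0) (r := s) (Metric.mem_closedBall_self le_rfl)
  rwa [zero_add] at h3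

/-- concavity -/
theorem jensen {μ : Measure V4} {h : V4 → ℝ≥0∞} (hh : AEMeasurable h μ) {q : ℝ} (hq : 0 ≤ q) (hq1 : q ≤ 1) :
    ∫⁻ u, h u ^ q ∂μ ≤ (∫⁻ u, h u ∂μ) ^ q * (μ univ) ^ (1 - q) := by
  have h1 := ENNReal.lintegral_mul_norm_pow_le (μ := μ) hh (aemeasurable_const (b := (1:ℝ≥0∞))) hq (sub_nonneg.2 hq1) (by ring)
  simpa using h1

/-! ### Scaling of the cubes -/

theorem lint_smul {l : ℝ} (hl : 0 < l) (g : V4 → ℝ≥0∞) (c : V4) (s : ℝ) :
    ∫⁻ w in Metric.closedBall (l⁻¹ • c) (l⁻¹ * s), g (l • w) = ENNReal.ofReal (l⁻¹ ^ 4) * ∫⁻ u in Metric.closedBall c s, g u := by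
  have hmap := Measure.map_addHaar_smul (volume : Measure V4) hl.ne'
  rw [← lintegral_indicator measurableSet_closedBall, ← lintegral_indicator measurableSet_closedBall]
  have e1 : ∀ w : V4, (Metric.closedBall (l⁻¹ • c) (l⁻¹ * s)).indicator (fun w => g (l • w)) w =
      ((Metric.closedBall c s).indicator g) (l • w) := by
    intro w
    have e2 : w ∈ Metric.closedBall (l⁻¹ • c) (l⁻¹ * s) ↔ l • w ∈ Metric.closedBall c s := by
      rw [mem_closedBall_iff_norm, mem_closedBall_iff_norm]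
      have e3 : l • w - c = l • (w - l⁻¹ • c) := by
        rw [smul_sub, smul_smul, mul_inv_cancel₀ hl.ne', one_smul]
      rw [e3, norm_smul, Real.norm_eq_abs, abs_of_pos hl, inv_mul_eq_div, le_div_iff₀ hl, mul_comm]
    by_cases hw : w ∈ Metric.closedBall (l⁻¹ • c) (l⁻¹ * s)
    · rw [indicator_of_mem hw, indicator_of_mem (e2.1 hw)]
    · rw [indicator_of_notMem hw, indicator_of_notMem (fun h => hw (e2.2 h))]
  simp_rw [e1]
  have h3 : ∫⁻ w : V4, ((Metric.closedBall c s).indicator g) (l • w) =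
      ∫⁻ u, ((Metric.closedBall c s).indicator g) u ∂(Measure.map (l • ·) (volume : Measure V4)) :=
    (MeasureTheory.lintegral_map_equiv _ (Homeomorph.smulOfNeZero l hl.ne').toMeasurableEquiv).symm
  rw [h3, hmap, lintegral_smul_measure, smul_eq_mul]
  congr 2
  rw [abs_of_nonneg (by positivity)]
  simp

end Vale.Agent.P106.Q.BRD
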