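import Vale.Agent.P106.Q.BRDc

/-! # P106 / Q / BRD : local bound and energies in the adapted coordinates -/

open MeasureTheory Complex Set
open scoped ENNReal NNReal

set_option linter.all false

namespace Vale.Agent.P106.Q.BRD

open Vale.Agent.P106.G Vale.Agent.P106.Q Vale.Agent.P106.Q.MLK

/-- the functions of the `j`-th family in the adapted coordinates -/
noncomputable def Fu (H : Hyp) (N : ℕ) (ν : ℤ × ℤ → E3 → ℝ≥0∞) (S : Finset (ℤ × ℤ)) (e : (Fin 4 → ℝ) ≃L[ℝ] E4) (u : V4) : ℝ≥0∞ :=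
  ∑ k ∈ S, ν k (H.bp (k.1 / N) (k.2 / N) (e u))

theorem meas_Fu (H : Hyp) (N : ℕ) {ν : ℤ × ℤ → E3 → ℝ≥0∞} (hν : ∀ k, Measurable (ν k)) (S : Finset (ℤ × ℤ)) (e : (Fin 4 → ℝ) ≃L[ℝ] E4) :
    Measurable (Fu H N ν S e) := by
  unfold Fu
  exact Finset.measurable_sum _ fun k _ => (hν k).comp ((cont_bp H _ _).measurable.comp e.continuous.measurable)

section
variable {Cb θ c σ : ℝ} {H : Hyp} {N : ℕ} {A : Fin 4 → Finset (ℤ × ℤ)} {e : (Fin 4 → ℝ) ≃L[ℝ] E4}
  {al : Fin 4 → ℤ × ℤ → (Fin 4 → ℝ)} (hF : Fr Cb H N θ c σ A e al)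

include hF in
/-- energy in a slab -/
theorem int_slab {ν : ℤ × ℤ → E3 → ℝ≥0∞} (hν : ∀ k, Measurable (ν k)) (j : Fin 4) {T : ℝ} (hT : 0 ≤ T) :
    ENNReal.ofReal c * ∫⁻ u in {u : V4 | |H.tm (e u)| ≤ T}, Fu H N ν (A j) e u =
      ENNReal.ofReal (2 * T) * ∑ k ∈ A j, ∫⁻ y, ν k y := by
  have mS : MeasurableSet {z : E4 | |H.tm z| ≤ T} :=
    measurableSet_le ((continuous_tm H).abs.measurable) measurable_const
  have mS' : MeasurableSet {u : V4 | |H.tm (e u)| ≤ T} :=
    measurableSet_le (((continuous_tm H).comp e.continuous).abs.measurable) measurable_const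
  have mF : Measurable (fun z : E4 => ∑ k ∈ A j, ν k (H.bp (k.1 / N) (k.2 / N) z)) :=
    Finset.measurable_sum _ fun k _ => (hν k).comp (cont_bp H _ _).measurable
  have h1 : ENNReal.ofReal c * ∫⁻ u in {u : V4 | |H.tm (e u)| ≤ T}, Fu H N ν (A j) e u =
      ∫⁻ z in {z : E4 | |H.tm z| ≤ T}, ∑ k ∈ A j, ν k (H.bp (k.1 / N) (k.2 / N) z) := by
    rw [← lintegral_indicator mS, ← lintegral_indicator mS', hF.jac]
    rfl
  rw [h1, nkc_time_int H mF]
  have e1 : ∀ t : ℝ, ∫⁻ y : E3, ∑ k ∈ A j, ν k (H.bp (k.1 / N) (k.2 / N) (H.zt t y)) = ∑ k ∈ A j, ∫⁻ y, ν k y := by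
    intro t
    rw [lintegral_finset_sum]
    · refine Finset.sum_congr rfl fun k _ => ?_
      simp_rw [bp_zt]
      exact lintegral_sub_right_eq_self (fun y => ν k y) _
    · intro k _
      exact (hν k).comp ((cont_bp H _ _).measurable.comp (measurable_zt H t))
  simp_rw [e1]
  rw [setLIntegral_const, Real.volume_Icc, mul_comm]
  congr 2
  ring

include hF in
theorem symm_ray {j : Fin 4} {k : ℤ × ℤ} (hk : k ∈ A j) (hm : 1 ≤ H.m (k.1 / N) (k.2 / N)) (t : ℝ) (y : E3) :
    e.symm (H.zt t (y + t • H.vel (k.1 / N) (k.2 / N))) = e.symm (H.pt y) + (t / H.m (k.1 / N) (k.2 / N)) • al j k := by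
  rw [zt_ray H (by linarith), map_add, map_smul, ← hF.dir j k hk, ContinuousLinearEquiv.symm_apply_apply]

include hF in
theorem norm_al (hθ : θ ≤ 1) {j : Fin 4} {k : ℤ × ℤ} (hk : k ∈ A j) : ‖al j k‖ ≤ 2 := by
  have h1 := hF.clo j k hk
  have h2 : ‖(Pi.single j 1 : V4)‖ = 1 := by
    rw [Pi.norm_single]; simp
  calc ‖al j k‖ = ‖(al j k - Pi.single j 1) + Pi.single j 1‖ := by rw [sub_add_cancel]
    _ ≤ ‖al j k - Pi.single j 1‖ + ‖(Pi.single j 1 : V4)‖ := norm_add_le _ _
    _ ≤ 2 := by rw [h2]; linarith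

include hF in
theorem norm_tal (hθ : θ ≤ 1) {j : Fin 4} {k : ℤ × ℤ} (hk : k ∈ A j) (hm : 1 ≤ H.m (k.1 / N) (k.2 / N)) {t T : ℝ} (ht : |t| ≤ T) :
    ‖(t / H.m (k.1 / N) (k.2 / N)) • al j k‖ ≤ 2 * T := by
  rw [norm_smul, Real.norm_eq_abs, abs_div, abs_of_pos (show 0 < H.m (k.1 / N) (k.2 / N) by linarith)]
  have h1 : |t| / H.m (k.1 / N) (k.2 / N) ≤ T := by
    rw [div_le_iff₀ (by linarith)]
    nlinarith [abs_nonneg t]
  calc |t| / H.m (k.1 / N) (k.2 / N) * ‖al j k‖ ≤ T * 2 :=
        mul_le_mul h1 (norm_al hF hθ hk) (norm_nonneg _) ((abs_nonneg t).trans ht)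
    _ = 2 * T := by ring

theorem meas_pre (H : Hyp) (e : (Fin 4 → ℝ) ≃L[ℝ] E4) (c0 : V4) (ρ : ℝ) :
    MeasurableSet {z : E4 | e.symm z ∈ Metric.closedBall c0 ρ} :=
  e.symm.continuous.measurable measurableSet_closedBall

theorem cont_pt (H : Hyp) : Continuous H.pt := by
  unfold Hyp.pt
  apply (PiLp.continuous_toLp 2 _).comp
  apply continuous_pi
  intro i
  fin_cases i <;> simp <;> fun_prop

include hF in
/-- volume of the slice of a parallelepiped -/
theorem slice_vol (hθ : θ ≤ 1) {j : Fin 4} {k : ℤ × ℤ} (hk : k ∈ A j) (hm : 1 ≤ H.m (k.1 / N) (k.2 / N)) (c0 : V4)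
    {ρ R : ℝ} (hρ : 0 ≤ ρ) (hR : 0 ≤ R) :
    ENNReal.ofReal R * volume {y : E3 | e.symm (H.pt y) ∈ Metric.closedBall c0 ρ} ≤
      ENNReal.ofReal c * ENNReal.ofReal ((2 * (ρ + 2 * R)) ^ 4) := by
  set S : Set E3 := {y : E3 | e.symm (H.pt y) ∈ Metric.closedBall c0 ρ} with hS
  have mS : MeasurableSet S := (e.symm.continuous.comp (cont_pt H)).measurable measurableSet_closedBall
  set P : Set E4 := {z : E4 | e.symm z ∈ Metric.closedBall c0 (ρ + 2 * R)} with hP
  have mP : MeasurableSet P := meas_pre H e c0 _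
  have h1 : ENNReal.ofReal R * volume S = ∫⁻ t in Icc (0:ℝ) R, ∫⁻ y, S.indicator 1 y := by
    rw [lintegral_indicator_one mS, setLIntegral_const, Real.volume_Icc, sub_zero, mul_comm]
  have h2 : ∫⁻ t in Icc (0:ℝ) R, ∫⁻ y, S.indicator 1 y ≤ ∫⁻ t in Icc (0:ℝ) R, ∫⁻ y, P.indicator 1 (H.zt t y) := by
    refine setLIntegral_mono' measurableSet_Icc fun t ht => ?_
    rw [← lintegral_add_right_eq_self (fun y => P.indicator (1 : E4 → ℝ≥0∞) (H.zt t y)) (t • H.vel (k.1 / N) (k.2 / N))]
    refine lintegral_mono fun y => ?_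
    by_cases hy : y ∈ S
    · have h3 : H.zt t (y + t • H.vel (k.1 / N) (k.2 / N)) ∈ P := by
        rw [hP, mem_setOf_eq, symm_ray hF hk hm, mem_closedBall_iff_norm]
        rw [hS, mem_setOf_eq, mem_closedBall_iff_norm] at hy
        have h4 := norm_tal hF hθ hk hm (t := t) (T := R) (by rw [abs_of_nonneg ht.1]; exact ht.2)
        calc _ = ‖(e.symm (H.pt y) - c0) + (t / H.m (k.1 / N) (k.2 / N)) • al j k‖ := by congr 1; abel
          _ ≤ _ := (norm_add_le _ _).trans (add_le_add hy h4)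
      simp only [indicator_of_mem hy, indicator_of_mem h3, Pi.one_apply, le_refl]
    · simp only [indicator_of_notMem hy, zero_le]
  have h3 : ∫⁻ t in Icc (0:ℝ) R, ∫⁻ y, P.indicator (1 : E4 → ℝ≥0∞) (H.zt t y) ≤ ∫⁻ t, ∫⁻ y, P.indicator (1 : E4 → ℝ≥0∞) (H.zt t y) :=
    setLIntegral_le_lintegral _ _
  rw [h1]
  refine h2.trans (h3.trans ?_)
  rw [← lint_zt H (measurable_one.indicator mP), hF.jac]
  refine mul_le_mul' le_rfl ?_
  have e2 : ∀ u : V4, P.indicator (1 : E4 → ℝ≥0∞) (e u) = (Metric.closedBall c0 (ρ + 2 * R)).indicator 1 u := by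
    intro u
    have : e u ∈ P ↔ u ∈ Metric.closedBall c0 (ρ + 2 * R) := by
      rw [hP, mem_setOf_eq, ContinuousLinearEquiv.symm_apply_apply]
    by_cases hu : e u ∈ P
    · rw [indicator_of_mem hu, indicator_of_mem (this.1 hu)]; rfl
    · rw [indicator_of_notMem hu, indicator_of_notMem (fun h => hu (this.2 h))]
  simp_rw [e2]
  rw [lintegral_indicator_one measurableSet_closedBall, vol_ball c0 (by positivity)]

include hF in
/-- local bound: the integral of the `j`-th family over a cube -/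
theorem int_cube (hθ : θ ≤ 1) {ν : ℤ × ℤ → E3 → ℝ≥0∞} (hν : ∀ k, Measurable (ν k)) (j : Fin 4)
    (hm : ∀ k ∈ A j, 1 ≤ H.m (k.1 / N) (k.2 / N)) {D : ℝ} (hD : ∀ y, ∑ k ∈ A j, ν k y ≤ ENNReal.ofReal D)
    (c0 : V4) {r0 T R : ℝ} (hr0 : 0 ≤ r0) (hR : 0 < R) (hT0 : 0 ≤ T) (hT : ∀ u ∈ Metric.closedBall c0 r0, |H.tm (e u)| ≤ T) :
    ENNReal.ofReal R * ∫⁻ u in Metric.closedBall c0 r0, Fu H N ν (A j) e u ≤
      ENNReal.ofReal (2 * T) * ENNReal.ofReal D * ENNReal.ofReal ((2 * (r0 + 2 * T + 2 * R)) ^ 4) := by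
  rcases (A j).eq_empty_or_nonempty with hA | ⟨k0, hk0⟩
  · have : ∀ u, Fu H N ν (A j) e u = 0 := by
      intro u
      unfold Fu
      rw [hA, Finset.sum_empty]
    simp_rw [this]
    simp
  set P : Set E4 := {z : E4 | e.symm z ∈ Metric.closedBall c0 r0} with hP
  have mP : MeasurableSet P := meas_pre H e c0 _
  set S : Set E3 := {y : E3 | e.symm (H.pt y) ∈ Metric.closedBall c0 (r0 + 2 * T)} with hS
  have mS : MeasurableSet S := (e.symm.continuous.comp (cont_pt H)).measurable measurableSet_closedBall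
  set F : E4 → ℝ≥0∞ := fun z => ∑ k ∈ A j, ν k (H.bp (k.1 / N) (k.2 / N) z) with hFdef
  have mF : Measurable F := Finset.measurable_sum _ fun k _ => (hν k).comp (cont_bp H _ _).measurable
  have hc0 : ENNReal.ofReal c ≠ 0 := by
    simp only [ne_eq, ENNReal.ofReal_eq_zero, not_le]
    exact hF.c0
  have h1 : ENNReal.ofReal c * ∫⁻ u in Metric.closedBall c0 r0, Fu H N ν (A j) e u = ∫⁻ z, P.indicator F z := by
    rw [hF.jac, ← lintegral_indicator measurableSet_closedBall]
    congr 1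
    refine lintegral_congr fun u => ?_
    have : e u ∈ P ↔ u ∈ Metric.closedBall c0 r0 := by
      rw [hP, mem_setOf_eq, ContinuousLinearEquiv.symm_apply_apply]
    by_cases hu : e u ∈ P
    · rw [indicator_of_mem hu, indicator_of_mem (this.1 hu)]; rfl
    · rw [indicator_of_notMem hu, indicator_of_notMem (fun h => hu (this.2 h))]
  have h2 : ∀ t : ℝ, ∫⁻ y, P.indicator F (H.zt t y) ≤ (Icc (-T) T).indicator (fun _ => ENNReal.ofReal D * volume S) t := by
    intro t
    by_cases ht : t ∈ Icc (-T) T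
    · rw [indicator_of_mem ht]
      have e1 : ∀ y, P.indicator F (H.zt t y) = ∑ k ∈ A j, P.indicator (1 : E4 → ℝ≥0∞) (H.zt t y) * ν k (y - t • H.vel (k.1 / N) (k.2 / N)) := by
        intro y
        by_cases hy : H.zt t y ∈ P
        · rw [indicator_of_mem hy, indicator_of_mem hy, hFdef]
          refine Finset.sum_congr rfl fun k _ => ?_
          rw [bp_zt, Pi.one_apply, one_mul]
        · rw [indicator_of_notMem hy, indicator_of_notMem hy]
          simp
      simp_rw [e1]
      rw [lintegral_finset_sum]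
      · calc ∑ k ∈ A j, ∫⁻ y, P.indicator (1 : E4 → ℝ≥0∞) (H.zt t y) * ν k (y - t • H.vel (k.1 / N) (k.2 / N))
            ≤ ∑ k ∈ A j, ∫⁻ y, S.indicator (ν k) y := by
              refine Finset.sum_le_sum fun k hk => ?_
              rw [← lintegral_add_right_eq_self (fun y => P.indicator (1 : E4 → ℝ≥0∞) (H.zt t y) * ν k (y - t • H.vel (k.1 / N) (k.2 / N)))
                (t • H.vel (k.1 / N) (k.2 / N))]
              refine lintegral_mono fun y => ?_
              simp only [add_sub_cancel_right]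
              by_cases hy : H.zt t (y + t • H.vel (k.1 / N) (k.2 / N)) ∈ P
              · have hyS : y ∈ S := by
                  rw [hP, mem_setOf_eq, symm_ray hF hk (hm k hk), mem_closedBall_iff_norm] at hy
                  rw [hS, mem_setOf_eq, mem_closedBall_iff_norm]
                  have h4 := norm_tal hF hθ hk (hm k hk) (t := t) (T := T) (abs_le.2 ht)
                  calc ‖e.symm (H.pt y) - c0‖ = ‖(e.symm (H.pt y) + (t / H.m (k.1 / N) (k.2 / N)) • al j k - c0) -
                        (t / H.m (k.1 / N) (k.2 / N)) • al j k‖ := by congr 1; abel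
                    _ ≤ _ := (norm_sub_le _ _).trans (add_le_add hy h4)
                rw [indicator_of_mem hy, indicator_of_mem hyS, Pi.one_apply, one_mul]
              · rw [indicator_of_notMem hy, zero_mul]
                exact zero_le
          _ = ∫⁻ y, ∑ k ∈ A j, S.indicator (ν k) y := by
              rw [lintegral_finset_sum]
              intro k _
              exact (hν k).indicator mS
          _ ≤ ∫⁻ y, S.indicator (fun _ => ENNReal.ofReal D) y := by
              refine lintegral_mono fun y => ?_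
              by_cases hy : y ∈ S
              · simp only [indicator_of_mem hy]
                exact hD y
              · simp only [indicator_of_notMem hy, Finset.sum_const_zero, le_refl]
          _ = _ := by rw [lintegral_indicator mS, setLIntegral_const]
      · intro k _
        refine ((measurable_one.indicator mP).comp (measurable_zt H t)).mul ((hν k).comp ?_)
        fun_prop
    · have e1 : ∀ y, P.indicator F (H.zt t y) = 0 := by
        intro y
        apply indicator_of_notMem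
        intro hy
        apply ht
        have h5 := hT _ hy
        rw [ContinuousLinearEquiv.apply_symm_apply, tm_zt] at h5
        exact abs_le.1 h5
      simp_rw [e1]
      simp
  have h3 : ENNReal.ofReal c * ∫⁻ u in Metric.closedBall c0 r0, Fu H N ν (A j) e u ≤
      ENNReal.ofReal (2 * T) * (ENNReal.ofReal D * volume S) := by
    rw [h1, lint_zt H (mF.indicator mP)]
    refine (lintegral_mono h2).trans ?_
    rw [lintegral_indicator measurableSet_Icc, setLIntegral_const, Real.volume_Icc, mul_comm]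
    refine mul_le_mul' (ENNReal.ofReal_le_ofReal ?_) le_rfl
    linarith
  have h4 := slice_vol hF hθ hk0 (hm k0 hk0) c0 (ρ := r0 + 2 * T) (R := R) (by positivity) hR.le
  rw [← hS] at h4
  have h5 : ENNReal.ofReal c * (ENNReal.ofReal R * ∫⁻ u in Metric.closedBall c0 r0, Fu H N ν (A j) e u) ≤
      ENNReal.ofReal c * (ENNReal.ofReal (2 * T) * ENNReal.ofReal D * ENNReal.ofReal ((2 * (r0 + 2 * T + 2 * R)) ^ 4)) := by
    calc ENNReal.ofReal c * (ENNReal.ofReal R * ∫⁻ u in Metric.closedBall c0 r0, Fu H N ν (A j) e u)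
        = ENNReal.ofReal R * (ENNReal.ofReal c * ∫⁻ u in Metric.closedBall c0 r0, Fu H N ν (A j) e u) := by ring
      _ ≤ ENNReal.ofReal R * (ENNReal.ofReal (2 * T) * (ENNReal.ofReal D * volume S)) := mul_le_mul' le_rfl h3
      _ = ENNReal.ofReal (2 * T) * ENNReal.ofReal D * (ENNReal.ofReal R * volume S) := by ring
      _ ≤ ENNReal.ofReal (2 * T) * ENNReal.ofReal D * (ENNReal.ofReal c * ENNReal.ofReal ((2 * (r0 + 2 * T + 2 * R)) ^ 4)) :=
          mul_le_mul' le_rfl h4
      _ = _ := by ring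
  exact (ENNReal.mul_le_mul_iff_right hc0 ENNReal.ofReal_ne_top).1 h5

end

end Vale.Agent.P106.Q.BRD
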