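import Vale.Agent.P106.Q.BRDd

/-! # P106 / Q / BRD : multilinear Kakeya at the scale of the densities, and the estimate on a cube -/

open MeasureTheory Complex Set
open scoped ENNReal NNReal

set_option linter.all false

namespace Vale.Agent.P106.Q.BRD

open Vale.Agent.P106.G Vale.Agent.P106.Q Vale.Agent.P106.Q.MLK

/-- conclusion of [MLK] with the constants `θ`, `C0`, `M` -/
def MK (ε θ C0 M : ℝ) : Prop :=
  ∀ (A : Fin 4 → Finset (ℤ × ℤ)) (u : Fin 4 → ℤ × ℤ → (Fin 4 → ℝ)) (f : Fin 4 → ℤ × ℤ → (Fin 4 → ℝ) → ℝ≥0∞),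
  (∀ j a, Measurable (f j a)) →
  (∀ j, ∀ a ∈ A j, ‖u j a - Pi.single j 1‖ ≤ θ) →
  (∀ j, ∀ a ∈ A j, ∀ (z : Fin 4 → ℝ) (t : ℝ), f j a (z + t • u j a) = f j a z) →
  (∀ j a z z', ‖z - z'‖ ≤ 1 → f j a z ≤ ENNReal.ofReal C0 * f j a z') →
  ∀ (z0 : Fin 4 → ℝ) (ρ : ℝ), 1 ≤ ρ →
    ∫⁻ z in Metric.closedBall z0 ρ, ∏ j, (∑ a ∈ A j, f j a z) ^ (1/3 : ℝ) ≤
      ENNReal.ofReal (M * ρ ^ (ε - 4/3)) * ∏ j, (∫⁻ z in Metric.closedBall z0 (10 * ρ), ∑ a ∈ A j, f j a z) ^ (1/3 : ℝ)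

/-- [MLK] for functions slowly varying at the scale `l` -/
theorem mlk_scaled {ε θ C0 M : ℝ} (hM : 0 ≤ M) (h : MK ε θ C0 M) {A : Fin 4 → Finset (ℤ × ℤ)}
    {u : Fin 4 → ℤ × ℤ → (Fin 4 → ℝ)} {f : Fin 4 → ℤ × ℤ → (Fin 4 → ℝ) → ℝ≥0∞} (hm : ∀ j a, Measurable (f j a))
    (hu : ∀ j, ∀ a ∈ A j, ‖u j a - Pi.single j 1‖ ≤ θ)
    (hinv : ∀ j, ∀ a ∈ A j, ∀ (z : Fin 4 → ℝ) (t : ℝ), f j a (z + t • u j a) = f j a z) {l : ℝ} (hl : 0 < l)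
    (hs : ∀ j a z z', ‖z - z'‖ ≤ l → f j a z ≤ ENNReal.ofReal C0 * f j a z') (c0 : V4) {r0 : ℝ} (hr : l ≤ r0) :
    ∫⁻ z in Metric.closedBall c0 r0, ∏ j, (∑ a ∈ A j, f j a z) ^ (1/3 : ℝ) ≤
      ENNReal.ofReal (M * (r0 / l) ^ ε * r0 ^ (-(4/3) : ℝ)) *
        ∏ j, (∫⁻ z in Metric.closedBall c0 (10 * r0), ∑ a ∈ A j, f j a z) ^ (1/3 : ℝ) := by
  have hr0 : 0 < r0 := hl.trans_le hr
  have hli : 0 < l⁻¹ := inv_pos.2 hl
  have h1 := h A u (fun j a z => f j a (l • z)) (fun j a => (hm j a).comp (measurable_const_smul l)) hu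
    (fun j a ha z t => by
      have h2 := hinv j a ha (l • z) (l * t)
      rw [← h2]
      congr 1
      rw [smul_add, smul_smul])
    (fun j a z z' hz => by
      refine hs j a _ _ ?_
      rw [← smul_sub, norm_smul, Real.norm_eq_abs, abs_of_pos hl]
      calc l * ‖z - z'‖ ≤ l * 1 := mul_le_mul_of_nonneg_left hz hl.le
        _ = l := mul_one l)
    (l⁻¹ • c0) (l⁻¹ * r0) (by rw [inv_mul_eq_div, le_div_iff₀ hl]; linarith)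
  rw [show 10 * (l⁻¹ * r0) = l⁻¹ * (10 * r0) by ring] at h1
  rw [lint_smul hl (fun z => ∏ j, (∑ a ∈ A j, f j a z) ^ (1/3 : ℝ)) c0 r0] at h1
  have e1 : ∀ j, ∫⁻ z in Metric.closedBall (l⁻¹ • c0) (l⁻¹ * (10 * r0)), ∑ a ∈ A j, f j a (l • z) =
      ENNReal.ofReal (l⁻¹ ^ 4) * ∫⁻ z in Metric.closedBall c0 (10 * r0), ∑ a ∈ A j, f j a z :=
    fun j => lint_smul hl (fun z => ∑ a ∈ A j, f j a z) c0 (10 * r0)
  simp_rw [e1] at h1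
  rw [prod_const_mul] at h1
  have hl4 : ENNReal.ofReal (l⁻¹ ^ 4) ≠ 0 := by
    simp only [ne_eq, ENNReal.ofReal_eq_zero, not_le]
    positivity
  refine (ENNReal.mul_le_mul_iff_right hl4 ENNReal.ofReal_ne_top).1 (h1.trans (le_of_eq ?_))
  rw [← mul_assoc, ← mul_assoc]
  congr 1
  rw [ENNReal.ofReal_rpow_of_nonneg (by positivity) (by norm_num), ← ENNReal.ofReal_mul (by positivity),
    ← ENNReal.ofReal_mul (by positivity)]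
  congr 1
  rw [← Real.rpow_natCast, ← Real.rpow_mul hli.le, Real.rpow_sub (by positivity), Real.mul_rpow hli.le hr0.le, Real.mul_rpow hli.le hr0.le,
    Real.div_rpow hr0.le hl.le, Real.rpow_neg hr0.le, Real.inv_rpow hl.le, Real.inv_rpow hl.le]
  have e2 : l⁻¹ ^ (((4:ℕ):ℝ) * (4/3)) = (l⁻¹) ^ (4:ℕ) * (l ^ (4/3 : ℝ))⁻¹ := by
    rw [← Real.inv_rpow hl.le, ← Real.rpow_natCast, ← Real.rpow_add hli]
    norm_num
  rw [e2, Real.rpow_natCast]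
  have h3 : (0:ℝ) < l ^ (4/3 : ℝ) := by positivity
  have h4 : (0:ℝ) < r0 ^ (4/3 : ℝ) := by positivity
  have h5 : (0:ℝ) < l ^ ε := by positivity
  field_simp

theorem prod_pow_split {X : Fin 4 → ℝ≥0∞} {E : ℝ≥0∞} (hX : ∀ j, X j ≤ E) {r : ℝ} (hr : 1 ≤ r) :
    ∏ j, X j ^ (r / 4) ≤ E ^ (r - 1) * ∏ j, X j ^ (1/4 : ℝ) := by
  have h1 : ∀ j, X j ^ (r / 4) = X j ^ ((r - 1) / 4) * X j ^ (1/4 : ℝ) := by
    intro j
    rw [← ENNReal.rpow_add_of_nonneg _ _ (by linarith) (by norm_num)]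
    congr 1
    ring
  rw [Finset.prod_congr rfl (fun j _ => h1 j), Finset.prod_mul_distrib]
  refine mul_le_mul' ?_ le_rfl
  calc ∏ j, X j ^ ((r - 1) / 4) ≤ ∏ j : Fin 4, E ^ ((r - 1) / 4) :=
        Finset.prod_le_prod' fun j _ => ENNReal.rpow_le_rpow (hX j) (by linarith)
    _ = E ^ (r - 1) := by
        rw [Finset.prod_const, Finset.card_univ, Fintype.card_fin, ← ENNReal.rpow_natCast, ← ENNReal.rpow_mul]
        congr 1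
        push_cast
        ring

/-- estimate on a cube -/
theorem cube_est {μ : Measure V4} {F : Fin 4 → V4 → ℝ≥0∞} (hF : ∀ j, Measurable (F j)) {r : ℝ} (hr : 1 ≤ r) (hr' : r ≤ 4/3)
    {a b : ℝ≥0∞} {X : Fin 4 → ℝ≥0∞} {E : ℝ≥0∞} (hX : ∀ j, X j ≤ E)
    (h : ∫⁻ z, ∏ j, F j z ^ (1/3 : ℝ) ∂μ ≤ a * ∏ j, X j ^ (1/3 : ℝ)) (hb : μ univ ≤ b) :
    ∫⁻ z, ∏ j, F j z ^ (r / 4) ∂μ ≤ a ^ (3 * r / 4) * b ^ (1 - 3 * r / 4) * E ^ (r - 1) * ∏ j, X j ^ (1/4 : ℝ) := by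
  have hq : 0 ≤ 3 * r / 4 := by linarith
  have hq1 : 3 * r / 4 ≤ 1 := by linarith
  have e1 : ∀ (Y : Fin 4 → ℝ≥0∞), ∏ j, Y j ^ (r / 4) = (∏ j, Y j ^ (1/3 : ℝ)) ^ (3 * r / 4) := by
    intro Y
    rw [← ENNReal.prod_rpow_of_nonneg hq]
    refine Finset.prod_congr rfl fun j _ => ?_
    rw [← ENNReal.rpow_mul]
    congr 1
    ring
  have mP : Measurable fun z => ∏ j, F j z ^ (1/3 : ℝ) := Finset.measurable_prod _ fun j _ => (hF j).pow_const _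
  calc ∫⁻ z, ∏ j, F j z ^ (r / 4) ∂μ = ∫⁻ z, (∏ j, F j z ^ (1/3 : ℝ)) ^ (3 * r / 4) ∂μ := by
        refine lintegral_congr fun z => e1 (fun j => F j z)
    _ ≤ (∫⁻ z, ∏ j, F j z ^ (1/3 : ℝ) ∂μ) ^ (3 * r / 4) * (μ univ) ^ (1 - 3 * r / 4) := jensen mP.aemeasurable hq hq1
    _ ≤ (a * ∏ j, X j ^ (1/3 : ℝ)) ^ (3 * r / 4) * b ^ (1 - 3 * r / 4) :=
        mul_le_mul' (ENNReal.rpow_le_rpow h hq) (ENNReal.rpow_le_rpow hb (by linarith))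
    _ = a ^ (3 * r / 4) * b ^ (1 - 3 * r / 4) * ∏ j, X j ^ (r / 4) := by
        rw [ENNReal.mul_rpow_of_nonneg _ _ hq, ← e1 X]
        ring
    _ ≤ a ^ (3 * r / 4) * b ^ (1 - 3 * r / 4) * (E ^ (r - 1) * ∏ j, X j ^ (1/4 : ℝ)) :=
        mul_le_mul' le_rfl (prod_pow_split hX hr)
    _ = _ := by ring

/-- Hölder for four functions -/
theorem holder4 {μ : Measure V4} {G : Fin 4 → V4 → ℝ≥0∞} (hG : ∀ j, Measurable (G j)) :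
    ∫⁻ z, ∏ j, G j z ^ (1/4 : ℝ) ∂μ ≤ ∏ j, (∫⁻ z, G j z ∂μ) ^ (1/4 : ℝ) :=
  ENNReal.lintegral_prod_norm_pow_le Finset.univ (p := fun _ => (1/4 : ℝ)) (fun j _ => (hG j).aemeasurable) (by simp) (fun _ _ => by norm_num)

theorem prod4_const (a : ℝ≥0∞) (X : Fin 4 → ℝ≥0∞) : ∏ j, (a * X j) ^ (1/4 : ℝ) = a * ∏ j, X j ^ (1/4 : ℝ) := by
  have e2 : ∀ j, (a * X j) ^ (1/4 : ℝ) = a ^ (1/4 : ℝ) * X j ^ (1/4 : ℝ) := fun j =>
    ENNReal.mul_rpow_of_nonneg _ _ (by norm_num)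
  rw [Finset.prod_congr rfl (fun j _ => e2 j), Finset.prod_mul_distrib, Finset.prod_const,
    Finset.card_univ, Fintype.card_fin]
  congr 1
  rw [← ENNReal.rpow_natCast, ← ENNReal.rpow_mul]
  norm_num

/-- the constants -/
theorem consts {M ρ R D ε r E0 : ℝ} (hM : 0 ≤ M) (hρ : 1 ≤ ρ) (hR : 0 < R) (hD : 0 ≤ D) (hE0 : 0 ≤ E0) (hε : 0 ≤ ε) (hr : 1 ≤ r) (hr' : r ≤ 4/3) :
    ENNReal.ofReal (M * ρ ^ ε * R ^ (-(4/3) : ℝ)) ^ (3 * r / 4) * ENNReal.ofReal ((2 * R) ^ 4) ^ (1 - 3 * r / 4) *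
      ENNReal.ofReal (E0 * D * R ^ 4) ^ (r - 1) ≤
      ENNReal.ofReal (M ^ (3 * r / 4) * 16 ^ (1 - 3 * r / 4) * E0 ^ (r - 1) * ρ ^ ε * D ^ (r - 1)) := by
  have hρ0 : 0 < ρ := by linarith
  have hq : 0 ≤ 3 * r / 4 := by linarith
  have hq1 : 0 ≤ 1 - 3 * r / 4 := by linarith
  have hr1 : 0 ≤ r - 1 := by linarith
  rw [ENNReal.ofReal_rpow_of_nonneg (by positivity) hq, ENNReal.ofReal_rpow_of_nonneg (by positivity) hq1,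
    ENNReal.ofReal_rpow_of_nonneg (by positivity) hr1, ← ENNReal.ofReal_mul (by positivity), ← ENNReal.ofReal_mul (by positivity)]
  refine ENNReal.ofReal_le_ofReal ?_
  have e1 : (M * ρ ^ ε * R ^ (-(4/3) : ℝ)) ^ (3 * r / 4) = M ^ (3 * r / 4) * (ρ ^ ε) ^ (3 * r / 4) * R ^ (-r) := by
    rw [Real.mul_rpow (by positivity) (by positivity), Real.mul_rpow hM (by positivity), ← Real.rpow_mul hR.le]
    congr 2
    ring
  have e2 : ((2 * R) ^ 4) ^ (1 - 3 * r / 4) = 16 ^ (1 - 3 * r / 4) * R ^ (4 - 3 * r) := by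
    rw [mul_pow, Real.mul_rpow (by positivity) (by positivity), ← Real.rpow_natCast, ← Real.rpow_natCast, ← Real.rpow_mul hR.le]
    congr 1
    · norm_num
    · congr 1
      push_cast
      ring
  have e3 : (E0 * D * R ^ 4) ^ (r - 1) = E0 ^ (r - 1) * D ^ (r - 1) * R ^ (4 * r - 4) := by
    rw [Real.mul_rpow (by positivity) (by positivity), Real.mul_rpow hE0 hD, ← Real.rpow_natCast, ← Real.rpow_mul hR.le]
    congr 2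
    push_cast
    ring
  have e4 : R ^ (-r) * R ^ (4 - 3 * r) * R ^ (4 * r - 4) = 1 := by
    rw [← Real.rpow_add hR, ← Real.rpow_add hR, show -r + (4 - 3 * r) + (4 * r - 4) = 0 by ring, Real.rpow_zero]
  have e5 : (ρ ^ ε) ^ (3 * r / 4) ≤ ρ ^ ε := by
    calc (ρ ^ ε) ^ (3 * r / 4) ≤ (ρ ^ ε) ^ (1:ℝ) :=
          Real.rpow_le_rpow_of_exponent_le (Real.one_le_rpow hρ hε) (by linarith)
      _ = ρ ^ ε := Real.rpow_one _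
  rw [e1, e2, e3]
  calc M ^ (3 * r / 4) * (ρ ^ ε) ^ (3 * r / 4) * R ^ (-r) * (16 ^ (1 - 3 * r / 4) * R ^ (4 - 3 * r)) *
        (E0 ^ (r - 1) * D ^ (r - 1) * R ^ (4 * r - 4))
      = M ^ (3 * r / 4) * 16 ^ (1 - 3 * r / 4) * E0 ^ (r - 1) * (ρ ^ ε) ^ (3 * r / 4) * D ^ (r - 1) *
        (R ^ (-r) * R ^ (4 - 3 * r) * R ^ (4 * r - 4)) := by ring
    _ = M ^ (3 * r / 4) * 16 ^ (1 - 3 * r / 4) * E0 ^ (r - 1) * (ρ ^ ε) ^ (3 * r / 4) * D ^ (r - 1) := by rw [e4, mul_one]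
    _ ≤ M ^ (3 * r / 4) * 16 ^ (1 - 3 * r / 4) * E0 ^ (r - 1) * ρ ^ ε * D ^ (r - 1) := by
        gcongr

end Vale.Agent.P106.Q.BRD
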