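import Vale.Agent.P106.Q.NKC

/-! # P106 / Q / BRD2 : the broad term for `4/3 ≤ r ≤ 2` -/

open MeasureTheory Complex Set Filter
open scoped ENNReal NNReal ContDiff FourierTransform Topology

set_option linter.all false

namespace Vale.Agent.P106.Q

open Vale.Agent.P106.G

theorem brdx_half {W : Fin 4 → E4 → ℝ≥0∞} (hW : ∀ i, Measurable (W i)) {X : Set E4} {Y : ℝ} (hY : 0 ≤ Y) {E : Fin 4 → ℝ≥0∞}
    (h : ∀ i, ∫⁻ z in X, W i z ^ 2 ≤ ENNReal.ofReal Y * E i) :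
    ∫⁻ z in X, ∏ i, W i z ^ (1/2 : ℝ) ≤ ENNReal.ofReal Y * ∏ i, E i ^ (1/4 : ℝ) := by
  have h1 := ENNReal.lintegral_prod_norm_pow_le (μ := volume.restrict X) (Finset.univ : Finset (Fin 4))
    (f := fun i z => W i z ^ 2) (fun i _ => ((hW i).pow_const 2).aemeasurable)
    (p := fun _ => 1/4) (by simp) (by intro i _; norm_num)
  have e1 : ∀ z, ∏ i, W i z ^ (1/2 : ℝ) = ∏ i, (W i z ^ 2) ^ (1/4 : ℝ) := by
    intro z
    refine Finset.prod_congr rfl fun i _ => ?_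
    rw [← ENNReal.rpow_natCast, ← ENNReal.rpow_mul]
    congr 1
    norm_num
  simp_rw [e1]
  refine h1.trans ?_
  calc ∏ i, (∫⁻ z in X, W i z ^ 2) ^ (1/4 : ℝ) ≤ ∏ i, (ENNReal.ofReal Y * E i) ^ (1/4 : ℝ) :=
        Finset.prod_le_prod' fun i _ => ENNReal.rpow_le_rpow (h i) (by norm_num)
    _ = ∏ i : Fin 4, (ENNReal.ofReal Y ^ (1/4 : ℝ) * E i ^ (1/4 : ℝ)) :=
        Finset.prod_congr rfl fun i _ => ENNReal.mul_rpow_of_nonneg _ _ (by norm_num)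
    _ = _ := by
        rw [Finset.prod_mul_distrib, Finset.prod_const, Finset.card_univ, Fintype.card_fin, ← ENNReal.rpow_natCast, ← ENNReal.rpow_mul]
        norm_num

theorem brdx_interp {W : Fin 4 → E4 → ℝ≥0∞} (hW : ∀ i, Measurable (W i)) {X : Set E4} {a b r : ℝ} (ha : 0 ≤ a) (hb : 0 ≤ b) (hab : a + b = 1)
    (hr : a / 3 + b / 2 = r / 4) {x y P : ℝ≥0∞} (h1 : ∫⁻ z in X, ∏ i, W i z ^ (1/3 : ℝ) ≤ x * P)
    (h2 : ∫⁻ z in X, ∏ i, W i z ^ (1/2 : ℝ) ≤ y * P) :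
    ∫⁻ z in X, ∏ i, W i z ^ (r / 4) ≤ x ^ a * y ^ b * P := by
  have m1 : Measurable fun z => ∏ i, W i z ^ (1/3 : ℝ) := Finset.measurable_prod _ fun i _ => (hW i).pow_const _
  have m2 : Measurable fun z => ∏ i, W i z ^ (1/2 : ℝ) := Finset.measurable_prod _ fun i _ => (hW i).pow_const _
  have h3 := ENNReal.lintegral_mul_norm_pow_le (μ := volume.restrict X) m1.aemeasurable m2.aemeasurable ha hb hab
  have e1 : ∀ z, ∏ i, W i z ^ (r / 4) = (∏ i, W i z ^ (1/3 : ℝ)) ^ a * (∏ i, W i z ^ (1/2 : ℝ)) ^ b := by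
    intro z
    rw [← ENNReal.prod_rpow_of_nonneg ha, ← ENNReal.prod_rpow_of_nonneg hb, ← Finset.prod_mul_distrib]
    refine Finset.prod_congr rfl fun i _ => ?_
    rw [← ENNReal.rpow_mul, ← ENNReal.rpow_mul, ← ENNReal.rpow_add_of_nonneg _ _ (by positivity) (by positivity)]
    congr 1
    linarith
  simp_rw [e1]
  refine h3.trans ?_
  calc _ ≤ (x * P) ^ a * (y * P) ^ b := mul_le_mul' (ENNReal.rpow_le_rpow h1 ha) (ENNReal.rpow_le_rpow h2 hb)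
    _ = x ^ a * y ^ b * (P ^ a * P ^ b) := by
        rw [ENNReal.mul_rpow_of_nonneg _ _ ha, ENNReal.mul_rpow_of_nonneg _ _ hb]
        ring
    _ = _ := by rw [← ENNReal.rpow_add_of_nonneg _ _ ha hb, hab, ENNReal.rpow_one]

theorem brdx_num {CB CN N D R S ε r : ℝ} (hCB : 0 ≤ CB) (hCN : 0 ≤ CN) (hN : 1 ≤ N) (hD : 0 ≤ D) (hR : 0 < R) (hS : 0 < S) (hε : 0 < ε)
    (hr : 4/3 ≤ r) (hr2 : r ≤ 2) :
    (CB * N ^ ε * D ^ ((4/3 : ℝ) - 1) * R) ^ (3 - 3 / 2 * r) * (CN * D * S * R) ^ (3 / 2 * r - 2) ≤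
      CB ^ (3 - 3 / 2 * r) * CN ^ (3 / 2 * r - 2) * N ^ ε * S ^ (3 / 2 * r - 2) * D ^ (r - 1) * R := by
  have hN0 : 0 < N := by linarith
  set a := 3 - 3 / 2 * r with ha
  set b := 3 / 2 * r - 2 with hb
  have ha0 : 0 ≤ a := by rw [ha]; linarith
  have ha1 : a ≤ 1 := by rw [ha]; linarith
  have hb0 : 0 ≤ b := by rw [hb]; linarith
  have hab : a + b = 1 := by rw [ha, hb]; ring
  have e1 : (CB * N ^ ε * D ^ ((4/3 : ℝ) - 1) * R) ^ a = CB ^ a * N ^ (ε * a) * D ^ (a / 3) * R ^ a := by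
    rw [Real.mul_rpow (x := CB * N ^ ε * D ^ ((4/3 : ℝ) - 1)) (y := R) (by positivity) hR.le,
      Real.mul_rpow (x := CB * N ^ ε) (y := D ^ ((4/3 : ℝ) - 1)) (by positivity) (by positivity),
      Real.mul_rpow (x := CB) (y := N ^ ε) hCB (by positivity), ← Real.rpow_mul hN0.le, ← Real.rpow_mul hD]
    congr 3
    ring
  have e2 : (CN * D * S * R) ^ b = CN ^ b * D ^ b * S ^ b * R ^ b := by
    rw [Real.mul_rpow (x := CN * D * S) (y := R) (by positivity) hR.le, Real.mul_rpow (x := CN * D) (y := S) (by positivity) hS.le,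
      Real.mul_rpow (x := CN) (y := D) hCN hD]
  have e3 : D ^ (r - 1) = D ^ (a / 3) * D ^ b := by
    rw [← Real.rpow_add_of_nonneg hD (by positivity) hb0]
    congr 1
    rw [ha, hb]; ring
  have e4 : R ^ a * R ^ b = R := by
    rw [← Real.rpow_add hR, hab, Real.rpow_one]
  have e5 : N ^ (ε * a) ≤ N ^ ε := Real.rpow_le_rpow_of_exponent_le hN (by nlinarith)
  rw [e1, e2, e3]
  calc CB ^ a * N ^ (ε * a) * D ^ (a / 3) * R ^ a * (CN ^ b * D ^ b * S ^ b * R ^ b) =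
      CB ^ a * CN ^ b * N ^ (ε * a) * S ^ b * (D ^ (a / 3) * D ^ b) * (R ^ a * R ^ b) := by ring
    _ = CB ^ a * CN ^ b * N ^ (ε * a) * S ^ b * (D ^ (a / 3) * D ^ b) * R := by rw [e4]
    _ ≤ _ := by gcongr

/-- **[BRD2]** -/
theorem stBRD2 (h : StBRD) : StBRD2 := by
  intro B C0 δ ε r hB hC0 hδ hε hr hr2
  obtain ⟨K1, hK1, hK⟩ := h B C0 δ ε (4/3) hB hC0 hδ hε (by norm_num) le_rfl
  obtain ⟨Cn, hCn, hnk⟩ := nkc_gen
  refine ⟨K1, hK1, ?_⟩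
  intro K' hK'
  obtain ⟨CB, hCB, hbrd⟩ := hK K' hK'
  refine ⟨CB ^ (3 - 3 / 2 * r) * (2 * Cn) ^ (3 / 2 * r - 2), by positivity, ?_⟩
  intro N R D H ν hd a1 a2 σ x hσ ha1 ha1' ha2 ha2' hNσ hx hδx
  have hNr : (1:ℝ) ≤ N := by exact_mod_cast hd.N1
  have hR0 : 0 < R := lt_of_lt_of_le (by positivity) hd.R1
  have hD0 := hd.D0
  have hK'r : (1:ℝ) ≤ K' := by exact_mod_cast hK1.trans hK'
  have hσK : σ / K' ≤ σ := div_le_self hσ.le hK'r
  have h1 := hbrd N R D H ν hd a1 a2 σ x hσ ha1 ha1' ha2 ha2' hNσ hx hδx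
  have e43 : ((4/3 : ℝ) / 4) = 1/3 := by norm_num
  rw [e43] at h1
  have h2 : ∀ i : Fin 4, ∫⁻ z in {z : E4 | |H.tm z| ≤ 4 * R}, Wc H N ν (a1 + σ * (x i).1) (a2 + σ * (x i).2) (σ / K') z ^ 2 ≤
      ENNReal.ofReal (2 * Cn * D * (N * σ) * R) * Ec N ν (a1 + σ * (x i).1) (a2 + σ * (x i).2) (σ / K') := by
    intro i
    obtain ⟨⟨x1, x2⟩, x3, x4⟩ := hx i
    refine (hnk B C0 N R D H ν hd (a1 + σ * (x i).1) (a2 + σ * (x i).2) (σ / K') (by positivity) (by linarith) (by positivity) (by positivity)).trans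
      (mul_le_mul' (ENNReal.ofReal_le_ofReal ?_) le_rfl)
    calc Cn * D * (N * (σ / K') + 1) * R ≤ Cn * D * (N * σ + N * σ) * R := by gcongr
      _ = _ := by ring
  have h3 := brdx_half (W := fun i => Wc H N ν (a1 + σ * (x i).1) (a2 + σ * (x i).2) (σ / K'))
    (fun i => nkc_meas_Wc H N hd.meas _ _ _) (by positivity) h2
  have h4 := brdx_interp (W := fun i => Wc H N ν (a1 + σ * (x i).1) (a2 + σ * (x i).2) (σ / K'))
    (fun i => nkc_meas_Wc H N hd.meas _ _ _) (a := 3 - 3 / 2 * r) (b := 3 / 2 * r - 2) (r := r) (by linarith) (by linarith) (by ring) (by ring) h1 h3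
  refine h4.trans (mul_le_mul' ?_ le_rfl)
  rw [ENNReal.ofReal_rpow_of_nonneg (by positivity) (by linarith), ENNReal.ofReal_rpow_of_nonneg (by positivity) (by linarith),
    ← ENNReal.ofReal_mul (by positivity)]
  exact ENNReal.ofReal_le_ofReal (brdx_num hCB (by positivity) hNr hD0 hR0 (by positivity) hε hr hr2)

end Vale.Agent.P106.Q
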