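import Vale.Agent.P106.Q.DefsB
import Vale.Agent.P106.G.BrN4
import Vale.Agent.P106.G.Kin

/-! # P106 / Q / BRr : pointwise inequality, Hölder, and averages on balls at a general exponent -/

open MeasureTheory Complex Set Filter
open scoped ENNReal NNReal ContDiff FourierTransform Topology

set_option linter.all false

namespace Vale.Agent.P106.Q

open Vale.Agent.P106.G
open Vale.Agent.P117 (Adm)

theorem brr_ptw {f f' S S' : ℝ≥0∞} {u : ℝ} (hu : 0 < u) (h1 : f ^ 3 / S ^ (1/2 : ℝ) ≠ ⊤) (h2 : f' ^ 3 / S' ^ (1/2 : ℝ) ≠ ⊤) (h3 : S * S' ≠ ⊤) :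
    (f * f') ^ (3 * u) ≤ (f ^ 3 / S ^ (1/2 : ℝ)) ^ u * (f' ^ 3 / S' ^ (1/2 : ℝ)) ^ u * (S * S') ^ (u / 2) := by
  have hu3 : 0 < 3 * u := by linarith
  have hu2 : 0 < u / 2 := by linarith
  by_cases f0 : f = 0
  · rw [f0, zero_mul, ENNReal.zero_rpow_of_pos hu3]; exact zero_le
  by_cases f0' : f' = 0
  · rw [f0', mul_zero, ENNReal.zero_rpow_of_pos hu3]; exact zero_le
  have S0 : S ≠ 0 := by
    intro h
    apply h1
    rw [h, ENNReal.zero_rpow_of_pos (by norm_num), ENNReal.div_zero (pow_ne_zero 3 f0)]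
  have S0' : S' ≠ 0 := by
    intro h
    apply h2
    rw [h, ENNReal.zero_rpow_of_pos (by norm_num), ENNReal.div_zero (pow_ne_zero 3 f0')]
  have St : S ≠ ⊤ := by
    intro h
    apply h3
    rw [h, ENNReal.top_mul S0']
  have St' : S' ≠ ⊤ := by
    intro h
    apply h3
    rw [h, ENNReal.mul_top S0]
  have e : ∀ {g T : ℝ≥0∞}, T ≠ 0 → T ≠ ⊤ → (g ^ 3 / T ^ (1/2 : ℝ)) ^ u * T ^ (u / 2) = g ^ (3 * u) := by
    intro g T hT hT'
    have p1 : T ^ (u / 2) ≠ 0 := by simp [ENNReal.rpow_eq_zero_iff, hT, hT']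
    have q1 : T ^ (u / 2) ≠ ⊤ := ENNReal.rpow_ne_top_of_nonneg hu2.le hT'
    rw [div_eq_mul_inv, ENNReal.mul_rpow_of_nonneg _ _ hu.le, ENNReal.inv_rpow, ← ENNReal.rpow_mul,
      show (1/2 : ℝ) * u = u / 2 by ring, mul_assoc, ENNReal.inv_mul_cancel p1 q1, mul_one, ← ENNReal.rpow_natCast,
      ← ENNReal.rpow_mul]
    norm_num
  rw [ENNReal.mul_rpow_of_nonneg _ _ hu3.le, ENNReal.mul_rpow_of_nonneg _ _ hu2.le,
    ← e (g := f) S0 St, ← e (g := f') S0' St']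
  exact le_of_eq (by ring)

theorem brr_holder {f f' S S' : E4 → ℝ≥0∞} (mf : Measurable f) (mf' : Measurable f') (mS : Measurable S) (mS' : Measurable S') {X : Set E4}
    {u θ s : ℝ} (hu : 0 < u) (hθ : 0 < θ) (hs : 0 < s) (h1θ : 2 * u + θ = 1) (hsθ : s * θ = u / 2)
    (h1 : ∫⁻ z in X, f z ^ 3 / S z ^ (1/2 : ℝ) ≠ ⊤) (h2 : ∫⁻ z in X, f' z ^ 3 / S' z ^ (1/2 : ℝ) ≠ ⊤)
    (h3 : ∫⁻ z in X, (S z * S' z) ^ s ≠ ⊤) :
    ∫⁻ z in X, (f z * f' z) ^ (3 * u) ≤ (∫⁻ z in X, f z ^ 3 / S z ^ (1/2 : ℝ)) ^ u *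
      (∫⁻ z in X, f' z ^ 3 / S' z ^ (1/2 : ℝ)) ^ u * (∫⁻ z in X, (S z * S' z) ^ s) ^ θ := by
  have m1 : Measurable fun z => f z ^ 3 / S z ^ (1/2 : ℝ) := (mf.pow_const 3).div (mS.pow_const _)
  have m2 : Measurable fun z => f' z ^ 3 / S' z ^ (1/2 : ℝ) := (mf'.pow_const 3).div (mS'.pow_const _)
  have m3 : Measurable fun z => (S z * S' z) ^ s := (mS.mul mS').pow_const _
  have hm : ∀ i ∈ (Finset.univ : Finset (Fin 3)), AEMeasurable (![fun z => f z ^ 3 / S z ^ (1/2 : ℝ), fun z => f' z ^ 3 / S' z ^ (1/2 : ℝ),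
      fun z => (S z * S' z) ^ s] i) (volume.restrict X) := by
    intro i _
    fin_cases i
    · exact m1.aemeasurable
    · exact m2.aemeasurable
    · exact m3.aemeasurable
  have h := ENNReal.lintegral_prod_norm_pow_le (μ := volume.restrict X) (Finset.univ : Finset (Fin 3))
    (f := ![fun z => f z ^ 3 / S z ^ (1/2 : ℝ), fun z => f' z ^ 3 / S' z ^ (1/2 : ℝ), fun z => (S z * S' z) ^ s]) hm
    (p := ![u, u, θ]) (by simp [Fin.sum_univ_three]; linarith) (by intro i _; fin_cases i <;> simp <;> linarith)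
  simp only [Fin.prod_univ_three] at h
  refine le_trans ?_ h
  apply lintegral_mono_ae
  filter_upwards [ae_lt_top m1 h1, ae_lt_top m2 h2, ae_lt_top m3 h3] with z c1 c2 c3
  have c4 : S z * S' z ≠ ⊤ := by
    intro hc
    rw [hc, ENNReal.top_rpow_of_pos hs] at c3
    exact lt_irrefl _ c3
  have h5 := brr_ptw hu c1.ne c2.ne c4
  show (f z * f' z) ^ (3 * u) ≤ (f z ^ 3 / S z ^ (1/2 : ℝ)) ^ u * (f' z ^ 3 / S' z ^ (1/2 : ℝ)) ^ u * ((S z * S' z) ^ s) ^ θ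
  rw [← ENNReal.rpow_mul, hsθ]
  exact h5

/-- Jensen on a ball -/
theorem brr_jen {S S' : E4 → ℝ≥0∞} (mS : Measurable S) (mS' : Measurable S') {N B s : ℝ} (hN : 0 < N) (hB : 0 ≤ B) (hs : 0 < s) (hs1 : s ≤ 1)
    {w : ℝ≥0∞} {y : E4} (h : ∫⁻ z in Metric.closedBall y N, S z * S' z ≤ ENNReal.ofReal (B * N ^ 4) * w) :
    ∫⁻ z in Metric.closedBall y N, (S z * S' z) ^ s ≤ ENNReal.ofReal ((B / vb.toReal) ^ s * (N ^ 4 * vb.toReal)) * w ^ s := by
  have hv : 0 < vb.toReal := vbr_pos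
  have hve : vb = ENNReal.ofReal vb.toReal := (ENNReal.ofReal_toReal vb_lt.ne).symm
  have h1 := ENNReal.lintegral_mul_norm_pow_le (μ := volume.restrict (Metric.closedBall y N)) (f := fun z => S z * S' z) (g := fun _ => 1)
    (mS.mul mS').aemeasurable aemeasurable_const (p := s) (q := 1 - s) hs.le (by linarith) (by ring)
  simp only [ENNReal.one_rpow, mul_one] at h1
  have h2 : ∫⁻ _ in Metric.closedBall y N, (1:ℝ≥0∞) = ENNReal.ofReal (N ^ 4 * vb.toReal) := by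
    rw [setLIntegral_const, one_mul, vol_ball y hN.le, ENNReal.ofReal_mul (by positivity)]
    congr 1
  rw [h2] at h1
  refine h1.trans ?_
  have h3 : (∫⁻ z in Metric.closedBall y N, S z * S' z) ^ s ≤ (ENNReal.ofReal (B * N ^ 4)) ^ s * w ^ s := by
    rw [← ENNReal.mul_rpow_of_nonneg _ _ hs.le]
    exact ENNReal.rpow_le_rpow h hs.le
  calc _ ≤ ((ENNReal.ofReal (B * N ^ 4)) ^ s * w ^ s) * ENNReal.ofReal (N ^ 4 * vb.toReal) ^ (1 - s) := mul_le_mul' h3 le_rfl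
    _ = (ENNReal.ofReal (B * N ^ 4) ^ s * ENNReal.ofReal (N ^ 4 * vb.toReal) ^ (1 - s)) * w ^ s := by ring
    _ = _ := by
        rw [ENNReal.ofReal_rpow_of_nonneg (by positivity) hs.le, ENNReal.ofReal_rpow_of_pos (by positivity), ← ENNReal.ofReal_mul (by positivity)]
        congr 2
        have e1 : B * N ^ 4 = (B / vb.toReal) * (N ^ 4 * vb.toReal) := by field_simp
        have e2 : 0 < N ^ 4 * vb.toReal := by positivity
        rw [e1, Real.mul_rpow (x := B / vb.toReal) (y := N ^ 4 * vb.toReal) (by positivity) e2.le, mul_assoc, ← Real.rpow_add e2]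
        congr 2
        rw [add_sub_cancel, Real.rpow_one]

/-- product of the square functions -/
theorem brr_SS {S S' W W' : E4 → ℝ≥0∞} (mS : Measurable S) (mS' : Measurable S') (mW : Measurable W) (mW' : Measurable W') {X Y : Set E4}
    (hX : MeasurableSet X) {N B s : ℝ} (hN : 0 < N) (hB : 0 ≤ B) (hs : 0 < s) (hs1 : s ≤ 1) (hXY : Metric.thickening N X ⊆ Y) {A A' : ℝ≥0∞}
    (hsl : ∀ y ∈ Metric.thickening N X, ∫⁻ z in Metric.closedBall y N, S z * S' z ≤ ENNReal.ofReal (B * N ^ 4) * (W y * W' y))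
    (hW : ∫⁻ z in Y, W z ^ (2 * s) ≤ A) (hW' : ∫⁻ z in Y, W' z ^ (2 * s) ≤ A') :
    ∫⁻ z in X, (S z * S' z) ^ s ≤ ENNReal.ofReal ((B / vb.toReal) ^ s) * (A * A') ^ (1/2 : ℝ) := by
  have h1 := ball_avg hN ((mS.mul mS').pow_const s) hX
  have hv : 0 < vb.toReal := vbr_pos
  have hve : vb = ENNReal.ofReal vb.toReal := (ENNReal.ofReal_toReal vb_lt.ne).symm
  have mT : MeasurableSet (Metric.thickening N X) := Metric.isOpen_thickening.measurableSet
  have h2 : ∫⁻ y in Metric.thickening N X, ∫⁻ z in Metric.closedBall y N, (S z * S' z) ^ s ≤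
      ENNReal.ofReal ((B / vb.toReal) ^ s * (N ^ 4 * vb.toReal)) * (A * A') ^ (1/2 : ℝ) := by
    set K := ENNReal.ofReal ((B / vb.toReal) ^ s * (N ^ 4 * vb.toReal)) with hK
    calc _ ≤ ∫⁻ y in Metric.thickening N X, K * (W y * W' y) ^ s := setLIntegral_mono' mT fun y hy => brr_jen mS mS' hN hB hs hs1 (hsl y hy)
      _ ≤ ∫⁻ y in Y, K * (W y * W' y) ^ s := lintegral_mono_set hXY
      _ = K * ∫⁻ y in Y, W y ^ s * W' y ^ s := by
          rw [lintegral_const_mul K (show Measurable fun y => (W y * W' y) ^ s from (mW.mul mW').pow_const s)]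
          congr 1
          exact lintegral_congr fun y => ENNReal.mul_rpow_of_nonneg _ _ hs.le
      _ ≤ K * ((∫⁻ y in Y, (W y ^ s) ^ (2:ℝ)) ^ (1 / (2:ℝ)) * (∫⁻ y in Y, (W' y ^ s) ^ (2:ℝ)) ^ (1 / (2:ℝ))) :=
          mul_le_mul' le_rfl (ENNReal.lintegral_mul_le_Lp_mul_Lq _ Real.HolderConjugate.two_two (mW.pow_const s).aemeasurable (mW'.pow_const s).aemeasurable)
      _ ≤ K * (A ^ (1 / (2:ℝ)) * A' ^ (1 / (2:ℝ))) := by
          have e : ∀ V : E4 → ℝ≥0∞, ∫⁻ y in Y, (V y ^ s) ^ (2:ℝ) = ∫⁻ y in Y, V y ^ (2 * s) := fun V =>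
            lintegral_congr fun y => by rw [← ENNReal.rpow_mul, mul_comm s 2]
          rw [e, e]
          gcongr
      _ = _ := by rw [ENNReal.mul_rpow_of_nonneg _ _ (by norm_num)]
  have h3 := h1.trans h2
  have e4 : ENNReal.ofReal (N ^ 4) * vb = ENNReal.ofReal (N ^ 4 * vb.toReal) := by
    rw [ENNReal.ofReal_mul (by positivity), ← hve]
  rw [e4] at h3
  have hp : 0 < N ^ 4 * vb.toReal := by positivity
  have e5 : ENNReal.ofReal ((B / vb.toReal) ^ s * (N ^ 4 * vb.toReal)) = ENNReal.ofReal (N ^ 4 * vb.toReal) * ENNReal.ofReal ((B / vb.toReal) ^ s) := by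
    rw [← ENNReal.ofReal_mul hp.le]
    congr 1
    ring
  rw [e5, mul_assoc] at h3
  exact (ENNReal.mul_le_mul_iff_right (by rw [ne_eq, ENNReal.ofReal_eq_zero, not_le]; exact hp) ENNReal.ofReal_ne_top).1 h3

end Vale.Agent.P106.Q
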