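import Vale.Agent.P106.Q.BRr

/-! # P106 / Q / BRr : arithmetic -/

open MeasureTheory Complex Set Filter
open scoped ENNReal NNReal ContDiff FourierTransform Topology

set_option linter.all false

namespace Vale.Agent.P106.Q

open Vale.Agent.P106.G
open Vale.Agent.P117 (Adm)

theorem brr_numA {U V P3 g g' u θ : ℝ} (hu : 0 < u) (hθ : 0 < θ) (h1 : 2 * u + θ = 1) (hU : 0 ≤ U) (hV : 0 ≤ V) (hP3 : 0 ≤ P3) (hg : 0 < g) (hg' : 0 < g') :
    ENNReal.ofReal (U * g) ^ u * ENNReal.ofReal (U * g') ^ u *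
      (ENNReal.ofReal P3 * (ENNReal.ofReal (V * g) * ENNReal.ofReal (V * g')) ^ (1/2 : ℝ)) ^ θ =
      ENNReal.ofReal (U ^ (2 * u) * (P3 * V) ^ θ * Real.sqrt (g * g')) := by
  rw [ENNReal.ofReal_rpow_of_nonneg (by positivity) hu.le, ENNReal.ofReal_rpow_of_nonneg (by positivity) hu.le,
    ← ENNReal.ofReal_mul (by positivity), ← ENNReal.ofReal_mul (by positivity), ENNReal.ofReal_rpow_of_nonneg (by positivity) (by norm_num),
    ← ENNReal.ofReal_mul (by positivity), ENNReal.ofReal_rpow_of_nonneg (by positivity) hθ.le, ← ENNReal.ofReal_mul (by positivity)]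
  congr 1
  have s0 : 0 < g * g' := by positivity
  have e3 : V * g * (V * g') = V ^ 2 * (g * g') := by ring
  rw [e3, ← Real.sqrt_eq_rpow, Real.sqrt_mul (by positivity), Real.sqrt_sq hV, Real.mul_rpow (x := U) (y := g) hU hg.le,
    Real.mul_rpow (x := U) (y := g') hU hg'.le]
  have a0 : P3 * (V * Real.sqrt (g * g')) = (P3 * V) * Real.sqrt (g * g') := by ring
  have a1 : U ^ u * U ^ u = U ^ (2 * u) := by
    rw [← Real.rpow_add_of_nonneg hU hu.le hu.le]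
    congr 1
    ring
  have a2 : g ^ u * g' ^ u = (g * g') ^ u := (Real.mul_rpow hg.le hg'.le).symm
  have a3 : Real.sqrt (g * g') ^ θ = (g * g') ^ (θ / 2) := by
    rw [Real.sqrt_eq_rpow, ← Real.rpow_mul s0.le]
    congr 1
    ring
  have a4 : (g * g') ^ u * (g * g') ^ (θ / 2) = Real.sqrt (g * g') := by
    rw [← Real.rpow_add s0, Real.sqrt_eq_rpow]
    congr 1
    linarith
  rw [a0, Real.mul_rpow (x := P3 * V) (y := Real.sqrt (g * g')) (by positivity) (by positivity), a3]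
  calc U ^ u * g ^ u * (U ^ u * g' ^ u) * ((P3 * V) ^ θ * (g * g') ^ (θ / 2)) =
      (U ^ u * U ^ u) * (P3 * V) ^ θ * ((g ^ u * g' ^ u) * (g * g') ^ (θ / 2)) := by ring
    _ = _ := by rw [a1, a2, a4]

theorem brr_numB {P1 P3 N R C CN q u θ ε1 εK ρ r γ : ℝ} (hu : 0 < u) (hθ : 0 < θ) (h1 : 2 * u + θ = 1) (hr : 1 < r) (hC : 1 ≤ C) (hN : 1 ≤ N)
    (hP1 : 0 ≤ P1) (hP3 : 0 ≤ P3) (hCN : 0 ≤ CN) (hq : 0 ≤ q) (hR0 : 0 ≤ R) (hR : R ≤ q * N ^ 2)
    (he : 2 * u * ε1 + θ * (ρ + εK * (r - 1)) ≤ γ) :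
    (P1 * N ^ ε1 * (N ^ 2 * C)) ^ (2 * u) * (P3 * (CN * N ^ ρ * (C * N ^ εK) ^ (r - 1) * R * C)) ^ θ ≤
      (P1 * C) ^ (2 * u) * (P3 * (CN * C ^ (r - 1) * q * C)) ^ θ * N ^ γ * N ^ 2 := by
  have hN0 : 0 < N := by linarith
  have hC0 : 0 < C := by linarith
  have hr1 : 0 < r - 1 := by linarith
  have e1 : (P1 * N ^ ε1 * (N ^ 2 * C)) ^ (2 * u) = (P1 * C) ^ (2 * u) * N ^ (2 * u * ε1 + 4 * u) := by
    have h2 : P1 * N ^ ε1 * (N ^ 2 * C) = (P1 * C) * N ^ (ε1 + 2) := by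
      rw [Real.rpow_add hN0, Real.rpow_two]
      ring
    rw [h2, Real.mul_rpow (x := P1 * C) (y := N ^ (ε1 + 2)) (by positivity) (by positivity), ← Real.rpow_mul hN0.le]
    congr 2
    ring
  have e2 : (P3 * (CN * N ^ ρ * (C * N ^ εK) ^ (r - 1) * R * C)) ^ θ ≤
      (P3 * (CN * C ^ (r - 1) * q * C)) ^ θ * N ^ (θ * (ρ + εK * (r - 1)) + 2 * θ) := by
    have h3 : P3 * (CN * N ^ ρ * (C * N ^ εK) ^ (r - 1) * R * C) ≤ (P3 * (CN * C ^ (r - 1) * q * C)) * N ^ (ρ + εK * (r - 1) + 2) := by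
      calc P3 * (CN * N ^ ρ * (C * N ^ εK) ^ (r - 1) * R * C) ≤ P3 * (CN * N ^ ρ * (C * N ^ εK) ^ (r - 1) * (q * N ^ 2) * C) := by gcongr
        _ = _ := by
          rw [Real.mul_rpow (x := C) (y := N ^ εK) hC0.le (by positivity), ← Real.rpow_mul hN0.le, Real.rpow_add hN0, Real.rpow_add hN0, Real.rpow_two]
          ring
    calc _ ≤ ((P3 * (CN * C ^ (r - 1) * q * C)) * N ^ (ρ + εK * (r - 1) + 2)) ^ θ := Real.rpow_le_rpow (by positivity) h3 hθ.le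
      _ = _ := by
        rw [Real.mul_rpow (x := P3 * (CN * C ^ (r - 1) * q * C)) (y := N ^ (ρ + εK * (r - 1) + 2)) (by positivity) (by positivity), ← Real.rpow_mul hN0.le]
        congr 2
        ring
  rw [e1]
  calc (P1 * C) ^ (2 * u) * N ^ (2 * u * ε1 + 4 * u) * (P3 * (CN * N ^ ρ * (C * N ^ εK) ^ (r - 1) * R * C)) ^ θ ≤
      (P1 * C) ^ (2 * u) * N ^ (2 * u * ε1 + 4 * u) * ((P3 * (CN * C ^ (r - 1) * q * C)) ^ θ * N ^ (θ * (ρ + εK * (r - 1)) + 2 * θ)) := by gcongr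
    _ = (P1 * C) ^ (2 * u) * (P3 * (CN * C ^ (r - 1) * q * C)) ^ θ * (N ^ (2 * u * ε1 + 4 * u) * N ^ (θ * (ρ + εK * (r - 1)) + 2 * θ)) := by ring
    _ = (P1 * C) ^ (2 * u) * (P3 * (CN * C ^ (r - 1) * q * C)) ^ θ * (N ^ (2 * u * ε1 + θ * (ρ + εK * (r - 1))) * N ^ 2) := by
        congr 1
        rw [← Real.rpow_add hN0, ← Real.rpow_two, ← Real.rpow_add hN0]
        congr 1
        linarith
    _ ≤ (P1 * C) ^ (2 * u) * (P3 * (CN * C ^ (r - 1) * q * C)) ^ θ * (N ^ γ * N ^ 2) := by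
        have : N ^ (2 * u * ε1 + θ * (ρ + εK * (r - 1))) ≤ N ^ γ := Real.rpow_le_rpow_of_exponent_le hN he
        gcongr
    _ = _ := by ring

end Vale.Agent.P106.Q
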