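import Vale.Agent.P106.Q.BRrN

/-! # P106 / Q / BRr : the pairs and the conclusion -/

open MeasureTheory Complex Set Filter
open scoped ENNReal NNReal ContDiff FourierTransform Topology

set_option linter.all false

namespace Vale.Agent.P106.Q

open Vale.Agent.P106.G
open Vale.Agent.P117 (Adm)

theorem brr_thick {H : Hyp} (hbd : H.Bd) {N : ℕ} {R : ℝ} (hNr2 : (2:ℝ) ≤ N) (hR1 : 4 * (N:ℝ) ^ 2 ≤ R) :
    Metric.thickening (N:ℝ) (Qr H R) ⊆ {z : E4 | R / 2 ≤ H.tm z ∧ H.tm z ≤ 3 * R} := by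
  intro y hy
  obtain ⟨z, hz, hd⟩ := Metric.mem_thickening_iff.1 hy
  rw [dist_eq_norm] at hd
  have h1 := abs_tm_le hbd (y - z)
  rw [tm_sub] at h1
  have h2 : |H.tm y - H.tm z| ≤ 2 * N := h1.trans (by linarith)
  rw [abs_le] at h2
  obtain ⟨h3, h4⟩ := hz.1
  have h5 : 2 * (N:ℝ) ≤ (N:ℝ) ^ 2 := by nlinarith
  have h6 : 0 ≤ (N:ℝ) ^ 2 := by positivity
  constructor
  · linarith [h2.1]
  · linarith [h2.2]

section
variable {c0 : ℝ} {M : ℕ} {ε C : ℝ} {N : ℕ} {R : ℝ} {H : Hyp} {φ1 φ2 : ℝ → ℂ} {h : E3 → ℂ} {ν : ℤ × ℤ → E3 → ℝ≥0∞}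
    {a : Fin 2 × Fin 2 → E4 → ℂ} {b1 b2 : Fin 2 × Fin 2 → ℝ}

/-- the box estimate for the densities -/
theorem brr_box {CN ρ r B : ℝ} (hCN : 0 ≤ CN) (hC : 1 ≤ C) (hN1 : 1 ≤ N) (hNR : (N:ℝ) ^ 2 ≤ R) (hH : H.ok2) (hRB : R ≤ B * (N:ℝ) ^ 2)
    (hnik : ∀ (N : ℕ) (R D : ℝ) (H : Hyp) (ν : ℤ × ℤ → E3 → ℝ≥0∞), DenR B C N R D H ν →
      ∫⁻ z in {z : E4 | R / 2 ≤ H.tm z ∧ H.tm z ≤ 4 * R}, H.Wu N ν z ^ r ≤
      ENNReal.ofReal (CN * (N:ℝ) ^ ρ * D ^ (r - 1) * R) * Eng N ν)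
    (hk : Kout c0 M ε C N R H φ1 φ2 h ν a b1 b2) {G : Set E3} (mG : MeasurableSet G) (tG : volume G < ⊤)
    (hh : ∀ y, ‖h y‖ ≤ G.indicator (fun _ => (1:ℝ)) y) :
    ∫⁻ z in {z : E4 | R / 2 ≤ H.tm z ∧ H.tm z ≤ 4 * R}, H.Wu N ν z ^ r ≤
      ENNReal.ofReal (CN * (N:ℝ) ^ ρ * (C * (N:ℝ) ^ ε) ^ (r - 1) * R * C * (volume G).toReal) := by
  have hC0 : 0 ≤ C := by linarith
  have hN0 : (0:ℝ) < N := by exact_mod_cast hN1
  have hR0 : 0 < R := lt_of_lt_of_le (by positivity) hNR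
  have hE := hk.e2 hC0 mG hh
  have hEt : Eng N ν < ⊤ := hE.trans_lt (ENNReal.mul_lt_top ENNReal.ofReal_lt_top tG)
  have h1 := hnik N R (C * (N:ℝ) ^ ε) H ν ⟨hN1, hNR, hRB, hH, by positivity, hk.meas, (fun k y y' hy => hk.slow k y y' (hy.trans (by
    gcongr
    linarith))), hk.sum, hEt⟩
  refine h1.trans ?_
  calc _ ≤ ENNReal.ofReal (CN * (N:ℝ) ^ ρ * (C * (N:ℝ) ^ ε) ^ (r - 1) * R) * (ENNReal.ofReal C * volume G) := mul_le_mul' le_rfl hE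
    _ = _ := by
      rw [← mul_assoc, ← ENNReal.ofReal_mul (by positivity), ← ENNReal.ofReal_toReal tG.ne, ← ENNReal.ofReal_mul (by positivity),
        ENNReal.toReal_ofReal ENNReal.toReal_nonneg]

end

/-- the exponents -/
theorem brr_expos {κ r ε' : ℝ} (hκ : 0 ≤ κ) (hr : 1 < r) (hr2 : r ≤ 2) (hε' : 0 < ε') :
    2 * (r / (1 + 2 * r)) * (ε' / 4) + 1 / (1 + 2 * r) * ((κ * (r - 1) + ε' / 4) + min (ε' / 4) 1 * (r - 1)) ≤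
      κ * (6 * r / (1 + 2 * r) - 2) / 2 + ε' := by
  have h1 : 0 < 1 + 2 * r := by linarith
  have h2 : min (ε' / 4) 1 ≤ ε' / 4 := min_le_left _ _
  have h3 : κ * (6 * r / (1 + 2 * r) - 2) / 2 = 1 / (1 + 2 * r) * (κ * (r - 1)) := by
    field_simp
    ring
  have h4 : 2 * (r / (1 + 2 * r)) * (ε' / 4) + 1 / (1 + 2 * r) * (ε' / 4 + min (ε' / 4) 1 * (r - 1)) ≤ ε' := by
    have h5 : 2 * (r / (1 + 2 * r)) * (ε' / 4) + 1 / (1 + 2 * r) * (ε' / 4 + min (ε' / 4) 1 * (r - 1)) ≤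
        2 * (r / (1 + 2 * r)) * (ε' / 4) + 1 / (1 + 2 * r) * (ε' / 4 + ε' / 4 * (r - 1)) := by
      have : min (ε' / 4) 1 * (r - 1) ≤ ε' / 4 * (r - 1) := mul_le_mul_of_nonneg_right h2 (by linarith)
      have : 0 < 1 / (1 + 2 * r) := by positivity
      gcongr
    refine h5.trans ?_
    have h6 : 2 * (r / (1 + 2 * r)) * (ε' / 4) + 1 / (1 + 2 * r) * (ε' / 4 + ε' / 4 * (r - 1)) = ε' * (3 * r / (4 * (1 + 2 * r))) := by
      field_simp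
      ring
    rw [h6]
    have h7 : 3 * r / (4 * (1 + 2 * r)) ≤ 1 := by
      rw [div_le_one (by positivity)]
      linarith
    nlinarith
  rw [h3]
  linarith [mul_add (1 / (1 + 2 * r)) (κ * (r - 1)) (ε' / 4 + min (ε' / 4) 1 * (r - 1))]

/-- Hölder and the arithmetic -/
theorem brr_fin {f f' S S' : E4 → ℝ≥0∞} (mf : Measurable f) (mf' : Measurable f') (mS : Measurable S) (mS' : Measurable S') {X : Set E4}
    {u θ s U V P3 g g' : ℝ} (hu : 0 < u) (hθ : 0 < θ) (hs : 0 < s) (h1θ : 2 * u + θ = 1) (hsθ : s * θ = u / 2)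
    (hU : 0 ≤ U) (hV : 0 ≤ V) (hP3 : 0 ≤ P3) (hg : 0 < g) (hg' : 0 < g')
    (f1 : ∫⁻ z in X, f z ^ 3 / S z ^ (1/2 : ℝ) ≤ ENNReal.ofReal (U * g)) (f2 : ∫⁻ z in X, f' z ^ 3 / S' z ^ (1/2 : ℝ) ≤ ENNReal.ofReal (U * g'))
    (f3 : ∫⁻ z in X, (S z * S' z) ^ s ≤ ENNReal.ofReal P3 * (ENNReal.ofReal (V * g) * ENNReal.ofReal (V * g')) ^ (1/2 : ℝ)) :
    ∫⁻ z in X, (f z * f' z) ^ (3 * u) ≤ ENNReal.ofReal (U ^ (2 * u) * (P3 * V) ^ θ * Real.sqrt (g * g')) := by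
  have tSS : ENNReal.ofReal P3 * (ENNReal.ofReal (V * g) * ENNReal.ofReal (V * g')) ^ (1/2 : ℝ) < ⊤ :=
    ENNReal.mul_lt_top ENNReal.ofReal_lt_top (ENNReal.rpow_lt_top_of_nonneg (by norm_num) (ENNReal.mul_lt_top ENNReal.ofReal_lt_top ENNReal.ofReal_lt_top).ne)
  have hh5 := brr_holder mf mf' mS mS' (X := X) hu hθ hs h1θ hsθ (f1.trans_lt ENNReal.ofReal_lt_top).ne (f2.trans_lt ENNReal.ofReal_lt_top).ne
    (f3.trans_lt tSS).ne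
  refine hh5.trans ?_
  rw [← brr_numA hu hθ h1θ hU hV hP3 hg hg']
  gcongr

section
variable {c0 : ℝ} {M : ℕ} {ε C : ℝ} {N : ℕ} {R : ℝ} {H : Hyp} {φ1 φ2 φ1' φ2' : ℝ → ℂ} {h h' : E3 → ℂ} {ν ν' : ℤ × ℤ → E3 → ℝ≥0∞}
    {a a' : Fin 2 × Fin 2 → E4 → ℂ} {b1 b2 b1' b2' : Fin 2 × Fin 2 → ℝ}

/-- the product of the square functions of a pair -/
theorem brr_pairSS {Λ CS CN B ρ r c : ℝ} (hr : 1 < r) (hr2 : r ≤ 2) (hCS : 0 ≤ CS) (hCN : 0 ≤ CN) (hC : 1 ≤ C) (hNr2 : (2:ℝ) ≤ N) (hN1 : 1 ≤ N)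
    (hcN : 16 / (N:ℝ) ≤ c) (hR1 : 4 * (N:ℝ) ^ 2 ≤ R) (hR2 : R ≤ B * (N:ℝ) ^ 2) (hH : H.ok2)
    (hslab : ∀ (N : ℕ), 1 ≤ N → ∀ (a a' : E4 → ℂ) (c0 R b1 b2 b1' b2' : ℝ), Amp c0 R a → Amp c0 R a' →
      |b1| ≤ 1 / N → |b2| ≤ 1 / N → |b1'| ≤ 1 / N → |b2'| ≤ 1 / N →
      (∀ ζ ζ', a ζ ≠ 0 → a' ζ' ≠ 0 → c / 2 ≤ |ζ 1 / ζ 0 - ζ' 1 / ζ' 0| ∨ c / 2 ≤ |ζ 2 / ζ 0 - ζ' 2 / ζ' 0|) →
      8 / N ≤ c / 2 → ∀ y : E4,
      ∫⁻ z in Metric.closedBall y N, Sq Λ (M + 2) N a (shT b1 b2 z) * Sq Λ (M + 2) N a' (shT b1' b2' z) ≤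
      ENNReal.ofReal (CS * (N:ℝ) ^ 4) * (Mu (M + 2 - 2) N a (shT b1 b2 y) * Mu (M + 2 - 2) N a' (shT b1' b2' y)))
    (hnik : ∀ (N : ℕ) (R D : ℝ) (H : Hyp) (ν : ℤ × ℤ → E3 → ℝ≥0∞), DenR B C N R D H ν →
      ∫⁻ z in {z : E4 | R / 2 ≤ H.tm z ∧ H.tm z ≤ 4 * R}, H.Wu N ν z ^ r ≤
      ENNReal.ofReal (CN * (N:ℝ) ^ ρ * D ^ (r - 1) * R) * Eng N ν)
    (hk : Kout c0 M ε C N R H φ1 φ2 h ν a b1 b2) (hk' : Kout c0 M ε C N R H φ1' φ2' h' ν' a' b1' b2')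
    (hsep : ∀ v1 v2 v1' v2', φ1 v1 * φ2 v2 ≠ 0 → φ1' v1' * φ2' v2' ≠ 0 → c ≤ |v1 - v1'| ∨ c ≤ |v2 - v2'|)
    {G G' : Set E3} (mG : MeasurableSet G) (mG' : MeasurableSet G') (tG : volume G < ⊤) (tG' : volume G' < ⊤)
    (hh : ∀ y, ‖h y‖ ≤ G.indicator (fun _ => (1:ℝ)) y) (hh' : ∀ y, ‖h' y‖ ≤ G'.indicator (fun _ => (1:ℝ)) y) (o o' : Fin 2 × Fin 2) :
    ∫⁻ z in Qr H R, (Ss Λ (M + 2) N a b1 b2 o z * Ss Λ (M + 2) N a' b1' b2' o' z) ^ (r / 2) ≤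
      ENNReal.ofReal ((CS * C ^ 2 / vb.toReal) ^ (r / 2)) * (ENNReal.ofReal (CN * (N:ℝ) ^ ρ * (C * (N:ℝ) ^ ε) ^ (r - 1) * R * C * (volume G).toReal) *
      ENNReal.ofReal (CN * (N:ℝ) ^ ρ * (C * (N:ℝ) ^ ε) ^ (r - 1) * R * C * (volume G').toReal)) ^ (1/2 : ℝ) := by
  have hC0 : 0 < C := by linarith
  have hNr0 : (0:ℝ) < N := by linarith
  have hR0 : 0 < R := by nlinarith
  have hNR : (N:ℝ) ^ 2 ≤ R := by nlinarith
  have hbd := hH.ok.bd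
  have mW := measurable_Wu H N hk.meas
  have mW' := measurable_Wu H N hk'.meas
  have mS := measurable_Ss hk Λ (M + 2) o
  have mS' := measurable_Ss hk' Λ (M + 2) o'
  have hsl := br_slab2 (Λ := Λ) (CC := CS * C ^ 2) hCS hC0 hN1 hcN le_rfl hR0.le hslab hk hk' hsep o o'
  have hW := brr_box hCN hC hN1 hNR hH hR2 hnik hk mG tG hh
  have hW' := brr_box hCN hC hN1 hNR hH hR2 hnik hk' mG' tG' hh'
  have hthick := brr_thick hbd hNr2 hR1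
  have er : 2 * (r / 2) = r := by ring
  exact brr_SS mS mS' mW mW' (mQr H R) (Y := {z : E4 | R / 2 ≤ H.tm z ∧ H.tm z ≤ 4 * R}) hNr0 (by positivity) (by linarith) (by linarith)
    (fun z hz => ⟨(hthick hz).1, (hthick hz).2.trans (by linarith)⟩)
    (fun z hz => hsl z (show |H.tm z| ≤ 3 * R by
      have h5 := (hthick hz).1
      rw [abs_of_nonneg (by linarith)]
      exact (hthick hz).2)) (by rw [er]; exact hW) (by rw [er]; exact hW')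

end

theorem brr_pair0 {κ r : ℝ} (hr : 1 < r) (hr2 : r ≤ 2) (hNIK : StNIKr κ r) {u θ ε1 εK ε2 γ : ℝ} (hu0 : 0 < u) (hθ0 : 0 < θ) (h1θ : 2 * u + θ = 1)
    (hsθ : r / 2 * θ = u / 2) (hε10 : 0 < ε1) (hεK0 : 0 < εK) (hεK1 : εK ≤ 1) (hε20 : 0 < ε2)
    (hexp : 2 * u * ε1 + θ * ((κ * (r - 1) + ε2) + εK * (r - 1)) ≤ γ) : PairB (6 * u) γ εK := by
  have hp2 : (6 * u) / 2 = 3 * u := by ring
  have hs0 : 0 < r / 2 := by linarith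
  intro M0
  set M := max M0 2 with hM
  have hM2 : 2 ≤ M := le_max_right _ _
  obtain ⟨K0, c0', Λ, CR, hK0, hc0', hΛ, hCR, href⟩ := stREF ε1 (M + 2) hε10
  refine ⟨min c0' 1, K0, M, lt_min hc0' one_pos, min_le_right _ _, hK0, le_max_left _ _, ?_⟩
  set c0 := min c0' 1 with hc0
  have hc0le : c0 ≤ c0' := min_le_left _ _
  have hc01 : c0 ≤ 1 := min_le_right _ _
  intro c C hc hC
  obtain ⟨CS, hCS, hslab⟩ := stSLABs Λ (c / 2) (M + 2) hΛ (by positivity) (by omega)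
  obtain ⟨CL, hCL, hloc⟩ := stLOC2 M
  obtain ⟨CB, hCB, hber⟩ := stBER M
  have hK0r : (2:ℝ) ≤ K0 := by exact_mod_cast hK0
  set q := 4 * (K0:ℝ) ^ 2 with hq
  have hq1 : 1 ≤ q := by rw [hq]; nlinarith
  obtain ⟨CN, hCN, hnik⟩ := hNIK ε2 q C hε20 hq1 hC
  set P := CR + CS + CL + CB + 1 with hP
  have hPR : CR ≤ P := by rw [hP]; linarith
  have hPL : CL ≤ P := by rw [hP]; linarith
  have hPB : CB ≤ P := by rw [hP]; linarith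
  have hP1 : 1 ≤ P := by rw [hP]; linarith
  set CC := P * (12 * (K0:ℝ) ^ 2) * (2 * C ^ 2) with hCC
  have hC0 : 0 < C := by linarith
  have hCCn : 0 ≤ CC := by positivity
  have hvb := vbr_pos
  refine ⟨max 2 ⌈16 / c⌉₊, (CC * C) ^ (2 * u) * ((CS * C ^ 2 / vb.toReal) ^ (r / 2) * (CN * C ^ (r - 1) * q * C)) ^ θ, by positivity, ?_⟩
  intro n N R H φ1 φ2 φ1' φ2' h h' ν ν' a a' b1 b2 b1' b2' G G' hNn hN0 hR1 hR2 hH hk hk' hsep mG mG' tG tG' zG zG' hh hh' o o'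
  have hN2 : 2 ≤ N := (le_max_left _ _).trans hN0
  have hN1 : 1 ≤ N := by omega
  have hNr2 : (2:ℝ) ≤ N := by exact_mod_cast hN2
  have hNr1 : (1:ℝ) ≤ N := le_trans (by norm_num) hNr2
  have hNr0 : (0:ℝ) < N := lt_of_lt_of_le (by norm_num) hNr2
  have hcN : 16 / (N:ℝ) ≤ c := by
    have h1 : (⌈16 / c⌉₊ : ℝ) ≤ N := by exact_mod_cast (le_max_right _ _).trans hN0
    have h2 := (Nat.le_ceil (16 / c)).trans h1
    rw [div_le_iff₀ hc] at h2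
    rw [div_le_iff₀ hNr0, mul_comm]
    exact h2
  have hR0 : 0 < R := lt_of_lt_of_le (by positivity) hR1
  have p1 := (one_fn (Λ := Λ) hCR hCL hCB hPR hPL hPB hP1 rfl hC hCC hK0r hεK1
    hc0le hc01 hNn hN2 hR1 hR2 hH href hloc hber hk mG tG hh o).1
  have r1 := (one_fn (Λ := Λ) hCR hCL hCB hPR hPL hPB hP1 rfl hC hCC hK0r hεK1
    hc0le hc01 hNn hN2 hR1 hR2 hH href hloc hber hk' mG' tG' hh' o').1
  have hg0 : 0 < (volume G).toReal := ENNReal.toReal_pos zG tG.ne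
  have hg0' : 0 < (volume G').toReal := ENNReal.toReal_pos zG' tG'.ne
  have hSS := brr_pairSS (Λ := Λ) hr hr2 hCS hCN hC hNr2 hN1 hcN hR1 hR2 hH hslab hnik hk hk' hsep mG mG' tG tG' hh hh' o o'
  have f1 : ∫⁻ z in Qr H R, Fs a b1 b2 o z ^ 3 / Ss Λ (M + 2) N a b1 b2 o z ^ (1/2 : ℝ) ≤
      ENNReal.ofReal (CC * (N:ℝ) ^ ε1 * ((N:ℝ) ^ 2 * C) * (volume G).toReal) := by
    refine (setLIntegral_le_lintegral _ _).trans (p1.trans (le_of_eq ?_))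
    congr 1
    ring
  have f2 : ∫⁻ z in Qr H R, Fs a' b1' b2' o' z ^ 3 / Ss Λ (M + 2) N a' b1' b2' o' z ^ (1/2 : ℝ) ≤
      ENNReal.ofReal (CC * (N:ℝ) ^ ε1 * ((N:ℝ) ^ 2 * C) * (volume G').toReal) := by
    refine (setLIntegral_le_lintegral _ _).trans (r1.trans (le_of_eq ?_))
    congr 1
    ring
  rw [hp2]
  refine (brr_fin (measurable_Fs hk o) (measurable_Fs hk' o') (measurable_Ss hk Λ (M + 2) o) (measurable_Ss hk' Λ (M + 2) o') hu0 hθ0 hs0 h1θ hsθ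
    (by positivity) (by positivity) (by positivity) hg0 hg0' f1 f2 hSS).trans ?_
  have hB := brr_numB (P1 := CC) (P3 := (CS * C ^ 2 / vb.toReal) ^ (r / 2)) (R := R) (CN := CN) (ρ := κ * (r - 1) + ε2) hu0 hθ0 h1θ hr hC hNr1 hCCn
    (by positivity) hCN (by positivity) hR0.le hR2 hexp
  apply ENNReal.ofReal_le_ofReal
  have hB2 := mul_le_mul_of_nonneg_right hB (Real.sqrt_nonneg ((volume G).toReal * (volume G').toReal))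
  refine hB2.trans (le_of_eq ?_)
  exact mul_assoc _ _ _

theorem brr_pair {κ r : ℝ} (hκ : 0 ≤ κ) (hr : 1 < r) (hr2 : r ≤ 2) (hNIK : StNIKr κ r) {ε' : ℝ} (hε' : 0 < ε') :
    ∃ εK : ℝ, 0 < εK ∧ PairB (6 * r / (1 + 2 * r)) (κ * (6 * r / (1 + 2 * r) - 2) / 2 + ε') εK := by
  have h12r : 0 < 1 + 2 * r := by linarith
  refine ⟨min (ε' / 4) 1, by positivity, ?_⟩
  rw [show (6 * r / (1 + 2 * r)) = 6 * (r / (1 + 2 * r)) by ring]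
  refine brr_pair0 (θ := 1 / (1 + 2 * r)) hr hr2 hNIK (by positivity) (by positivity) (by field_simp; ring) (by ring) (ε1 := ε' / 4) (by positivity)
    (by positivity) (min_le_right _ _) (ε2 := ε' / 4) (by positivity) ?_
  have := brr_expos hκ hr hr2 hε'
  rwa [show (6 * r / (1 + 2 * r)) = 6 * (r / (1 + 2 * r)) by ring] at this

/-- **[BRr]** the bilinear estimate at `p = 6r/(1+2r)` -/
theorem stBRr : StBRr := by
  intro κ r p α hκ hr hr2 hp hα hNIK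
  have h12r : 0 < 1 + 2 * r := by linarith
  have hp2 : 2 < p := by
    rw [hp, lt_div_iff₀ h12r]
    linarith
  have hα0 : 0 < α := by
    refine lt_of_le_of_lt ?_ hα
    have : 0 ≤ p - 2 := by linarith
    positivity
  have hκp : κ * (p - 2) / 4 < α * p := by
    have h1 : κ * (p - 2) / (4 * p) * p < α * p := mul_lt_mul_of_pos_right hα (by linarith)
    have h2 : κ * (p - 2) / (4 * p) * p = κ * (p - 2) / 4 := by field_simp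
    rwa [h2] at h1
  obtain ⟨εK, hεK, hpair⟩ := brr_pair hκ hr hr2 hNIK (ε' := 2 * (α * p - κ * (p - 2) / 4)) (by linarith)
  rw [← hp] at hpair
  have hγ0 : 0 ≤ κ * (p - 2) / 2 + 2 * (α * p - κ * (p - 2) / 4) := by
    have h1 : 0 ≤ α * p := by positivity
    linarith
  exact stBR_core stKIN hp2 hα0 hγ0 (by linarith) hεK hpair

end Vale.Agent.P106.Q
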