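import Vale.Agent.P106.G.DefsK
import Vale.Agent.P106.G.NikDefs

/-! # P106 / Q : the slope 3/8 (elementary) or 1/4 (from the Kakeya theorem) near `p = 2`. Statements of the blocks. -/

open MeasureTheory Complex Set
open scoped ENNReal NNReal

set_option linter.all false

namespace Vale.Agent.P106.Q

open Vale.Agent.P106.G

/-! ## Four directions on the paraboloid -/

/-- determinant of four points of the paraboloid `(1, v, |v|²)` -/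
noncomputable def D4 (x : Fin 4 → ℝ × ℝ) : ℝ :=
  Matrix.det (Matrix.of fun i : Fin 4 => ![1, (x i).1, (x i).2, (x i).1 ^ 2 + (x i).2 ^ 2])

/-- index of the cell of side `1/K` containing `v` -/
noncomputable def cel (K : ℕ) (v : ℝ × ℝ) : ℤ × ℤ := (⌊(K:ℝ) * v.1⌋, ⌊(K:ℝ) * v.2⌋)

/-- [BGL] a finite set of points of the square without four points in general position meets `O(K)` cells of side `1/K`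
(it is near a circle or a line) -/
def StBGL : Prop := ∃ c1 C0 : ℝ, 0 < c1 ∧ 1 ≤ C0 ∧ ∀ (K : ℕ) (S : Finset (ℝ × ℝ)), 1 ≤ K →
  (∀ v ∈ S, (0 ≤ v.1 ∧ v.1 ≤ 1) ∧ (0 ≤ v.2 ∧ v.2 ≤ 1)) →
  (∀ x : Fin 4 → ℝ × ℝ, (∀ i, x i ∈ S) → |D4 x| ≤ c1 / (K:ℝ) ^ 4) →
  (((S.image (cel K)).card : ℕ) : ℝ) ≤ C0 * K

/-! ## Multilinear Kakeya in four dimensions -/

/-- [MLK] four transversal families of functions, each function invariant in a direction `u j a` close to the `j`-th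
basis vector and slowly varying at the scale one (sup norm on `Fin 4 → ℝ`) -/
def StMLK : Prop := ∀ ε : ℝ, 0 < ε → ∃ θ : ℝ, 0 < θ ∧ ∀ C0 : ℝ, 1 ≤ C0 → ∃ C : ℝ, 0 ≤ C ∧
  ∀ (A : Fin 4 → Finset (ℤ × ℤ)) (u : Fin 4 → ℤ × ℤ → (Fin 4 → ℝ)) (f : Fin 4 → ℤ × ℤ → (Fin 4 → ℝ) → ℝ≥0∞),
  (∀ j a, Measurable (f j a)) →
  (∀ j, ∀ a ∈ A j, ‖u j a - Pi.single j 1‖ ≤ θ) →
  (∀ j, ∀ a ∈ A j, ∀ (z : Fin 4 → ℝ) (t : ℝ), f j a (z + t • u j a) = f j a z) →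
  (∀ j a z z', ‖z - z'‖ ≤ 1 → f j a z ≤ ENNReal.ofReal C0 * f j a z') →
  ∀ (z0 : Fin 4 → ℝ) (ρ : ℝ), 1 ≤ ρ →
    ∫⁻ z in Metric.closedBall z0 ρ, ∏ j, (∑ a ∈ A j, f j a z) ^ (1/3 : ℝ) ≤
      ENNReal.ofReal (C * ρ ^ (ε - 4/3)) * ∏ j, (∫⁻ z in Metric.closedBall z0 (10 * ρ), ∑ a ∈ A j, f j a z) ^ (1/3 : ℝ)

/-! ## Caps and the broad term -/

/-- indices of the caps of side `1/N` with corner in the square `[a1, a1 + σ) × [a2, a2 + σ)` -/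
noncomputable def capN (N : ℕ) (a1 a2 σ : ℝ) : Finset (ℤ × ℤ) := by
  classical exact (grd N).filter fun k => (a1 ≤ (k.1:ℝ) / N ∧ (k.1:ℝ) / N < a1 + σ) ∧ (a2 ≤ (k.2:ℝ) / N ∧ (k.2:ℝ) / N < a2 + σ)

/-- part of the transported density with directions in a square -/
noncomputable def Wc (H : Hyp) (N : ℕ) (ν : ℤ × ℤ → E3 → ℝ≥0∞) (a1 a2 σ : ℝ) (z : E4) : ℝ≥0∞ :=
  ∑ k ∈ capN N a1 a2 σ, ν k (H.bp (k.1 / N) (k.2 / N) z)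

/-- energy of the directions in a square -/
noncomputable def Ec (N : ℕ) (ν : ℤ × ℤ → E3 → ℝ≥0∞) (a1 a2 σ : ℝ) : ℝ≥0∞ := ∑ k ∈ capN N a1 a2 σ, ∫⁻ y, ν k y

/-- hypotheses on the densities -/
structure DenR (B C0 : ℝ) (N : ℕ) (R D : ℝ) (H : Hyp) (ν : ℤ × ℤ → E3 → ℝ≥0∞) : Prop where
  N1 : 1 ≤ N
  R1 : (N:ℝ) ^ 2 ≤ R
  R2 : R ≤ B * (N:ℝ) ^ 2
  ok : H.ok2
  D0 : 0 ≤ D
  meas : ∀ k, Measurable (ν k)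
  slow : ∀ k y y', ‖y - y'‖ ≤ R / N → ν k y ≤ ENNReal.ofReal C0 * ν k y'
  sum : ∀ y, ∑ k ∈ grd N, ν k y ≤ ENNReal.ofReal D
  fin : Eng N ν < ⊤

/-- [BRD] the broad term: four sub-squares of side `σ/K'` with corners `a + σ x i` in general position -/
def StBRD : Prop := ∀ (B C0 δ ε r : ℝ), 1 ≤ B → 1 ≤ C0 → 0 < δ → 0 < ε → 1 ≤ r → r ≤ 4/3 → ∃ K1 : ℕ, 1 ≤ K1 ∧
  ∀ K' : ℕ, K1 ≤ K' → ∃ C : ℝ, 0 ≤ C ∧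
  ∀ (N : ℕ) (R D : ℝ) (H : Hyp) (ν : ℤ × ℤ → E3 → ℝ≥0∞), DenR B C0 N R D H ν →
  ∀ (a1 a2 σ : ℝ) (x : Fin 4 → ℝ × ℝ), 0 < σ → 0 ≤ a1 → a1 + σ ≤ 1 → 0 ≤ a2 → a2 + σ ≤ 1 → 1 ≤ N * σ →
    (∀ i, (0 ≤ (x i).1 ∧ (x i).1 ≤ 1) ∧ (0 ≤ (x i).2 ∧ (x i).2 ≤ 1)) → δ ≤ |D4 x| →
    ∫⁻ z in {z : E4 | |H.tm z| ≤ 4 * R}, ∏ i, Wc H N ν (a1 + σ * (x i).1) (a2 + σ * (x i).2) (σ / K') z ^ (r / 4) ≤
      ENNReal.ofReal (C * (N:ℝ) ^ ε * D ^ (r - 1) * R) *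
        ∏ i, Ec N ν (a1 + σ * (x i).1) (a2 + σ * (x i).2) (σ / K') ^ (1/4 : ℝ)

/-! ## The flat estimate -/

/-- transported densities in the plane -/
noncomputable def Wf (N : ℕ) (μ : ℤ × ℤ → ℝ × ℝ → ℝ≥0∞) (t : ℝ) (s : ℝ × ℝ) : ℝ≥0∞ :=
  ∑ k ∈ grd N, μ k (s.1 - t * (k.1 / N), s.2 - t * (k.2 / N))

/-- [NK3] Nikodym estimate in three dimensions for slowly varying densities with bounded sum -/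
def StNK3 (κ r : ℝ) : Prop := ∀ (ε C0 : ℝ), 0 < ε → 1 ≤ C0 → ∃ C : ℝ, 0 ≤ C ∧
  ∀ (N : ℕ) (μ : ℤ × ℤ → ℝ × ℝ → ℝ≥0∞), 1 ≤ N → (∀ k, Measurable (μ k)) →
  (∀ k s s', |s.1 - s'.1| ≤ 1 / (N:ℝ) → |s.2 - s'.2| ≤ 1 / (N:ℝ) → μ k s ≤ ENNReal.ofReal C0 * μ k s') →
  (∀ s, ∑ k ∈ grd N, μ k s ≤ 1) → (∑ k ∈ grd N, ∫⁻ s, μ k s < ⊤) →
    ∫⁻ t in Icc (1/2 : ℝ) 4, ∫⁻ s, Wf N μ t s ^ r ≤ ENNReal.ofReal (C * (N:ℝ) ^ (κ * (r - 1) + ε)) * ∑ k ∈ grd N, ∫⁻ s, μ k s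

/-- [FLT] small caps (`N σ² ≤ B1`): the flat estimate on the planes parallel to the directions -/
def StFLT (κ r : ℝ) : Prop := ∀ (ε B C0 B1 : ℝ), 0 < ε → 1 ≤ B → 1 ≤ C0 → 1 ≤ B1 → ∃ C : ℝ, 0 ≤ C ∧
  ∀ (N : ℕ) (R D : ℝ) (H : Hyp) (ν : ℤ × ℤ → E3 → ℝ≥0∞), DenR B C0 N R D H ν →
  ∀ (a1 a2 σ : ℝ), 0 < σ → 0 ≤ a1 → a1 + σ ≤ 1 → 0 ≤ a2 → a2 + σ ≤ 1 → N * σ ^ 2 ≤ B1 →
    ∫⁻ z in {z : E4 | R / 2 ≤ H.tm z ∧ H.tm z ≤ 4 * R}, Wc H N ν a1 a2 σ z ^ r ≤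
      ENNReal.ofReal (C * (N * σ + 2) ^ (κ * (r - 1) + ε) * D ^ (r - 1) * R) * Ec N ν a1 a2 σ

/-- [NIKr] the box estimate with exponent `r` and loss `N^{κ(r-1)}` -/
def StNIKr (κ r : ℝ) : Prop := ∀ (ε B C0 : ℝ), 0 < ε → 1 ≤ B → 1 ≤ C0 → ∃ C : ℝ, 0 ≤ C ∧
  ∀ (N : ℕ) (R D : ℝ) (H : Hyp) (ν : ℤ × ℤ → E3 → ℝ≥0∞), DenR B C0 N R D H ν →
    ∫⁻ z in {z : E4 | R / 2 ≤ H.tm z ∧ H.tm z ≤ 4 * R}, H.Wu N ν z ^ r ≤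
      ENNReal.ofReal (C * (N:ℝ) ^ (κ * (r - 1) + ε) * D ^ (r - 1) * R) * Eng N ν

/-- [REC] induction over the caps: the flat loss `κ'` becomes `(1 + κ')/2` -/
def StREC : Prop := ∀ κ' r : ℝ, 0 ≤ κ' → 1 < r → r ≤ 4/3 → StBGL → StBRD → StFLT κ' r → StNIKr ((1 + κ') / 2) r

end Vale.Agent.P106.Q
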