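import Vale.Agent.P106.Q.Defs

/-! # P106 / Q : extension of the range from `r ≤ 4/3` to `r ≤ 3/2` (loss `κ' = 1/2`) -/

open MeasureTheory Complex Set
open scoped ENNReal NNReal

set_option linter.all false

namespace Vale.Agent.P106.Q

open Vale.Agent.P106.G

/-- [NKC] the box estimate for a square of directions of side `σ` -/
def StNKC : Prop := ∃ C : ℝ, 0 ≤ C ∧ ∀ (B C0 : ℝ) (N : ℕ) (R D : ℝ) (H : Hyp) (ν : ℤ × ℤ → E3 → ℝ≥0∞), DenR B C0 N R D H ν →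
  ∀ (a1 a2 σ : ℝ), 0 < σ → 0 ≤ a1 → a1 + σ ≤ 1 → 0 ≤ a2 → a2 + σ ≤ 1 → 1 ≤ N * σ →
    ∫⁻ z in {z : E4 | |H.tm z| ≤ 4 * R}, Wc H N ν a1 a2 σ z ^ 2 ≤ ENNReal.ofReal (C * D * (N * σ) * R) * Ec N ν a1 a2 σ

/-- [BRD2] the broad term for `4/3 ≤ r ≤ 2`, with the loss `(N σ)^(3r/2 - 2)` -/
def StBRD2 : Prop := ∀ (B C0 δ ε r : ℝ), 1 ≤ B → 1 ≤ C0 → 0 < δ → 0 < ε → 4/3 ≤ r → r ≤ 2 → ∃ K1 : ℕ, 1 ≤ K1 ∧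
  ∀ K' : ℕ, K1 ≤ K' → ∃ C : ℝ, 0 ≤ C ∧
  ∀ (N : ℕ) (R D : ℝ) (H : Hyp) (ν : ℤ × ℤ → E3 → ℝ≥0∞), DenR B C0 N R D H ν →
  ∀ (a1 a2 σ : ℝ) (x : Fin 4 → ℝ × ℝ), 0 < σ → 0 ≤ a1 → a1 + σ ≤ 1 → 0 ≤ a2 → a2 + σ ≤ 1 → 1 ≤ N * σ →
    (∀ i, (0 ≤ (x i).1 ∧ (x i).1 ≤ 1) ∧ (0 ≤ (x i).2 ∧ (x i).2 ≤ 1)) → δ ≤ |D4 x| →
    ∫⁻ z in {z : E4 | |H.tm z| ≤ 4 * R}, ∏ i, Wc H N ν (a1 + σ * (x i).1) (a2 + σ * (x i).2) (σ / K') z ^ (r / 4) ≤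
      ENNReal.ofReal (C * (N:ℝ) ^ ε * (N * σ) ^ (3 / 2 * r - 2) * D ^ (r - 1) * R) *
        ∏ i, Ec N ν (a1 + σ * (x i).1) (a2 + σ * (x i).2) (σ / K') ^ (1/4 : ℝ)

/-- [REC2] induction over the caps for `4/3 ≤ r` -/
def StREC2 : Prop := ∀ κ' r : ℝ, 0 ≤ κ' → 4/3 ≤ r → r ≤ 2 → 3 / 4 * r - 1 ≤ κ' * (r - 1) / 2 →
  3 / 2 * r - 2 ≤ (1 + κ') * (r - 1) / 2 → StBGL → StBRD2 → StFLT κ' r → StNIKr ((1 + κ') / 2) r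

end Vale.Agent.P106.Q
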