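import Vale.Agent.P106.Q.Defs
import Vale.Agent.P106.G.Loc

/-! # P106 / Q : statement of the bilinear block -/

open MeasureTheory Complex Set
open scoped ENNReal NNReal

set_option linter.all false

namespace Vale.Agent.P106.Q

open Vale.Agent.P106.G

/-- [BRr] the bilinear estimate from the box estimate with exponent `r`, at `p = 6r/(1+2r)` -/
def StBRr : Prop := ∀ κ r p α : ℝ, 0 ≤ κ → 1 < r → r ≤ 2 → p = 6 * r / (1 + 2 * r) → κ * (p - 2) / (4 * p) < α → StNIKr κ r →
  ∃ c0 : ℝ, 0 < c0 ∧ c0 ≤ 1 ∧ StBRg Hyp.ok2 p α c0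

end Vale.Agent.P106.Q
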