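import Vale.Agent.P106.Q.Defs

/-! # P106 / Q : the flat bilinear level set estimate (hairbrush), interface inside the block NK3E -/

open MeasureTheory Complex Set
open scoped ENNReal NNReal

set_option linter.all false

namespace Vale.Agent.P106.Q

open Vale.Agent.P106.G

/-- densities on the plane, almost constant on the cells of side `1/N`, with bounded sum (NB: slow variation is only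
asked inside the cells, so that the densities may have bounded support) -/
structure DenF (C0 : ℝ) (N : ℕ) (μ : ℤ × ℤ → ℝ × ℝ → ℝ≥0∞) : Prop where
  meas : ∀ k, Measurable (μ k)
  slow : ∀ k s s', ⌊(N:ℝ) * s.1⌋ = ⌊(N:ℝ) * s'.1⌋ → ⌊(N:ℝ) * s.2⌋ = ⌊(N:ℝ) * s'.2⌋ → μ k s ≤ ENNReal.ofReal C0 * μ k s'
  sum : ∀ s, ∑ k ∈ grd N, μ k s ≤ 1
  fin : ∑ k ∈ grd N, ∫⁻ s, μ k s < ⊤

/-- [BIL3] level sets of two families with separated directions and base points in a bounded set -/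
def StBIL3 : Prop := ∀ (c C0 : ℝ), 0 < c → 1 ≤ C0 → ∃ C : ℝ, 0 ≤ C ∧
  ∀ (N : ℕ) (μ1 μ2 : ℤ × ℤ → ℝ × ℝ → ℝ≥0∞), 1 ≤ N → DenF C0 N μ1 → DenF C0 N μ2 →
  (∀ k ∈ grd N, ∀ k' ∈ grd N, (∃ s, μ1 k s ≠ 0) → (∃ s, μ2 k' s ≠ 0) → c ≤ |((k.1:ℝ) - k'.1) / N| ∨ c ≤ |((k.2:ℝ) - k'.2) / N|) →
  (∀ k s, μ1 k s ≠ 0 → |s.1| ≤ 10 ∧ |s.2| ≤ 10) → (∀ k s, μ2 k s ≠ 0 → |s.1| ≤ 10 ∧ |s.2| ≤ 10) →
  ∀ (X : Set (ℝ × (ℝ × ℝ))) (σ1 σ2 e1 e2 : ℝ), MeasurableSet X → (∀ z ∈ X, 1/2 ≤ z.1 ∧ z.1 ≤ 4) → 0 < σ1 → 0 < σ2 →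
    0 ≤ e1 → e1 ≤ 1 → 0 ≤ e2 → e2 ≤ 1 →
    (∀ z ∈ X, ENNReal.ofReal σ1 ≤ Wf N μ1 z.1 z.2 ∧ Wf N μ1 z.1 z.2 ≤ ENNReal.ofReal (C0 * σ1)) →
    (∀ z ∈ X, ENNReal.ofReal σ2 ≤ Wf N μ2 z.1 z.2 ∧ Wf N μ2 z.1 z.2 ≤ ENNReal.ofReal (C0 * σ2)) →
    ENNReal.ofReal e1 * ∑ k ∈ grd N, ∫⁻ s, μ1 k s ≤ ENNReal.ofReal σ1 * volume X →
    ENNReal.ofReal e2 * ∑ k ∈ grd N, ∫⁻ s, μ2 k s ≤ ENNReal.ofReal σ2 * volume X →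
    ∑ k ∈ grd N, ∫⁻ s, μ1 k s ≠ 0 → ∑ k ∈ grd N, ∫⁻ s, μ2 k s ≠ 0 →
    σ1 * σ2 * (e1 * e2) ^ (3/2 : ℝ) ≤ C * N * (1 + Real.log N) ^ 4

end Vale.Agent.P106.Q
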