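import Vale.Agent.P106.Q.FLTC

/-! # P106 / Q : block FLT (helper786). The flat estimate for small caps -/

open MeasureTheory Complex Set
open scoped ENNReal NNReal

set_option linter.all false

namespace Vale.Agent.P106.Q.FLT

open Vale.Agent.P106.G Vale.Agent.P106.Q

theorem scale_t {R : ℝ} (hR : 0 < R) {f : ℝ → ℝ≥0∞} (hf : Measurable f) :
    ∫⁻ t in Icc (R / 2) (4 * R), f (t / R) = ENNReal.ofReal R * ∫⁻ t in Icc (1/2 : ℝ) 4, f t := by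
  rw [← lintegral_indicator measurableSet_Icc, ← lintegral_indicator measurableSet_Icc]
  have m1 : Measurable ((Icc (R / 2) (4 * R)).indicator fun t => f (t / R)) :=
    (hf.comp (measurable_id.div_const R)).indicator measurableSet_Icc
  rw [lint_scale hR.ne' m1, abs_of_pos hR]
  congr 1
  refine lintegral_congr fun p => ?_
  by_cases hp : p ∈ Icc (1/2 : ℝ) 4
  · rw [indicator_of_mem hp, indicator_of_mem]
    · congr 1; field_simp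
    · exact ⟨by nlinarith [hp.1], by nlinarith [hp.2]⟩
  · rw [indicator_of_notMem hp, indicator_of_notMem]
    intro h
    apply hp
    constructor
    · have := h.1; nlinarith
    · have := h.2; nlinarith

theorem meas_Phi {H : Hyp} {N N' : ℕ} {D : ℝ} {ν : ℤ × ℤ → E3 → ℝ≥0∞} (hν : ∀ k, Measurable (ν k)) (a1 a2 σ R r : ℝ) :
    Measurable fun p : (ℝ × ℝ) × (ℝ × ℝ) => Wf N' (muh H N N' D ν a1 a2 σ R p.1.2) p.1.1 p.2 ^ r := by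
  apply Measurable.pow_const
  unfold Wf
  refine Finset.measurable_sum _ fun j _ => ?_
  have h1 := muh_meas (H := H) (N := N) (N' := N') (D := D) hν a1 a2 σ R j
  have h2 : Measurable fun p : (ℝ × ℝ) × (ℝ × ℝ) => ((p.1.2, (p.2.1 - p.1.1 * (j.1 / N'), p.2.2 - p.1.1 * (j.2 / N'))) : ℝ × (ℝ × ℝ)) := by
    fun_prop
  exact h1.comp h2

theorem meas_Gl {H : Hyp} {N : ℕ} {ν : ℤ × ℤ → E3 → ℝ≥0∞} (hν : ∀ k, Measurable (ν k)) (a1 a2 σ t : ℝ) :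
    Measurable (Gl H N ν a1 a2 σ t) := by
  unfold Gl
  exact Finset.measurable_sum _ fun k _ => (hν k).comp (measurable_id.sub_const _)

theorem slice_le {B C0 B1 R D r : ℝ} {N N' : ℕ} {H : Hyp} {ν : ℤ × ℤ → E3 → ℝ≥0∞} (hD : DenR B C0 N R D H ν) (hDp : 0 < D)
    (hr : 0 ≤ r) (hN1 : 1 ≤ N') {a1 a2 σ : ℝ} (hσ : 0 < σ) (ha1 : 0 ≤ a1) (ha2 : 0 ≤ a2) (hN' : N * σ ≤ N')
    (hB1 : N * σ ^ 2 ≤ B1) {m : ℕ} (hm : 528 * B1 ≤ m)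
    (hp : (0 ≤ ((kc N a1 a2).1:ℝ) / N ∧ ((kc N a1 a2).1:ℝ) / N ≤ 1) ∧ (0 ≤ ((kc N a1 a2).2:ℝ) / N ∧ ((kc N a1 a2).2:ℝ) / N ≤ 1))
    {t : ℝ} (ht : t ∈ Icc (R / 2) (4 * R)) :
    ∫⁻ y, Wc H N ν a1 a2 σ (H.zt t y) ^ r ≤ (ENNReal.ofReal C0 ^ m) ^ r *
      (ENNReal.ofReal |(mA H ((kc N a1 a2).1 / N) ((kc N a1 a2).2 / N) (R * N' / N)).det| * (ENNReal.ofReal D ^ r *
      ∫⁻ h : ℝ, ∫⁻ s : ℝ × ℝ, Wf N' (muh H N N' D ν a1 a2 σ R h) (t / R) s ^ r)) := by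
  have hN0 : (0:ℝ) < N := by exact_mod_cast hD.N1
  have hN0' : (0:ℝ) < N' := by exact_mod_cast hN1
  have hR0 : 0 < R := by have := hD.R1; nlinarith [pow_pos hN0 2]
  have hl : R * N' / N ≠ 0 := by positivity
  obtain ⟨⟨p1, p1'⟩, ⟨p2, p2'⟩⟩ := hp
  have mG := meas_Gl (H := H) (N := N) hD.meas a1 a2 σ t
  calc ∫⁻ y, Wc H N ν a1 a2 σ (H.zt t y) ^ r
      ≤ ∫⁻ y, (ENNReal.ofReal C0 ^ m * Gl H N ν a1 a2 σ t (y - t • H.vel ((kc N a1 a2).1 / N) ((kc N a1 a2).2 / N))) ^ r := by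
        refine lintegral_mono fun y => ?_
        exact ENNReal.rpow_le_rpow (Wc_le hD hσ ha1 ha2 hB1 hm ht y) hr
    _ = (ENNReal.ofReal C0 ^ m) ^ r * ∫⁻ y, Gl H N ν a1 a2 σ t (y - t • H.vel ((kc N a1 a2).1 / N) ((kc N a1 a2).2 / N)) ^ r := by
        simp_rw [ENNReal.mul_rpow_of_nonneg _ _ hr]
        rw [lintegral_const_mul' _ _ (by
          exact ENNReal.rpow_ne_top_of_nonneg hr (ENNReal.pow_ne_top ENNReal.ofReal_ne_top))]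
    _ = (ENNReal.ofReal C0 ^ m) ^ r * ∫⁻ y, Gl H N ν a1 a2 σ t y ^ r := by
        congr 1
        exact lintegral_sub_right_eq_self (fun y => Gl H N ν a1 a2 σ t y ^ r) _
    _ = (ENNReal.ofReal C0 ^ m) ^ r *
      (ENNReal.ofReal |(mA H ((kc N a1 a2).1 / N) ((kc N a1 a2).2 / N) (R * N' / N)).det| *
      ∫⁻ h : ℝ, ∫⁻ s : ℝ × ℝ, Gl H N ν a1 a2 σ t (pA H ((kc N a1 a2).1 / N) ((kc N a1 a2).2 / N) (R * N' / N) h s) ^ r) := by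
        rw [lint_pA hD.ok p1 p1' p2 p2' hl (mG.pow_const r)]
    _ = _ := by
        congr 2
        simp_rw [Gl_pA hD.N1 hN1 hDp hR0 ν ha1 ha2 hN', ENNReal.mul_rpow_of_nonneg _ _ hr]
        have hne : ENNReal.ofReal D ^ r ≠ ⊤ := ENNReal.rpow_ne_top_of_nonneg hr ENNReal.ofReal_ne_top
        simp_rw [lintegral_const_mul' _ _ hne]

theorem swap_scale {R : ℝ} (hR : 0 < R) {Φ : ℝ → ℝ → ℝ≥0∞} (mΦ : Measurable fun p : ℝ × ℝ => Φ p.1 p.2) :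
    ∫⁻ t in Icc (R / 2) (4 * R), ∫⁻ h : ℝ, Φ (t / R) h = ∫⁻ h : ℝ, ENNReal.ofReal R * ∫⁻ t in Icc (1/2 : ℝ) 4, Φ t h := by
  have hswap : ∫⁻ t in Icc (R / 2) (4 * R), ∫⁻ h : ℝ, Φ (t / R) h = ∫⁻ h : ℝ, ∫⁻ t in Icc (R / 2) (4 * R), Φ (t / R) h := by
    refine lintegral_lintegral_swap ?_
    have : Measurable fun p : ℝ × ℝ => Φ (p.1 / R) p.2 := by
      have h2 : Measurable fun p : ℝ × ℝ => ((p.1 / R, p.2) : ℝ × ℝ) := by fun_prop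
      exact mΦ.comp h2
    exact this.aemeasurable
  rw [hswap]
  refine lintegral_congr fun h => ?_
  refine scale_t hR (f := fun t => Φ t h) ?_
  exact mΦ.comp (measurable_prodMk_right (y := h))

theorem fin_alg {Φ S : ℝ → ℝ≥0∞} {c J d R' X : ℝ≥0∞} (hX : X ≠ ⊤) (hR' : R' ≠ ⊤)
    (mS : Measurable S) (hS : ∫⁻ h, S h ≠ ⊤) (hΦ : ∀ h, S h < ⊤ → Φ h ≤ X * S h) :
    c * (J * (d * ∫⁻ h, R' * Φ h)) ≤ c * (d * (R' * (X * (J * ∫⁻ h, S h)))) := by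
  have h1 : ∫⁻ h, R' * Φ h ≤ ∫⁻ h, R' * (X * S h) := by
    refine lintegral_mono_ae ?_
    filter_upwards [ae_lt_top mS hS] with h hh
    exact mul_le_mul' le_rfl (hΦ h hh)
  have h2 : ∫⁻ h, R' * (X * S h) = R' * (X * ∫⁻ h, S h) := by
    rw [lintegral_const_mul' _ _ hR', lintegral_const_mul' _ _ hX]
  have h3 := h1.trans h2.le
  calc c * (J * (d * ∫⁻ h, R' * Φ h)) ≤ c * (J * (d * (R' * (X * ∫⁻ h, S h)))) := by gcongr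
    _ = _ := by ring

theorem dpow {D r : ℝ} (hD : 0 < D) (E : ℝ≥0∞) : ENNReal.ofReal D ^ r * ((ENNReal.ofReal D)⁻¹ * E) = ENNReal.ofReal D ^ (r - 1) * E := by
  have hD0 : ENNReal.ofReal D ≠ 0 := (ENNReal.ofReal_pos.2 hD).ne'
  rw [ENNReal.rpow_sub _ _ hD0 ENNReal.ofReal_ne_top, ENNReal.rpow_one, ENNReal.div_eq_inv_mul]
  ring

/-- densities of the plane problem: total mass finite for almost every plane -/
theorem mass_fin {B C0 R D : ℝ} {N N' : ℕ} {H : Hyp} {ν : ℤ × ℤ → E3 → ℝ≥0∞} (hD : DenR B C0 N R D H ν) (hDp : 0 < D)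
    (hN1 : 1 ≤ N') {a1 a2 σ : ℝ} (ha1 : 0 ≤ a1) (ha2 : 0 ≤ a2) (hN' : N * σ ≤ N')
    (hp : (0 ≤ ((kc N a1 a2).1:ℝ) / N ∧ ((kc N a1 a2).1:ℝ) / N ≤ 1) ∧ (0 ≤ ((kc N a1 a2).2:ℝ) / N ∧ ((kc N a1 a2).2:ℝ) / N ≤ 1)) :
    ∫⁻ h : ℝ, ∑ j ∈ grd N', ∫⁻ s : ℝ × ℝ, muh H N N' D ν a1 a2 σ R h j s ≠ ⊤ := by
  have hN0 : (0:ℝ) < N := by exact_mod_cast hD.N1
  have hN0' : (0:ℝ) < N' := by exact_mod_cast hN1
  have hR0 : 0 < R := by have := hD.R1; nlinarith [pow_pos hN0 2]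
  have hD0 : ENNReal.ofReal D ≠ 0 := (ENNReal.ofReal_pos.2 hDp).ne'
  have hl : R * N' / N ≠ 0 := by positivity
  have hJ0 : ENNReal.ofReal |(mA H ((kc N a1 a2).1 / N) ((kc N a1 a2).2 / N) (R * N' / N)).det| ≠ 0 :=
    (ENNReal.ofReal_pos.2 (abs_pos.2 (mA_det_ne hD.ok hp.1.1 hp.1.2 hp.2.1 hp.2.2 hl))).ne'
  have hSint := muh_int hD hN1 ha1 ha2 hN' hp
  have hEc : Ec N ν a1 a2 σ ≠ ⊤ := by
    refine ne_top_of_le_ne_top hD.fin.ne ?_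
    unfold Ec Eng
    refine Finset.sum_le_sum_of_subset ?_
    intro k hk; exact (mem_capN.1 hk).1
  intro h
  rw [h, ENNReal.mul_top hJ0] at hSint
  exact (ENNReal.mul_ne_top (ENNReal.inv_ne_top.2 hD0) hEc) hSint.symm

theorem slab_le {B C0 B1 R D r : ℝ} {N N' : ℕ} {H : Hyp} {ν : ℤ × ℤ → E3 → ℝ≥0∞} (hD : DenR B C0 N R D H ν) (hDp : 0 < D)
    (hr : 0 ≤ r) (hN1 : 1 ≤ N') {a1 a2 σ : ℝ} (hσ : 0 < σ) (ha1 : 0 ≤ a1) (ha2 : 0 ≤ a2) (hN' : N * σ ≤ N')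
    (hB1 : N * σ ^ 2 ≤ B1) {m : ℕ} (hm : 528 * B1 ≤ m)
    (hp : (0 ≤ ((kc N a1 a2).1:ℝ) / N ∧ ((kc N a1 a2).1:ℝ) / N ≤ 1) ∧ (0 ≤ ((kc N a1 a2).2:ℝ) / N ∧ ((kc N a1 a2).2:ℝ) / N ≤ 1)) :
    ∫⁻ z in {z : E4 | R / 2 ≤ H.tm z ∧ H.tm z ≤ 4 * R}, Wc H N ν a1 a2 σ z ^ r ≤ (ENNReal.ofReal C0 ^ m) ^ r *
      (ENNReal.ofReal |(mA H ((kc N a1 a2).1 / N) ((kc N a1 a2).2 / N) (R * N' / N)).det| * (ENNReal.ofReal D ^ r *
      ∫⁻ h : ℝ, ENNReal.ofReal R * ∫⁻ t in Icc (1/2 : ℝ) 4, ∫⁻ s : ℝ × ℝ, Wf N' (muh H N N' D ν a1 a2 σ R h) t s ^ r)) := by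
  have hN0 : (0:ℝ) < N := by exact_mod_cast hD.N1
  have hR0 : 0 < R := by have := hD.R1; nlinarith [pow_pos hN0 2]
  have mWc := measurable_Wc H N hD.meas a1 a2 σ
  have mP := meas_Phi (H := H) (N := N) (N' := N') (D := D) hD.meas a1 a2 σ R r
  have hc1 : (ENNReal.ofReal C0 ^ m) ^ r ≠ ⊤ := ENNReal.rpow_ne_top_of_nonneg hr (ENNReal.pow_ne_top ENNReal.ofReal_ne_top)
  have hc2 : ENNReal.ofReal D ^ r ≠ ⊤ := ENNReal.rpow_ne_top_of_nonneg hr ENNReal.ofReal_ne_top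
  rw [slab_lint H (mWc.pow_const r), ← swap_scale hR0 (Φ := fun t h => ∫⁻ s : ℝ × ℝ, Wf N' (muh H N N' D ν a1 a2 σ R h) t s ^ r)
    mP.lintegral_prod_right', ← lintegral_const_mul' _ _ hc2, ← lintegral_const_mul' _ _ ENNReal.ofReal_ne_top,
    ← lintegral_const_mul' _ _ hc1]
  refine setLIntegral_mono' measurableSet_Icc fun t ht => ?_
  exact slice_le hD hDp hr hN1 hσ ha1 ha2 hN' hB1 hm hp ht

theorem main_le {B C0 B1 R D r κ ε C : ℝ} {N N' : ℕ} {H : Hyp} {ν : ℤ × ℤ → E3 → ℝ≥0∞} (hD : DenR B C0 N R D H ν) (hDp : 0 < D)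
    (hr : 1 < r) (hC0 : 1 ≤ C0) (hN1 : 1 ≤ N') {a1 a2 σ : ℝ} (hσ : 0 < σ) (ha1 : 0 ≤ a1) (ha2 : 0 ≤ a2) (hN' : N * σ ≤ N')
    (hB1 : N * σ ^ 2 ≤ B1) {m : ℕ} (hm : 528 * B1 ≤ m)
    (hp : (0 ≤ ((kc N a1 a2).1:ℝ) / N ∧ ((kc N a1 a2).1:ℝ) / N ≤ 1) ∧ (0 ≤ ((kc N a1 a2).2:ℝ) / N ∧ ((kc N a1 a2).2:ℝ) / N ≤ 1))
    (hK : ∀ μ : ℤ × ℤ → ℝ × ℝ → ℝ≥0∞, (∀ k, Measurable (μ k)) →
      (∀ k s s', |s.1 - s'.1| ≤ 1 / (N':ℝ) → |s.2 - s'.2| ≤ 1 / (N':ℝ) → μ k s ≤ ENNReal.ofReal (C0 ^ 18) * μ k s') →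
      (∀ s, ∑ k ∈ grd N', μ k s ≤ 1) → (∑ k ∈ grd N', ∫⁻ s, μ k s < ⊤) →
        ∫⁻ t in Icc (1/2 : ℝ) 4, ∫⁻ s, Wf N' μ t s ^ r ≤ ENNReal.ofReal (C * (N':ℝ) ^ (κ * (r - 1) + ε)) * ∑ k ∈ grd N', ∫⁻ s, μ k s) :
    ∫⁻ z in {z : E4 | R / 2 ≤ H.tm z ∧ H.tm z ≤ 4 * R}, Wc H N ν a1 a2 σ z ^ r ≤
      (ENNReal.ofReal C0 ^ m) ^ r * (ENNReal.ofReal D ^ (r - 1) * (ENNReal.ofReal R *
        (ENNReal.ofReal (C * (N':ℝ) ^ (κ * (r - 1) + ε)) * Ec N ν a1 a2 σ))) := by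
  have hC0' : ENNReal.ofReal (C0 ^ 18) = ENNReal.ofReal C0 ^ 18 := ENNReal.ofReal_pow (by linarith) 18
  have mS : Measurable fun h : ℝ => ∑ j ∈ grd N', ∫⁻ s : ℝ × ℝ, muh H N N' D ν a1 a2 σ R h j s := by
    refine Finset.measurable_sum _ fun j _ => ?_
    exact (muh_meas hD.meas a1 a2 σ R j).lintegral_prod_right'
  have hpt : ∀ h : ℝ, ∑ j ∈ grd N', ∫⁻ s : ℝ × ℝ, muh H N N' D ν a1 a2 σ R h j s < ⊤ →
      ∫⁻ t in Icc (1/2 : ℝ) 4, ∫⁻ s : ℝ × ℝ, Wf N' (muh H N N' D ν a1 a2 σ R h) t s ^ r ≤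
        ENNReal.ofReal (C * (N':ℝ) ^ (κ * (r - 1) + ε)) * ∑ j ∈ grd N', ∫⁻ s : ℝ × ℝ, muh H N N' D ν a1 a2 σ R h j s := by
    intro h hh
    refine hK (muh H N N' D ν a1 a2 σ R h) ?_ ?_ ?_ hh
    · intro k
      exact (muh_meas hD.meas a1 a2 σ R k).comp (measurable_prodMk_left (x := h))
    · intro k s s' h1 h2
      rw [hC0']
      exact muh_slow hD hN1 ha1 ha2 h k s s' h1 h2
    · intro s
      exact muh_sum hD ha1 ha2 hN' h s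
  refine (slab_le hD hDp (by linarith) hN1 hσ ha1 ha2 hN' hB1 hm hp).trans ?_
  refine (fin_alg (c := (ENNReal.ofReal C0 ^ m) ^ r)
    (J := ENNReal.ofReal |(mA H ((kc N a1 a2).1 / N) ((kc N a1 a2).2 / N) (R * N' / N)).det|) (d := ENNReal.ofReal D ^ r)
    ENNReal.ofReal_ne_top ENNReal.ofReal_ne_top mS (mass_fin hD hDp hN1 ha1 ha2 hN' hp) hpt).trans ?_
  rw [muh_int hD hN1 ha1 ha2 hN' hp, mul_left_comm (ENNReal.ofReal (C * (N':ℝ) ^ (κ * (r - 1) + ε))),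
    mul_left_comm (ENNReal.ofReal R), dpow hDp]

end Vale.Agent.P106.Q.FLT

namespace Vale.Agent.P106.Q

open Vale.Agent.P106.G FLT

theorem stFLT {κ r : ℝ} (hκ : 0 ≤ κ) (hr : 1 < r) (h : StNK3 κ r) : StFLT κ r := by
  intro ε B C0 B1 hε hB hC0 hB1
  obtain ⟨C, hC, hK⟩ := h ε (C0 ^ 18) hε (one_le_pow₀ hC0)
  set m : ℕ := ⌈528 * B1⌉₊ with hm
  refine ⟨(C0 ^ m) ^ r * C, by positivity, ?_⟩
  intro N R D H ν hD a1 a2 σ hσ ha1 ha1' ha2 ha2' hNσ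
  have hN0 : (0:ℝ) < N := by exact_mod_cast hD.N1
  have hR0 : 0 < R := by have := hD.R1; nlinarith [pow_pos hN0 2]
  have hr0 : 0 < r := by linarith
  have triv : (∀ z, Wc H N ν a1 a2 σ z = 0) → ∫⁻ z in {z : E4 | R / 2 ≤ H.tm z ∧ H.tm z ≤ 4 * R}, Wc H N ν a1 a2 σ z ^ r = 0 := by
    intro hz
    simp_rw [hz, ENNReal.zero_rpow_of_pos hr0]
    simp
  rcases Finset.eq_empty_or_nonempty (capN N a1 a2 σ) with hE | ⟨k, hk⟩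
  · rw [triv (fun z => by unfold Wc; rw [hE]; simp)]
    exact bot_le
  rcases hD.D0.eq_or_lt with hDz | hDp
  · rw [triv ?_]
    · exact bot_le
    · intro z
      unfold Wc
      apply Finset.sum_eq_zero
      intro j hj
      have hs := hD.sum (H.bp (j.1 / N) (j.2 / N) z)
      rw [← hDz, ENNReal.ofReal_zero] at hs
      have h0 := Finset.sum_eq_zero_iff.1 (le_antisymm hs bot_le)
      exact h0 j (mem_capN.1 hj).1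
  obtain ⟨_, _, _, hp, _⟩ := kc_facts hD.N1 ha1 ha2 hk
  set N' : ℕ := ⌈(N:ℝ) * σ⌉₊ with hN'
  have hNs : 0 < (N:ℝ) * σ := by positivity
  have h1 : 1 ≤ N' := Nat.one_le_iff_ne_zero.2 (Nat.ceil_pos.2 hNs).ne'
  have h2 : (N:ℝ) * σ ≤ N' := Nat.le_ceil _
  have h3 : (N':ℝ) ≤ N * σ + 2 := by
    have := (Nat.ceil_lt_add_one hNs.le).le
    linarith
  have hmain := main_le (κ := κ) (ε := ε) (C := C) hD hDp hr hC0 h1 hσ ha1 ha2 h2 hNσ (Nat.le_ceil (528 * B1)) hp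
    (fun μ q1 q2 q3 q4 => hK N' μ h1 q1 q2 q3 q4)
  refine hmain.trans ?_
  have hexp : 0 ≤ κ * (r - 1) + ε := by
    have : 0 ≤ κ * (r - 1) := mul_nonneg hκ (by linarith)
    linarith
  have hpow : (N':ℝ) ^ (κ * (r - 1) + ε) ≤ (N * σ + 2) ^ (κ * (r - 1) + ε) :=
    Real.rpow_le_rpow (by positivity) h3 hexp
  have e1 : (ENNReal.ofReal C0 ^ m) ^ r = ENNReal.ofReal ((C0 ^ m) ^ r) := by
    rw [← ENNReal.ofReal_pow (by linarith), ENNReal.ofReal_rpow_of_nonneg (by positivity) hr0.le]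
  have e2 : ENNReal.ofReal D ^ (r - 1) = ENNReal.ofReal (D ^ (r - 1)) :=
    ENNReal.ofReal_rpow_of_nonneg hDp.le (by linarith)
  rw [← hm, e1, e2, ← mul_assoc (ENNReal.ofReal R), ← mul_assoc, ← mul_assoc,
    ← ENNReal.ofReal_mul hR0.le, ← ENNReal.ofReal_mul (by positivity), ← ENNReal.ofReal_mul (by positivity)]
  refine mul_le_mul' (ENNReal.ofReal_le_ofReal ?_) le_rfl
  calc (C0 ^ m) ^ r * D ^ (r - 1) * (R * (C * (N':ℝ) ^ (κ * (r - 1) + ε)))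
      ≤ (C0 ^ m) ^ r * D ^ (r - 1) * (R * (C * (N * σ + 2) ^ (κ * (r - 1) + ε))) := by gcongr
    _ = (C0 ^ m) ^ r * C * (N * σ + 2) ^ (κ * (r - 1) + ε) * D ^ (r - 1) * R := by ring

end Vale.Agent.P106.Q
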