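import Vale.Agent.P106.Q.Defs
import Vale.Agent.P106.G.NikB
import Vale.Agent.P106.G.GeC

/-! # P106 / Q : block FLT (helper786). Linearisation of the velocity, coordinates -/

open MeasureTheory Complex Set
open scoped ENNReal NNReal

set_option linter.all false

namespace Vale.Agent.P106.Q.FLT

open Vale.Agent.P106.G Vale.Agent.P106.Q

theorem slow_chain {C0 d : ℝ} {f : E3 → ℝ≥0∞} (hf : ∀ y y', ‖y - y'‖ ≤ d → f y ≤ ENNReal.ofReal C0 * f y')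
    (m : ℕ) : ∀ y y', ‖y - y'‖ ≤ m * d → f y ≤ ENNReal.ofReal C0 ^ m * f y' := by
  induction m with
  | zero =>
    intro y y' h
    simp at h
    have : y = y' := by rwa [sub_eq_zero] at h
    rw [this]; simp
  | succ m ih =>
    intro y y' h
    have hm : (0:ℝ) < (m:ℝ) + 1 := by positivity
    push_cast at h
    set y2 : E3 := y' + ((m:ℝ) / (m + 1)) • (y - y') with hy2
    have h1 : ‖y2 - y'‖ ≤ m * d := by
      rw [hy2, add_sub_cancel_left, norm_smul, Real.norm_eq_abs, abs_of_nonneg (by positivity)]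
      calc (m:ℝ) / (m + 1) * ‖y - y'‖ ≤ (m:ℝ) / (m + 1) * ((m + 1) * d) := by gcongr
        _ = m * d := by field_simp
    have h2 : ‖y - y2‖ ≤ d := by
      have e : y - y2 = ((1:ℝ) / (m + 1)) • (y - y') := by
        rw [hy2]
        have : (1:ℝ) / (m + 1) = 1 - (m:ℝ) / (m + 1) := by field_simp; ring
        rw [this, sub_smul, one_smul]
        abel
      rw [e, norm_smul, Real.norm_eq_abs, abs_of_nonneg (by positivity)]
      calc (1:ℝ) / (m + 1) * ‖y - y'‖ ≤ (1:ℝ) / (m + 1) * ((m + 1) * d) := by gcongr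
        _ = d := by field_simp
    calc f y ≤ ENNReal.ofReal C0 * f y2 := hf _ _ h2
      _ ≤ ENNReal.ofReal C0 * (ENNReal.ofReal C0 ^ m * f y') := by gcongr; exact ih _ _ h1
      _ = ENNReal.ofReal C0 ^ (m + 1) * f y' := by rw [pow_succ]; ring

/-- derivative of the velocity -/
noncomputable def dl (H : Hyp) (v1 v2 w1 w2 : ℝ) : ℝ := (2 * H.s * v1 - 2 * H.q1) * w1 + (2 * H.s * v2 - 2 * H.q2) * w2

noncomputable def dv (H : Hyp) (v1 v2 w1 w2 : ℝ) : E3 :=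
  !₂[(2 * v1 * w1 + 2 * v2 * w2) / H.m v1 v2 - (v1 ^ 2 + v2 ^ 2) * dl H v1 v2 w1 w2 / H.m v1 v2 ^ 2,
    (-2 * w1) / H.m v1 v2 - (-2 * v1) * dl H v1 v2 w1 w2 / H.m v1 v2 ^ 2,
    (-2 * w2) / H.m v1 v2 - (-2 * v2) * dl H v1 v2 w1 w2 / H.m v1 v2 ^ 2]

theorem tay_gen {p0 dp p2 m0 m1 l q δ : ℝ} (hm0 : 1 ≤ m0) (hm0' : m0 ≤ 2) (hm1 : 1 ≤ m1) (e : m1 = m0 + l + q)
    (h0 : |p0| ≤ 2) (h1 : |dp| ≤ 2 * δ) (h2 : |p2| ≤ δ ^ 2) (hl : |l| ≤ δ) (hq : |q| ≤ δ ^ 2 / 64)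
    (hlq : |l + q| ≤ δ) (hδ : 0 ≤ δ) :
    |(p0 + dp + p2) / m1 - p0 / m0 - (dp / m0 - p0 * l / m0 ^ 2)| ≤ 11 * δ ^ 2 := by
  have hm00 : 0 < m0 := by linarith
  have hm10 : 0 < m1 := by linarith
  have key : (p0 + dp + p2) / m1 - p0 / m0 - (dp / m0 - p0 * l / m0 ^ 2) =
      (-(p0 * m0 * q) - dp * m0 * (l + q) + p0 * l * (l + q) + p2 * m0 ^ 2) / (m0 ^ 2 * m1) := by
    have hm1' : m0 + l + q ≠ 0 := by rw [← e]; exact hm10.ne'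
    rw [e]
    field_simp
    ring
  rw [key, abs_div, abs_of_pos (by positivity : 0 < m0 ^ 2 * m1)]
  have hden : 1 ≤ m0 ^ 2 * m1 := by nlinarith [mul_le_mul hm0 hm0 zero_le_one (by linarith : (0:ℝ) ≤ m0)]
  refine (div_le_self (abs_nonneg _) hden).trans ?_
  have a1 : |p0 * m0 * q| ≤ 2 * 2 * (δ ^ 2 / 64) := by
    rw [abs_mul, abs_mul, abs_of_pos hm00]; gcongr
  have a2 : |dp * m0 * (l + q)| ≤ 2 * δ * 2 * δ := by
    rw [abs_mul, abs_mul, abs_of_pos hm00]; gcongr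
  have a3 : |p0 * l * (l + q)| ≤ 2 * δ * δ := by
    rw [abs_mul, abs_mul]; gcongr
  have a4 : |p2 * m0 ^ 2| ≤ δ ^ 2 * 2 ^ 2 := by
    rw [abs_mul, abs_of_pos (by positivity : 0 < m0 ^ 2)]; gcongr
  have b1 := abs_add_le (-(p0 * m0 * q) - dp * m0 * (l + q) + p0 * l * (l + q)) (p2 * m0 ^ 2)
  have b2 := abs_add_le (-(p0 * m0 * q) - dp * m0 * (l + q)) (p0 * l * (l + q))
  have b3 := abs_sub (-(p0 * m0 * q)) (dp * m0 * (l + q))
  rw [abs_neg] at b3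
  nlinarith [sq_nonneg δ]

theorem vel_tay {H : Hyp} (hH : H.ok2) {v1 v2 w1 w2 : ℝ} (a1 : 0 ≤ v1) (a1' : v1 ≤ 1) (a2 : 0 ≤ v2) (a2' : v2 ≤ 1)
    (b1 : 0 ≤ v1 + w1) (b1' : v1 + w1 ≤ 1) (b2 : 0 ≤ v2 + w2) (b2' : v2 + w2 ≤ 1) :
    ‖H.vel (v1 + w1) (v2 + w2) - H.vel v1 v2 - dv H v1 v2 w1 w2‖ ≤ 33 * (|w1| + |w2|) ^ 2 := by
  obtain ⟨s0, s1, q1, q2, D0, D1⟩ := hH.ok.bd
  have hm := hH.m_bd a1 a1' a2 a2'
  have hm' := hH.m_bd b1 b1' b2 b2'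
  set δ := |w1| + |w2| with hδ
  have e1 : |w1| ≤ δ := by rw [hδ]; linarith [abs_nonneg w2]
  have e2 : |w2| ≤ δ := by rw [hδ]; linarith [abs_nonneg w1]
  have hδ0 : 0 ≤ δ := by positivity
  set q := H.s * (w1 ^ 2 + w2 ^ 2) with hq
  set l := dl H v1 v2 w1 w2 with hl
  have em : H.m (v1 + w1) (v2 + w2) = H.m v1 v2 + l + q := by
    rw [hl, hq]; unfold Hyp.m dl; ring
  have hw : w1 ^ 2 + w2 ^ 2 ≤ δ ^ 2 := by
    rw [hδ, ← sq_abs w1, ← sq_abs w2]; nlinarith [abs_nonneg w1, abs_nonneg w2]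
  have hqb : |q| ≤ δ ^ 2 / 64 := by
    rw [hq, abs_mul, abs_of_pos s0, abs_of_nonneg (by positivity : 0 ≤ w1 ^ 2 + w2 ^ 2)]
    calc H.s * (w1 ^ 2 + w2 ^ 2) ≤ 1/64 * δ ^ 2 := mul_le_mul s1 hw (by positivity) (by norm_num)
      _ = δ ^ 2 / 64 := by ring
  have c1 : |2 * H.s * v1 - 2 * H.q1| ≤ 1/2 := by
    refine (abs_sub _ _).trans ?_
    have x1 : |2 * H.s * v1| ≤ 2 * (1/64) * 1 := by
      rw [abs_mul, abs_mul, abs_two, abs_of_pos s0, abs_of_nonneg a1]; gcongr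
    have x2 : |2 * H.q1| ≤ 2 * (1/16) := by rw [abs_mul, abs_two]; gcongr
    linarith
  have c2 : |2 * H.s * v2 - 2 * H.q2| ≤ 1/2 := by
    refine (abs_sub _ _).trans ?_
    have x1 : |2 * H.s * v2| ≤ 2 * (1/64) * 1 := by
      rw [abs_mul, abs_mul, abs_two, abs_of_pos s0, abs_of_nonneg a2]; gcongr
    have x2 : |2 * H.q2| ≤ 2 * (1/16) := by rw [abs_mul, abs_two]; gcongr
    linarith
  have hlb : |l| ≤ δ / 2 := by
    rw [hl]; unfold dl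
    refine (abs_add_le _ _).trans ?_
    rw [abs_mul, abs_mul]
    calc |2 * H.s * v1 - 2 * H.q1| * |w1| + |2 * H.s * v2 - 2 * H.q2| * |w2| ≤ 1/2 * |w1| + 1/2 * |w2| := by gcongr
      _ = δ / 2 := by rw [hδ]; ring
  have hw1 : |w1| ≤ 1 := by rw [abs_le]; constructor <;> linarith
  have hw2 : |w2| ≤ 1 := by rw [abs_le]; constructor <;> linarith
  have hδ2 : δ ≤ 2 := by rw [hδ]; linarith
  have hlq : |l + q| ≤ δ := by
    refine (abs_add_le _ _).trans ?_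
    nlinarith
  have dp0 : |2 * v1 * w1 + 2 * v2 * w2| ≤ 2 * δ := by
    refine (abs_add_le _ _).trans ?_
    rw [abs_mul, abs_mul, abs_mul, abs_mul, abs_two, abs_of_nonneg a1, abs_of_nonneg a2]
    have x1 : 2 * v1 * |w1| ≤ 2 * 1 * |w1| := by gcongr
    have x2 : 2 * v2 * |w2| ≤ 2 * 1 * |w2| := by gcongr
    rw [hδ]; linarith
  refine (norm3_le1 _).trans ?_
  have f0 : |(H.vel (v1 + w1) (v2 + w2) - H.vel v1 v2 - dv H v1 v2 w1 w2) 0| ≤ 11 * δ ^ 2 := by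
    have : (H.vel (v1 + w1) (v2 + w2) - H.vel v1 v2 - dv H v1 v2 w1 w2) 0 =
        ((v1 ^ 2 + v2 ^ 2) + (2 * v1 * w1 + 2 * v2 * w2) + (w1 ^ 2 + w2 ^ 2)) / H.m (v1 + w1) (v2 + w2) -
        (v1 ^ 2 + v2 ^ 2) / H.m v1 v2 - ((2 * v1 * w1 + 2 * v2 * w2) / H.m v1 v2 - (v1 ^ 2 + v2 ^ 2) * l / H.m v1 v2 ^ 2) := by
      have e : (v1 + w1) ^ 2 + (v2 + w2) ^ 2 = (v1 ^ 2 + v2 ^ 2) + (2 * v1 * w1 + 2 * v2 * w2) + (w1 ^ 2 + w2 ^ 2) := by ring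
      simp [Hyp.vel, dv, ← hl, ← e]
    rw [this]
    refine tay_gen hm.1 hm.2 hm'.1 em ?_ dp0 ?_ (hlb.trans (by linarith)) hqb hlq hδ0
    · rw [abs_of_nonneg (by positivity)]; nlinarith
    · rw [abs_of_nonneg (by positivity)]; exact hw
  have f1 : |(H.vel (v1 + w1) (v2 + w2) - H.vel v1 v2 - dv H v1 v2 w1 w2) 1| ≤ 11 * δ ^ 2 := by
    have : (H.vel (v1 + w1) (v2 + w2) - H.vel v1 v2 - dv H v1 v2 w1 w2) 1 =
        ((-2 * v1) + (-2 * w1) + 0) / H.m (v1 + w1) (v2 + w2) -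
        (-2 * v1) / H.m v1 v2 - ((-2 * w1) / H.m v1 v2 - (-2 * v1) * l / H.m v1 v2 ^ 2) := by
      have e : -2 * (v1 + w1) = -2 * v1 + -2 * w1 + 0 := by ring
      simp only [Hyp.vel, dv, ← hl, ← e, PiLp.sub_apply]
      simp
    rw [this]
    refine tay_gen hm.1 hm.2 hm'.1 em ?_ ?_ ?_ (hlb.trans (by linarith)) hqb hlq hδ0
    · rw [abs_mul, abs_neg, abs_two, abs_of_nonneg a1]; linarith
    · rw [abs_mul, abs_neg, abs_two]; gcongr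
    · rw [abs_zero]; positivity
  have f2 : |(H.vel (v1 + w1) (v2 + w2) - H.vel v1 v2 - dv H v1 v2 w1 w2) 2| ≤ 11 * δ ^ 2 := by
    have : (H.vel (v1 + w1) (v2 + w2) - H.vel v1 v2 - dv H v1 v2 w1 w2) 2 =
        ((-2 * v2) + (-2 * w2) + 0) / H.m (v1 + w1) (v2 + w2) -
        (-2 * v2) / H.m v1 v2 - ((-2 * w2) / H.m v1 v2 - (-2 * v2) * l / H.m v1 v2 ^ 2) := by
      have e : -2 * (v2 + w2) = -2 * v2 + -2 * w2 + 0 := by ring
      simp only [Hyp.vel, dv, ← hl, ← e, PiLp.sub_apply]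
      simp
    rw [this]
    refine tay_gen hm.1 hm.2 hm'.1 em ?_ ?_ ?_ (hlb.trans (by linarith)) hqb hlq hδ0
    · rw [abs_mul, abs_neg, abs_two, abs_of_nonneg a2]; linarith
    · rw [abs_mul, abs_neg, abs_two]; gcongr
    · rw [abs_zero]; positivity
  linarith

/-- size of the derivative -/
theorem dv_le {H : Hyp} (hH : H.ok2) {v1 v2 w1 w2 : ℝ} (a1 : 0 ≤ v1) (a1' : v1 ≤ 1) (a2 : 0 ≤ v2) (a2' : v2 ≤ 1) :
    ‖dv H v1 v2 w1 w2‖ ≤ 9 * (|w1| + |w2|) := by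
  obtain ⟨s0, s1, q1, q2, D0, D1⟩ := hH.ok.bd
  have hm := hH.m_bd a1 a1' a2 a2'
  set δ := |w1| + |w2| with hδ
  have e1 : |w1| ≤ δ := by rw [hδ]; linarith [abs_nonneg w2]
  have e2 : |w2| ≤ δ := by rw [hδ]; linarith [abs_nonneg w1]
  have hδ0 : 0 ≤ δ := by positivity
  have c1 : |2 * H.s * v1 - 2 * H.q1| ≤ 1/2 := by
    refine (abs_sub _ _).trans ?_
    have x1 : |2 * H.s * v1| ≤ 2 * (1/64) * 1 := by
      rw [abs_mul, abs_mul, abs_two, abs_of_pos s0, abs_of_nonneg a1]; gcongr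
    have x2 : |2 * H.q1| ≤ 2 * (1/16) := by rw [abs_mul, abs_two]; gcongr
    linarith
  have c2 : |2 * H.s * v2 - 2 * H.q2| ≤ 1/2 := by
    refine (abs_sub _ _).trans ?_
    have x1 : |2 * H.s * v2| ≤ 2 * (1/64) * 1 := by
      rw [abs_mul, abs_mul, abs_two, abs_of_pos s0, abs_of_nonneg a2]; gcongr
    have x2 : |2 * H.q2| ≤ 2 * (1/16) := by rw [abs_mul, abs_two]; gcongr
    linarith
  set l := dl H v1 v2 w1 w2 with hl
  have hlb : |l| ≤ δ / 2 := by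
    rw [hl]; unfold dl
    refine (abs_add_le _ _).trans ?_
    rw [abs_mul, abs_mul]
    calc |2 * H.s * v1 - 2 * H.q1| * |w1| + |2 * H.s * v2 - 2 * H.q2| * |w2| ≤ 1/2 * |w1| + 1/2 * |w2| := by gcongr
      _ = δ / 2 := by rw [hδ]; ring
  have gen : ∀ p0 dp : ℝ, |p0| ≤ 2 → |dp| ≤ 2 * δ → |dp / H.m v1 v2 - p0 * l / H.m v1 v2 ^ 2| ≤ 3 * δ := by
    intro p0 dp h0 h1
    refine (abs_sub _ _).trans ?_
    have x1 : |dp / H.m v1 v2| ≤ 2 * δ := by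
      rw [abs_div, abs_of_pos (by linarith : 0 < H.m v1 v2)]
      exact (div_le_self (abs_nonneg _) hm.1).trans h1
    have x2 : |p0 * l / H.m v1 v2 ^ 2| ≤ δ := by
      rw [abs_div, abs_of_pos (by nlinarith : 0 < H.m v1 v2 ^ 2)]
      refine (div_le_self (abs_nonneg _) (by nlinarith)).trans ?_
      rw [abs_mul]
      calc |p0| * |l| ≤ 2 * (δ / 2) := by gcongr
        _ = δ := by ring
    linarith
  refine (norm3_le1 _).trans ?_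
  have f0 : |(dv H v1 v2 w1 w2) 0| ≤ 3 * δ := by
    refine gen (v1 ^ 2 + v2 ^ 2) (2 * v1 * w1 + 2 * v2 * w2) ?_ ?_
    · rw [abs_of_nonneg (by positivity)]; nlinarith
    · refine (abs_add_le _ _).trans ?_
      rw [abs_mul, abs_mul, abs_mul, abs_mul, abs_two, abs_of_nonneg a1, abs_of_nonneg a2]
      have x1 : 2 * v1 * |w1| ≤ 2 * 1 * |w1| := by gcongr
      have x2 : 2 * v2 * |w2| ≤ 2 * 1 * |w2| := by gcongr
      rw [hδ]; linarith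
  have f1 : |(dv H v1 v2 w1 w2) 1| ≤ 3 * δ := by
    refine gen (-2 * v1) (-2 * w1) ?_ ?_
    · rw [abs_mul, abs_neg, abs_two, abs_of_nonneg a1]; linarith
    · rw [abs_mul, abs_neg, abs_two]; gcongr
  have f2 : |(dv H v1 v2 w1 w2) 2| ≤ 3 * δ := by
    refine gen (-2 * v2) (-2 * w2) ?_ ?_
    · rw [abs_mul, abs_neg, abs_two, abs_of_nonneg a2]; linarith
    · rw [abs_mul, abs_neg, abs_two]; gcongr
  linarith

theorem dv_lin (H : Hyp) (v1 v2 a b w1 w2 u1 u2 : ℝ) :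
    dv H v1 v2 (a * w1 - b * u1) (a * w2 - b * u2) = a • dv H v1 v2 w1 w2 - b • dv H v1 v2 u1 u2 := by
  apply ext3
  · simp [dv, dl]; ring
  · simp [dv, dl]; ring
  · simp [dv, dl]; ring

/-- coordinates: `h` along the zeroth axis, `s` in the plane of the directions -/
noncomputable def pA (H : Hyp) (v1 v2 l h : ℝ) (s : ℝ × ℝ) : E3 := !₂[h, 0, 0] + l • dv H v1 v2 s.1 s.2

noncomputable def mA (H : Hyp) (v1 v2 l : ℝ) : Matrix (Fin 3) (Fin 3) ℝ :=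
  !![1, l * dv H v1 v2 1 0 0, l * dv H v1 v2 0 1 0;
    0, l * dv H v1 v2 1 0 1, l * dv H v1 v2 0 1 1;
    0, l * dv H v1 v2 1 0 2, l * dv H v1 v2 0 1 2]

theorem mA_det (H : Hyp) {v1 v2 : ℝ} (l : ℝ) (hm : H.m v1 v2 ≠ 0) :
    (mA H v1 v2 l).det = l ^ 2 * (4 * (1 - H.s * (v1 ^ 2 + v2 ^ 2)) / H.m v1 v2 ^ 3) := by
  unfold mA
  rw [Matrix.det_fin_three]
  simp [dv, dl]
  field_simp
  unfold Hyp.m
  ring

theorem mA_det_ne {H : Hyp} (hH : H.ok2) {v1 v2 l : ℝ} (a1 : 0 ≤ v1) (a1' : v1 ≤ 1) (a2 : 0 ≤ v2) (a2' : v2 ≤ 1)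
    (hl : l ≠ 0) : (mA H v1 v2 l).det ≠ 0 := by
  obtain ⟨s0, s1, q1, q2, D0, D1⟩ := hH.ok.bd
  have hm := hH.m_bd a1 a1' a2 a2'
  have hm0 : H.m v1 v2 ≠ 0 := by linarith
  rw [mA_det H l hm0]
  have : 0 < 1 - H.s * (v1 ^ 2 + v2 ^ 2) := by nlinarith
  positivity

theorem mat3_mA (H : Hyp) (v1 v2 l : ℝ) (h s1 s2 : ℝ) : mat3 (mA H v1 v2 l) !₂[h, s1, s2] = pA H v1 v2 l h (s1, s2) := by
  apply ext3
  · rw [mat3_apply]; simp [mA, pA, dv, dl]; ring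
  · rw [mat3_apply]; simp [mA, pA, dv, dl]; ring
  · rw [mat3_apply]; simp [mA, pA, dv, dl]; ring

theorem lint_pA_aux {A : Matrix (Fin 3) (Fin 3) ℝ} (hd : A.det ≠ 0) {F : E3 → ℝ≥0∞} (hF : Measurable F) :
    ∫⁻ y, F y = ENNReal.ofReal |A.det| * ∫⁻ a : ℝ, ∫⁻ b : ℝ, ∫⁻ c : ℝ, F (mat3 A !₂[a, b, c]) := by
  have h1 := lintegral_mat3 hd F
  have mF : Measurable fun y => F (mat3 A y) := hF.comp (mat3_cont _).measurable
  have h3 := lint3 mF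
  have h4 : ∫⁻ a : ℝ, ∫⁻ b : ℝ, ∫⁻ c : ℝ, F (mat3 A !₂[a, b, c]) = ENNReal.ofReal |A.det⁻¹| * ∫⁻ y, F y := h3.symm.trans h1
  rw [h4, ← mul_assoc, ← ENNReal.ofReal_mul (abs_nonneg _), ← abs_mul, mul_inv_cancel₀ hd, abs_one, ENNReal.ofReal_one, one_mul]

theorem lint_pA_aux2 {A : Matrix (Fin 3) (Fin 3) ℝ} {F : E3 → ℝ≥0∞} (hF : Measurable F) (a : ℝ) :
    ∫⁻ b : ℝ, ∫⁻ c : ℝ, F (mat3 A !₂[a, b, c]) = ∫⁻ s : ℝ × ℝ, F (mat3 A !₂[a, s.1, s.2]) := by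
  have mF : Measurable fun y => F (mat3 A y) := hF.comp (mat3_cont _).measurable
  have mg : Measurable fun s : ℝ × ℝ => (!₂[a, s.1, s.2] : E3) := measurable_mk3.comp (measurable_prodMk_left (x := a))
  have m2 : Measurable fun s : ℝ × ℝ => F (mat3 A !₂[a, s.1, s.2]) := mF.comp mg
  have h := lintegral_prod (μ := (volume : Measure ℝ)) (ν := (volume : Measure ℝ))
    (fun s : ℝ × ℝ => F (mat3 A !₂[a, s.1, s.2])) m2.aemeasurable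
  rw [← Measure.volume_eq_prod] at h
  rw [h]

theorem lint_pA {H : Hyp} (hH : H.ok2) {v1 v2 l : ℝ} (a1 : 0 ≤ v1) (a1' : v1 ≤ 1) (a2 : 0 ≤ v2) (a2' : v2 ≤ 1)
    (hl : l ≠ 0) {F : E3 → ℝ≥0∞} (hF : Measurable F) :
    ∫⁻ y, F y = ENNReal.ofReal |(mA H v1 v2 l).det| * ∫⁻ h : ℝ, ∫⁻ s : ℝ × ℝ, F (pA H v1 v2 l h s) := by
  rw [lint_pA_aux (mA_det_ne hH a1 a1' a2 a2' hl) hF]
  congr 1
  refine lintegral_congr fun a => ?_
  rw [lint_pA_aux2 hF a]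
  refine lintegral_congr fun s => ?_
  rw [mat3_mA]

theorem measurable_pA (H : Hyp) (v1 v2 l : ℝ) : Measurable fun p : ℝ × (ℝ × ℝ) => pA H v1 v2 l p.1 p.2 := by
  have : (fun p : ℝ × (ℝ × ℝ) => pA H v1 v2 l p.1 p.2) = fun p => mat3 (mA H v1 v2 l) !₂[p.1, p.2.1, p.2.2] := by
    ext1 p; rw [mat3_mA]
  rw [this]
  exact (mat3_cont _).measurable.comp measurable_mk3

end Vale.Agent.P106.Q.FLT
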