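import Vale.Agent.P106.Q.FLTA

/-! # P106 / Q : block FLT (helper786). Reduction to the plane -/

open MeasureTheory Complex Set
open scoped ENNReal NNReal

set_option linter.all false

namespace Vale.Agent.P106.Q.FLT

open Vale.Agent.P106.G Vale.Agent.P106.Q

theorem slab_meas (H : Hyp) (a b : ℝ) : MeasurableSet {z : E4 | a ≤ H.tm z ∧ H.tm z ≤ b} :=
  (measurableSet_le measurable_const (continuous_tm H).measurable).inter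
      (measurableSet_le (continuous_tm H).measurable measurable_const)

theorem slab_lint (H : Hyp) {F : E4 → ℝ≥0∞} (hF : Measurable F) (a b : ℝ) :
    ∫⁻ z in {z : E4 | a ≤ H.tm z ∧ H.tm z ≤ b}, F z = ∫⁻ t in Icc a b, ∫⁻ y, F (H.zt t y) := by
  have mS := slab_meas H a b
  rw [← lintegral_indicator mS, lint_zt H (hF.indicator mS), ← lintegral_indicator measurableSet_Icc]
  refine lintegral_congr fun t => ?_
  by_cases ht : t ∈ Icc a b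
  · rw [indicator_of_mem ht]
    refine lintegral_congr fun y => ?_
    rw [indicator_of_mem]
    show a ≤ H.tm (H.zt t y) ∧ H.tm (H.zt t y) ≤ b
    rw [tm_zt]; exact ht
  · rw [indicator_of_notMem ht]
    have : ∀ y, {z : E4 | a ≤ H.tm z ∧ H.tm z ≤ b}.indicator F (H.zt t y) = 0 := by
      intro y
      apply indicator_of_notMem
      show ¬ (a ≤ H.tm (H.zt t y) ∧ H.tm (H.zt t y) ≤ b)
      rw [tm_zt]; exact ht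
    simp_rw [this]
    simp

theorem mem_capN {N : ℕ} {a1 a2 σ : ℝ} {k : ℤ × ℤ} : k ∈ capN N a1 a2 σ ↔
    k ∈ grd N ∧ (a1 ≤ (k.1:ℝ) / N ∧ (k.1:ℝ) / N < a1 + σ) ∧ (a2 ≤ (k.2:ℝ) / N ∧ (k.2:ℝ) / N < a2 + σ) := by
  unfold capN
  simp only [Finset.mem_filter]

theorem measurable_Wc (H : Hyp) (N : ℕ) {ν : ℤ × ℤ → E3 → ℝ≥0∞} (hν : ∀ k, Measurable (ν k)) (a1 a2 σ : ℝ) :
    Measurable (Wc H N ν a1 a2 σ) := by
  unfold Wc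
  exact Finset.measurable_sum _ fun k _ => (hν k).comp (cont_bp H _ _).measurable

/-- corner of the cap -/
noncomputable def kc (N : ℕ) (a1 a2 : ℝ) : ℤ × ℤ := (⌈(N:ℝ) * a1⌉, ⌈(N:ℝ) * a2⌉)

theorem kc_facts {N : ℕ} (hN : 1 ≤ N) {a1 a2 σ : ℝ} (ha1 : 0 ≤ a1) (ha2 : 0 ≤ a2) {k : ℤ × ℤ} (hk : k ∈ capN N a1 a2 σ) :
    ((kc N a1 a2).1 ≤ k.1 ∧ (kc N a1 a2).2 ≤ k.2) ∧ (0 ≤ (kc N a1 a2).1 ∧ 0 ≤ (kc N a1 a2).2) ∧
    ((k.1:ℝ) - (kc N a1 a2).1 < N * σ ∧ (k.2:ℝ) - (kc N a1 a2).2 < N * σ) ∧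
    ((0 ≤ ((kc N a1 a2).1:ℝ) / N ∧ ((kc N a1 a2).1:ℝ) / N ≤ 1) ∧ (0 ≤ ((kc N a1 a2).2:ℝ) / N ∧ ((kc N a1 a2).2:ℝ) / N ≤ 1)) ∧
    ((0 ≤ (k.1:ℝ) / N ∧ (k.1:ℝ) / N ≤ 1) ∧ (0 ≤ (k.2:ℝ) / N ∧ (k.2:ℝ) / N ≤ 1)) := by
  obtain ⟨hg, ⟨h1, h1'⟩, ⟨h2, h2'⟩⟩ := mem_capN.1 hk
  have hN0 : (0:ℝ) < N := by exact_mod_cast hN
  obtain ⟨g1, g2, g3, g4⟩ := grd_bd hg
  have l1 : (N:ℝ) * a1 ≤ k.1 := by rw [le_div_iff₀ hN0] at h1; linarith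
  have l2 : (N:ℝ) * a2 ≤ k.2 := by rw [le_div_iff₀ hN0] at h2; linarith
  have u1 : (k.1:ℝ) < N * a1 + N * σ := by rw [div_lt_iff₀ hN0] at h1'; linarith
  have u2 : (k.2:ℝ) < N * a2 + N * σ := by rw [div_lt_iff₀ hN0] at h2'; linarith
  have c1 : (kc N a1 a2).1 ≤ k.1 := Int.ceil_le.2 l1
  have c2 : (kc N a1 a2).2 ≤ k.2 := Int.ceil_le.2 l2
  have n1 : 0 ≤ (kc N a1 a2).1 := Int.ceil_nonneg (by positivity)
  have n2 : 0 ≤ (kc N a1 a2).2 := Int.ceil_nonneg (by positivity)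
  have e1 : (N:ℝ) * a1 ≤ (kc N a1 a2).1 := Int.le_ceil _
  have e2 : (N:ℝ) * a2 ≤ (kc N a1 a2).2 := Int.le_ceil _
  have c1r : ((kc N a1 a2).1:ℝ) ≤ k.1 := by exact_mod_cast c1
  have c2r : ((kc N a1 a2).2:ℝ) ≤ k.2 := by exact_mod_cast c2
  have n1r : (0:ℝ) ≤ (kc N a1 a2).1 := by exact_mod_cast n1
  have n2r : (0:ℝ) ≤ (kc N a1 a2).2 := by exact_mod_cast n2
  refine ⟨⟨c1, c2⟩, ⟨n1, n2⟩, ⟨by linarith, by linarith⟩, ⟨⟨by positivity, ?_⟩, ⟨by positivity, ?_⟩⟩, ⟨g1, g2⟩, ⟨g3, g4⟩⟩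
  · exact (div_le_div_of_nonneg_right c1r hN0.le).trans g2
  · exact (div_le_div_of_nonneg_right c2r hN0.le).trans g4

/-- direction offset of the cap `k`, integer units -/
noncomputable def ju (N : ℕ) (a1 a2 : ℝ) (k : ℤ × ℤ) : ℝ × ℝ := ((k.1:ℝ) - (kc N a1 a2).1, (k.2:ℝ) - (kc N a1 a2).2)

/-- linearised transport -/
noncomputable def Gl (H : Hyp) (N : ℕ) (ν : ℤ × ℤ → E3 → ℝ≥0∞) (a1 a2 σ t : ℝ) (y : E3) : ℝ≥0∞ :=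
  ∑ k ∈ capN N a1 a2 σ, ν k (y - (t / N) • dv H ((kc N a1 a2).1 / N) ((kc N a1 a2).2 / N) (ju N a1 a2 k).1 (ju N a1 a2 k).2)

theorem dv_smul (H : Hyp) (v1 v2 a w1 w2 : ℝ) : dv H v1 v2 (a * w1) (a * w2) = a • dv H v1 v2 w1 w2 := by
  have := dv_lin H v1 v2 a 0 w1 w2 0 0
  simpa using this

theorem Wc_le {B C0 B1 R D : ℝ} {N : ℕ} {H : Hyp} {ν : ℤ × ℤ → E3 → ℝ≥0∞} (hD : DenR B C0 N R D H ν)
    {a1 a2 σ : ℝ} (hσ : 0 < σ) (ha1 : 0 ≤ a1) (ha2 : 0 ≤ a2) (hB1 : N * σ ^ 2 ≤ B1) {m : ℕ} (hm : 528 * B1 ≤ m)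
    {t : ℝ} (ht : t ∈ Icc (R / 2) (4 * R)) (y : E3) :
    Wc H N ν a1 a2 σ (H.zt t y) ≤ ENNReal.ofReal C0 ^ m *
      Gl H N ν a1 a2 σ t (y - t • H.vel ((kc N a1 a2).1 / N) ((kc N a1 a2).2 / N)) := by
  obtain ⟨N1, R1, R2, ok, D0, meas, slow, sum, fin⟩ := hD
  have hN0 : (0:ℝ) < N := by exact_mod_cast N1
  have hR0 : 0 < R := by nlinarith [sq_nonneg (N:ℝ), pow_pos hN0 2]
  have ht0 : 0 ≤ t := by have := ht.1; linarith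
  unfold Wc Gl
  rw [Finset.mul_sum]
  refine Finset.sum_le_sum fun k hk => ?_
  obtain ⟨⟨c1, c2⟩, ⟨n1, n2⟩, ⟨u1, u2⟩, ⟨⟨p1, p1'⟩, ⟨p2, p2'⟩⟩, ⟨g1, g2⟩, ⟨g3, g4⟩⟩ := kc_facts N1 ha1 ha2 hk
  set K := kc N a1 a2 with hK
  have c1r : (K.1:ℝ) ≤ k.1 := by exact_mod_cast c1
  have c2r : (K.2:ℝ) ≤ k.2 := by exact_mod_cast c2
  rw [bp_zt]
  refine slow_chain (slow k) m _ _ ?_
  set w1 : ℝ := ((k.1:ℝ) - K.1) / N with hw1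
  set w2 : ℝ := ((k.2:ℝ) - K.2) / N with hw2
  have e1 : (k.1:ℝ) / N = K.1 / N + w1 := by rw [hw1]; ring
  have e2 : (k.2:ℝ) / N = K.2 / N + w2 := by rw [hw2]; ring
  have hw10 : 0 ≤ w1 := div_nonneg (by linarith) hN0.le
  have hw20 : 0 ≤ w2 := div_nonneg (by linarith) hN0.le
  have hw1s : w1 ≤ σ := by rw [hw1, div_le_iff₀ hN0]; nlinarith
  have hw2s : w2 ≤ σ := by rw [hw2, div_le_iff₀ hN0]; nlinarith
  have ed : (t / N) • dv H (K.1 / N) (K.2 / N) (ju N a1 a2 k).1 (ju N a1 a2 k).2 = t • dv H (K.1 / N) (K.2 / N) w1 w2 := by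
    have : w1 = (1 / N : ℝ) * (ju N a1 a2 k).1 := by rw [hw1]; unfold ju; simp only; ring
    rw [this]
    have : w2 = (1 / N : ℝ) * (ju N a1 a2 k).2 := by rw [hw2]; unfold ju; simp only; ring
    rw [this, dv_smul, smul_smul]
    congr 1
    ring
  rw [ed, e1, e2]
  have e3 : y - t • H.vel (K.1 / N + w1) (K.2 / N + w2) - (y - t • H.vel (K.1 / N) (K.2 / N) -
      t • dv H (K.1 / N) (K.2 / N) w1 w2) =
      -(t • (H.vel (K.1 / N + w1) (K.2 / N + w2) - H.vel (K.1 / N) (K.2 / N) - dv H (K.1 / N) (K.2 / N) w1 w2)) := by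
    rw [smul_sub, smul_sub]; abel
  rw [e3, norm_neg, norm_smul, Real.norm_eq_abs, abs_of_nonneg ht0]
  have hT := vel_tay ok (v1 := K.1 / N) (v2 := K.2 / N) (w1 := w1) (w2 := w2) p1 p1' p2 p2'
    (by rw [← e1]; exact g1) (by rw [← e1]; exact g2) (by rw [← e2]; exact g3) (by rw [← e2]; exact g4)
  rw [abs_of_nonneg hw10, abs_of_nonneg hw20] at hT
  have hs : (w1 + w2) ^ 2 ≤ (2 * σ) ^ 2 := pow_le_pow_left₀ (by positivity) (by linarith) 2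
  calc t * ‖H.vel (K.1 / N + w1) (K.2 / N + w2) - H.vel (K.1 / N) (K.2 / N) - dv H (K.1 / N) (K.2 / N) w1 w2‖
      ≤ (4 * R) * (33 * (2 * σ) ^ 2) := by
        apply mul_le_mul ht.2 (hT.trans (by linarith)) (norm_nonneg _) (by positivity)
    _ = 528 * (N * σ ^ 2) * (R / N) := by field_simp; ring
    _ ≤ 528 * B1 * (R / N) := by gcongr
    _ ≤ m * (R / N) := by gcongr

end Vale.Agent.P106.Q.FLT
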