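import Vale.Agent.P106.Q.FLTB

/-! # P106 / Q : block FLT (helper786). The plane problem -/

open MeasureTheory Complex Set
open scoped ENNReal NNReal

set_option linter.all false

namespace Vale.Agent.P106.Q.FLT

open Vale.Agent.P106.G Vale.Agent.P106.Q

theorem sum_shift {cap G : Finset (ℤ × ℤ)} {K : ℤ × ℤ} (h : ∀ k ∈ cap, k - K ∈ G) (f : ℤ × ℤ → ℝ≥0∞) [DecidablePred fun j => K + j ∈ cap] :
    ∑ j ∈ G, (if K + j ∈ cap then f (K + j) else 0) = ∑ k ∈ cap, f k := by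
  rw [← Finset.sum_filter]
  refine Finset.sum_nbij' (fun j => K + j) (fun k => k - K) ?_ ?_ ?_ ?_ ?_
  · intro j hj; exact (Finset.mem_filter.1 hj).2
  · intro k hk
    rw [Finset.mem_filter]
    refine ⟨h k hk, ?_⟩
    rw [add_sub_cancel]; exact hk
  · intro j hj; simp
  · intro k hk; simp
  · intro j hj; rfl

theorem mem_grd {N : ℕ} {k : ℤ × ℤ} : k ∈ grd N ↔ (0 ≤ k.1 ∧ k.1 < N) ∧ (0 ≤ k.2 ∧ k.2 < N) := by
  unfold grd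
  simp [Finset.mem_product]

theorem shift_mem {N N' : ℕ} (hN : 1 ≤ N) {a1 a2 σ : ℝ} (ha1 : 0 ≤ a1) (ha2 : 0 ≤ a2) (hN' : N * σ ≤ N') {k : ℤ × ℤ}
    (hk : k ∈ capN N a1 a2 σ) : k - kc N a1 a2 ∈ grd N' := by
  obtain ⟨⟨c1, c2⟩, _, ⟨u1, u2⟩, _, _⟩ := kc_facts hN ha1 ha2 hk
  rw [mem_grd]
  have v1 : ((k.1:ℝ) - (kc N a1 a2).1) < N' := lt_of_lt_of_le u1 hN'
  have v2 : ((k.2:ℝ) - (kc N a1 a2).2) < N' := lt_of_lt_of_le u2 hN'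
  refine ⟨⟨?_, ?_⟩, ⟨?_, ?_⟩⟩
  · show 0 ≤ k.1 - (kc N a1 a2).1; omega
  · show k.1 - (kc N a1 a2).1 < N'; exact_mod_cast v1
  · show 0 ≤ k.2 - (kc N a1 a2).2; omega
  · show k.2 - (kc N a1 a2).2 < N'; exact_mod_cast v2

/-- densities of the plane problem -/
noncomputable def muh (H : Hyp) (N N' : ℕ) (D : ℝ) (ν : ℤ × ℤ → E3 → ℝ≥0∞) (a1 a2 σ R h : ℝ) (j : ℤ × ℤ) (s : ℝ × ℝ) : ℝ≥0∞ := by
  classical exact (if kc N a1 a2 + j ∈ capN N a1 a2 σ then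
    ((ENNReal.ofReal D)⁻¹ * ν (kc N a1 a2 + j) (pA H ((kc N a1 a2).1 / N) ((kc N a1 a2).2 / N) (R * N' / N) h s)) else 0)

theorem pA_sub (H : Hyp) (v1 v2 l h b c : ℝ) (s : ℝ × ℝ) (u1 u2 : ℝ) (hc : l * b = c) :
    pA H v1 v2 l h s - c • dv H v1 v2 u1 u2 = pA H v1 v2 l h (s.1 - b * u1, s.2 - b * u2) := by
  unfold pA
  have := dv_lin H v1 v2 1 b s.1 s.2 u1 u2
  simp only [one_mul, one_smul] at this
  simp only
  rw [this, smul_sub, smul_smul, hc]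
  abel

theorem Gl_pA {H : Hyp} {N N' : ℕ} (hN : 1 ≤ N) (hN1 : 1 ≤ N') {D R : ℝ} (hD : 0 < D) (hR : 0 < R) (ν : ℤ × ℤ → E3 → ℝ≥0∞)
    {a1 a2 σ : ℝ} (ha1 : 0 ≤ a1) (ha2 : 0 ≤ a2) (hN' : N * σ ≤ N') (t h : ℝ) (s : ℝ × ℝ) :
    Gl H N ν a1 a2 σ t (pA H ((kc N a1 a2).1 / N) ((kc N a1 a2).2 / N) (R * N' / N) h s) =
      ENNReal.ofReal D * Wf N' (muh H N N' D ν a1 a2 σ R h) (t / R) s := by
  classical
  set K := kc N a1 a2 with hK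
  have hN0 : (0:ℝ) < N := by exact_mod_cast hN
  have hN0' : (0:ℝ) < N' := by exact_mod_cast hN1
  have hD0 : ENNReal.ofReal D ≠ 0 := (ENNReal.ofReal_pos.2 hD).ne'
  set g : ℤ × ℤ → ℝ≥0∞ := fun k => ν k (pA H (K.1 / N) (K.2 / N) (R * N' / N) h
    (s.1 - t / R * (((k.1:ℝ) - K.1) / N'), s.2 - t / R * (((k.2:ℝ) - K.2) / N'))) with hg
  have h1 : Gl H N ν a1 a2 σ t (pA H (K.1 / N) (K.2 / N) (R * N' / N) h s) = ∑ k ∈ capN N a1 a2 σ, g k := by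
    unfold Gl
    refine Finset.sum_congr rfl fun k hk => ?_
    rw [hg]
    simp only [← hK]
    congr 1
    rw [pA_sub H (K.1 / N) (K.2 / N) (R * N' / N) h (t / (R * N')) (t / N) s _ _ (by field_simp)]
    congr 1
    unfold ju
    simp only [← hK]
    rw [Prod.mk.injEq]
    constructor
    · congr 1; field_simp
    · congr 1; field_simp
  have h2 : Wf N' (muh H N N' D ν a1 a2 σ R h) (t / R) s = ∑ j ∈ grd N', (if K + j ∈ capN N a1 a2 σ then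
      (ENNReal.ofReal D)⁻¹ * g (K + j) else 0) := by
    unfold Wf muh
    refine Finset.sum_congr rfl fun j hj => ?_
    simp only [← hK]
    by_cases hc : K + j ∈ capN N a1 a2 σ
    · rw [if_pos hc, if_pos hc, hg]
      simp only
      congr 4
      · rw [Prod.fst_add]; push_cast; ring
      · rw [Prod.snd_add]; push_cast; ring
    · rw [if_neg hc, if_neg hc]
  have h3 : ∑ j ∈ grd N', (if K + j ∈ capN N a1 a2 σ then (ENNReal.ofReal D)⁻¹ * g (K + j) else 0) =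
      ∑ k ∈ capN N a1 a2 σ, (ENNReal.ofReal D)⁻¹ * g k :=
    sum_shift (fun k hk => shift_mem hN ha1 ha2 hN' hk) (fun k => (ENNReal.ofReal D)⁻¹ * g k)
  rw [h1, h2, h3, ← Finset.mul_sum, ← mul_assoc,
    ENNReal.mul_inv_cancel hD0 ENNReal.ofReal_ne_top, one_mul]

theorem muh_meas {H : Hyp} {N N' : ℕ} {D : ℝ} {ν : ℤ × ℤ → E3 → ℝ≥0∞} (hν : ∀ k, Measurable (ν k)) (a1 a2 σ R : ℝ) (j : ℤ × ℤ) :
    Measurable fun p : ℝ × (ℝ × ℝ) => muh H N N' D ν a1 a2 σ R p.1 j p.2 := by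
  unfold muh
  by_cases hc : kc N a1 a2 + j ∈ capN N a1 a2 σ
  · simp only [if_pos hc]
    exact ((hν _).comp (measurable_pA H _ _ _)).const_mul _
  · simp only [if_neg hc]
    exact measurable_const

theorem muh_slow {B C0 R D : ℝ} {N N' : ℕ} {H : Hyp} {ν : ℤ × ℤ → E3 → ℝ≥0∞} (hD : DenR B C0 N R D H ν) (hN1 : 1 ≤ N')
    {a1 a2 σ : ℝ} (ha1 : 0 ≤ a1) (ha2 : 0 ≤ a2) (h : ℝ) (j : ℤ × ℤ) (s s' : ℝ × ℝ) (h1 : |s.1 - s'.1| ≤ 1 / (N':ℝ)) (h2 : |s.2 - s'.2| ≤ 1 / (N':ℝ)) :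
    muh H N N' D ν a1 a2 σ R h j s ≤ ENNReal.ofReal C0 ^ 18 * muh H N N' D ν a1 a2 σ R h j s' := by
  unfold muh
  have hN0 : (0:ℝ) < N := by exact_mod_cast hD.N1
  have hN0' : (0:ℝ) < N' := by exact_mod_cast hN1
  have hR0 : 0 < R := by have := hD.R1; nlinarith [pow_pos hN0 2]
  by_cases hc : kc N a1 a2 + j ∈ capN N a1 a2 σ
  · rw [if_pos hc, if_pos hc, mul_left_comm]
    refine mul_le_mul' le_rfl ?_
    obtain ⟨⟨c1, c2⟩, ⟨n1, n2⟩, ⟨u1, u2⟩, ⟨⟨p1, p1'⟩, ⟨p2, p2'⟩⟩, ⟨g1, g2⟩, ⟨g3, g4⟩⟩ := kc_facts hD.N1 ha1 ha2 hc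
    refine slow_chain (hD.slow _) 18 _ _ ?_
    have e : pA H ((kc N a1 a2).1 / N) ((kc N a1 a2).2 / N) (R * N' / N) h s - pA H ((kc N a1 a2).1 / N) ((kc N a1 a2).2 / N) (R * N' / N) h s' =
        (R * N' / N) • dv H ((kc N a1 a2).1 / N) ((kc N a1 a2).2 / N) (s.1 - s'.1) (s.2 - s'.2) := by
      have := dv_lin H ((kc N a1 a2).1 / N) ((kc N a1 a2).2 / N) 1 1 s.1 s.2 s'.1 s'.2
      simp only [one_mul, one_smul] at this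
      rw [this]
      unfold pA
      rw [smul_sub]; abel
    rw [e, norm_smul, Real.norm_eq_abs, abs_of_nonneg (by positivity)]
    have hd := dv_le hD.ok (v1 := (kc N a1 a2).1 / N) (v2 := (kc N a1 a2).2 / N) (w1 := s.1 - s'.1) (w2 := s.2 - s'.2) p1 p1' p2 p2'
    calc R * N' / N * ‖dv H ((kc N a1 a2).1 / N) ((kc N a1 a2).2 / N) (s.1 - s'.1) (s.2 - s'.2)‖
        ≤ R * N' / N * (9 * (1 / N' + 1 / N')) := by
          refine mul_le_mul_of_nonneg_left (hd.trans ?_) (by positivity)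
          linarith
      _ = (18:ℕ) * (R / N) := by push_cast; field_simp; ring
  · rw [if_neg hc, if_neg hc]; simp

theorem muh_sum_eq {H : Hyp} {N N' : ℕ} (hN : 1 ≤ N) {D R : ℝ} (ν : ℤ × ℤ → E3 → ℝ≥0∞)
    {a1 a2 σ : ℝ} (ha1 : 0 ≤ a1) (ha2 : 0 ≤ a2) (hN' : N * σ ≤ N') (h : ℝ) (s : ℝ × ℝ) :
    ∑ j ∈ grd N', muh H N N' D ν a1 a2 σ R h j s = (ENNReal.ofReal D)⁻¹ * ∑ k ∈ capN N a1 a2 σ,
      ν k (pA H ((kc N a1 a2).1 / N) ((kc N a1 a2).2 / N) (R * N' / N) h s) := by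
  classical
  have h1 : ∑ j ∈ grd N', muh H N N' D ν a1 a2 σ R h j s = ∑ j ∈ grd N', (if kc N a1 a2 + j ∈ capN N a1 a2 σ then
      (fun k => (ENNReal.ofReal D)⁻¹ * ν k (pA H ((kc N a1 a2).1 / N) ((kc N a1 a2).2 / N) (R * N' / N) h s)) (kc N a1 a2 + j) else 0) := by
    unfold muh
    refine Finset.sum_congr rfl fun j hj => ?_
    by_cases hc : kc N a1 a2 + j ∈ capN N a1 a2 σ
    · simp only [if_pos hc]
    · simp only [if_neg hc]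
  rw [h1, sum_shift (fun k hk => shift_mem hN ha1 ha2 hN' hk)
    (fun k => (ENNReal.ofReal D)⁻¹ * ν k (pA H ((kc N a1 a2).1 / N) ((kc N a1 a2).2 / N) (R * N' / N) h s)), Finset.mul_sum]

theorem muh_sum {B C0 R D : ℝ} {N N' : ℕ} {H : Hyp} {ν : ℤ × ℤ → E3 → ℝ≥0∞} (hD : DenR B C0 N R D H ν)
    {a1 a2 σ : ℝ} (ha1 : 0 ≤ a1) (ha2 : 0 ≤ a2) (hN' : N * σ ≤ N') (h : ℝ) (s : ℝ × ℝ) :
    ∑ j ∈ grd N', muh H N N' D ν a1 a2 σ R h j s ≤ 1 := by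
  rw [muh_sum_eq hD.N1 ν ha1 ha2 hN']
  have h1 : ∑ k ∈ capN N a1 a2 σ, ν k (pA H ((kc N a1 a2).1 / N) ((kc N a1 a2).2 / N) (R * N' / N) h s) ≤ ENNReal.ofReal D := by
    refine le_trans ?_ (hD.sum (pA H ((kc N a1 a2).1 / N) ((kc N a1 a2).2 / N) (R * N' / N) h s))
    refine Finset.sum_le_sum_of_subset ?_
    intro k hk; exact (mem_capN.1 hk).1
  calc (ENNReal.ofReal D)⁻¹ * ∑ k ∈ capN N a1 a2 σ, ν k (pA H ((kc N a1 a2).1 / N) ((kc N a1 a2).2 / N) (R * N' / N) h s)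
      ≤ (ENNReal.ofReal D)⁻¹ * ENNReal.ofReal D := by gcongr
    _ ≤ 1 := ENNReal.inv_mul_le_one _

/-- total mass -/
theorem muh_int {B C0 R D : ℝ} {N N' : ℕ} {H : Hyp} {ν : ℤ × ℤ → E3 → ℝ≥0∞} (hD : DenR B C0 N R D H ν) (hN1 : 1 ≤ N')
    {a1 a2 σ : ℝ} (ha1 : 0 ≤ a1) (ha2 : 0 ≤ a2) (hN' : N * σ ≤ N')
    (hp : (0 ≤ ((kc N a1 a2).1:ℝ) / N ∧ ((kc N a1 a2).1:ℝ) / N ≤ 1) ∧ (0 ≤ ((kc N a1 a2).2:ℝ) / N ∧ ((kc N a1 a2).2:ℝ) / N ≤ 1)) :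
    ENNReal.ofReal |(mA H ((kc N a1 a2).1 / N) ((kc N a1 a2).2 / N) (R * N' / N)).det| *
      ∫⁻ h : ℝ, ∑ j ∈ grd N', ∫⁻ s : ℝ × ℝ, muh H N N' D ν a1 a2 σ R h j s = (ENNReal.ofReal D)⁻¹ * Ec N ν a1 a2 σ := by
  have hN0 : (0:ℝ) < N := by exact_mod_cast hD.N1
  have hN0' : (0:ℝ) < N' := by exact_mod_cast hN1
  have hR0 : 0 < R := by have := hD.R1; nlinarith [pow_pos hN0 2]
  have hl : R * N' / N ≠ 0 := by positivity
  obtain ⟨⟨p1, p1'⟩, ⟨p2, p2'⟩⟩ := hp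
  have hm : Measurable fun y : E3 => (ENNReal.ofReal D)⁻¹ * ∑ k ∈ capN N a1 a2 σ, ν k y :=
    (Finset.measurable_sum _ fun k _ => hD.meas k).const_mul _
  have h1 := lint_pA hD.ok p1 p1' p2 p2' hl hm
  have h2 : ∫⁻ y : E3, (ENNReal.ofReal D)⁻¹ * ∑ k ∈ capN N a1 a2 σ, ν k y = (ENNReal.ofReal D)⁻¹ * Ec N ν a1 a2 σ := by
    rw [lintegral_const_mul _ (Finset.measurable_sum _ fun k _ => hD.meas k)]
    congr 1
    unfold Ec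
    exact lintegral_finset_sum _ fun k _ => hD.meas k
  rw [← h2, h1]
  congr 1
  refine lintegral_congr fun h => ?_
  have h3 : ∑ j ∈ grd N', ∫⁻ s : ℝ × ℝ, muh H N N' D ν a1 a2 σ R h j s = ∫⁻ s : ℝ × ℝ, ∑ j ∈ grd N', muh H N N' D ν a1 a2 σ R h j s :=
    (lintegral_finset_sum _ fun j _ => (muh_meas hD.meas a1 a2 σ R j).comp (measurable_prodMk_left (x := h))).symm
  rw [h3]
  refine lintegral_congr fun s => ?_
  rw [muh_sum_eq hD.N1 ν ha1 ha2 hN']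

end Vale.Agent.P106.Q.FLT
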