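import Vale.Agent.P106.Q.BRrP
import Vale.Agent.P106.Q.BRDx
import Vale.Agent.P106.G.Fin2

/-! # P106 / Q : final assembly, parametric in the loss `κ` and the range `r0` of the box estimate -/

open MeasureTheory Complex Set Filter
open scoped ENNReal NNReal ContDiff FourierTransform Topology

set_option linter.all false

namespace Vale.Agent.P106.Q

open Vale.Agent.P106.G LpgFin

/-- interpolation between two exponents, in terms of the reciprocals -/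
theorem finq_interp {p0 p1 a0 a1 : ℝ} (h0 : ∀ α : ℝ, a0 < α → LS p0 α) (h1 : ∀ α : ℝ, a1 < α → LS p1 α) (hp0 : 2 < p0) (hp01 : p0 < p1)
    (ha0 : 0 ≤ a0) (ha1 : 0 ≤ a1) {p α : ℝ} (hp1 : p0 ≤ p) (hp2 : p ≤ p1)
    (hα : a0 + (a1 - a0) * ((1 / p0 - 1 / p) / (1 / p0 - 1 / p1)) < α) : LS p α := by
  have hpp : 0 < p := by linarith
  have hpp0 : 0 < p0 := by linarith
  have hpp1 : 0 < p1 := by linarith
  have hd : 0 < 1 / p0 - 1 / p1 := by
    have := one_div_lt_one_div_of_lt hpp0 hp01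
    linarith
  rcases hp1.eq_or_lt with h | h
  · subst h
    apply h0
    refine lt_of_le_of_lt (le_of_eq ?_) hα
    simp
  rcases hp2.eq_or_lt with h' | h'
  · subst h'
    apply h1
    refine lt_of_le_of_lt (le_of_eq ?_) hα
    rw [div_self hd.ne']
    ring
  have e1 : 1 / p < 1 / p0 := one_div_lt_one_div_of_lt hpp0 h
  have e2 : 1 / p1 < 1 / p := one_div_lt_one_div_of_lt hpp h'
  set θ : ℝ := (1 / p0 - 1 / p) / (1 / p0 - 1 / p1) with hθ
  have hθ0 : 0 < θ := div_pos (by linarith) hd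
  have hθ1 : θ < 1 := by
    rw [hθ, div_lt_one hd]
    linarith
  have hθe : θ * (1 / p0 - 1 / p1) = 1 / p0 - 1 / p := by
    rw [hθ, div_mul_cancel₀ _ hd.ne']
  refine LpgFin.interp_LS (p0 := p0) (p1 := p1) (p := p)
    (a0 := a0) (a1 := a1) (θ := θ) (by linarith) (by linarith) (by linarith) hθ0 hθ1 ?_ ?_ h0 h1 α ?_
  · have e3 : (1 - θ) / p0 = (1 - θ) * (1 / p0) := by ring
    have e4 : θ / p1 = θ * (1 / p1) := by ring
    rw [e3, e4]
    linarith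
  · have : 0 < 1 - θ := by linarith
    positivity
  · refine lt_of_le_of_lt (le_of_eq ?_) hα
    ring

/-- the local smoothing estimates near `p = 2` from the box estimate with loss `κ` -/
theorem ls_kappa {κ r0 : ℝ} (hκ : 0 ≤ κ) (hr0 : 1 < r0) (hr2 : r0 ≤ 2) (hN : ∀ r, 1 < r → r ≤ r0 → StNIKr κ r) :
    ∀ p α : ℝ, 2 < p → p ≤ 6 * r0 / (1 + 2 * r0) → κ / 2 * (1 / 2 - 1 / p) < α → LS p α := by
  intro p α hp hp0 hα
  have h12 : 0 < 1 + 2 * r0 := by linarith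
  have hp3 : p < 3 := by
    refine lt_of_le_of_lt hp0 ?_
    rw [div_lt_iff₀ h12]
    linarith
  have h3p : 0 < 3 - p := by linarith
  set r := p / (2 * (3 - p)) with hr
  have hr1 : 1 < r := by
    rw [hr, lt_div_iff₀ (by positivity)]
    linarith
  have hrr : r ≤ r0 := by
    rw [hr, div_le_iff₀ (by positivity)]
    rw [le_div_iff₀ h12] at hp0
    linarith
  have hpr : p = 6 * r / (1 + 2 * r) := by
    have h4 : 0 < 1 + 2 * r := by linarith
    rw [eq_div_iff h4.ne', hr]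
    field_simp
    ring
  have hs : κ * (p - 2) / (4 * p) = κ / 2 * (1 / 2 - 1 / p) := by
    have : p ≠ 0 := by linarith
    field_simp
    ring
  have hs0 : 0 ≤ κ * (p - 2) / (4 * p) := by
    have h5 : 0 ≤ p - 2 := by linarith
    have h6 : 0 < p := by linarith
    positivity
  exact (LpgFin.LS_of_BR (p := p) (s := κ * (p - 2) / (4 * p)) hp hs0
    (fun α hα => stBRr κ r p α hκ hr1 (hrr.trans hr2) hpr hα (hN r hr1 hrr))).2 α (by rw [hs]; exact hα)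

/-- **range `p ≤ 9/4`, slope `3/8`** (box estimate with loss `3/4` for `r ≤ 3/2`) -/
theorem finQ_38 (hN : ∀ r, 1 < r → r ≤ 3/2 → StNIKr (3/4) r) :
    (∀ p α : ℝ, 2 < p → p ≤ 9/4 → 3 / 8 * (1 / 2 - 1 / p) < α → LS p α) ∧
    (∀ p α : ℝ, 9/4 ≤ p → p ≤ 12 / 5 → 1 / 2 * (1 / 2 - 1 / p) - 1 / 4 * (1 / p - 5 / 12) < α → LS p α) ∧
    ((∀ α : ℝ, 1 / 10 < α → LS (10 / 3) α) →
      (∀ p α : ℝ, 9/4 ≤ p → p ≤ 10 / 3 → 1 / 2 * (1 / 2 - 1 / p) - 5 / 104 * (1 / p - 3 / 10) < α → LS p α) ∧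
      (∀ α : ℝ, 17 / 208 < α → LS 3 α)) := by
  have h1 : ∀ p α : ℝ, 2 < p → p ≤ 9/4 → 3 / 8 * (1 / 2 - 1 / p) < α → LS p α := fun p α hp hp' hα =>
    ls_kappa (κ := 3/4) (r0 := 3/2) (by norm_num) (by norm_num) (by norm_num) hN p α hp (by norm_num; exact hp')
      (lt_of_le_of_lt (le_of_eq (by ring)) hα)
  have h0 : ∀ α : ℝ, 1 / 48 < α → LS (9/4) α := fun a ha => h1 _ a (by norm_num) le_rfl (lt_of_le_of_lt (le_of_eq (by norm_num)) ha)
  have h3 : (∀ α : ℝ, 1 / 10 < α → LS (10 / 3) α) → ∀ p α : ℝ, 9/4 ≤ p → p ≤ 10 / 3 →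
        1 / 2 * (1 / 2 - 1 / p) - 5 / 104 * (1 / p - 3 / 10) < α → LS p α := by
    intro hh p α hp1 hp2 hα
    refine finq_interp h0 hh (by norm_num) (by norm_num) (by norm_num) (by norm_num) hp1 hp2 (lt_of_le_of_lt (le_of_eq ?_) hα)
    generalize 1 / p = u
    norm_num
    ring
  refine ⟨h1, ?_, fun hh => ⟨h3 hh, ?_⟩⟩
  · intro p α hp1 hp2 hα
    refine finq_interp h0 ls_125 (by norm_num) (by norm_num) (by norm_num) (by norm_num) hp1 hp2 (lt_of_le_of_lt (le_of_eq ?_) hα)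
    generalize 1 / p = u
    norm_num
    ring
  · intro α hα
    exact h3 hh 3 α (by norm_num) (by norm_num) (lt_of_le_of_lt (le_of_eq (by norm_num)) hα)

/-- **range `p ≤ 24/11`, slope `1/4`** (box estimate with loss `1/2` for `r ≤ 4/3`) -/
theorem finQ_14 (hN : ∀ r, 1 < r → r ≤ 4/3 → StNIKr (1/2) r) :
    (∀ p α : ℝ, 2 < p → p ≤ 24/11 → 1 / 4 * (1 / 2 - 1 / p) < α → LS p α) ∧
    (∀ p α : ℝ, 24/11 ≤ p → p ≤ 12 / 5 → 1 / 2 * (1 / 2 - 1 / p) - 1 / 4 * (1 / p - 5 / 12) < α → LS p α) ∧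
    ((∀ α : ℝ, 1 / 10 < α → LS (10 / 3) α) →
      (∀ p α : ℝ, 24/11 ≤ p → p ≤ 10 / 3 → 1 / 2 * (1 / 2 - 1 / p) - 5 / 76 * (1 / p - 3 / 10) < α → LS p α) ∧
      (∀ α : ℝ, 37 / 456 < α → LS 3 α)) := by
  have h1 : ∀ p α : ℝ, 2 < p → p ≤ 24/11 → 1 / 4 * (1 / 2 - 1 / p) < α → LS p α := fun p α hp hp' hα =>
    ls_kappa (κ := 1/2) (r0 := 4/3) (by norm_num) (by norm_num) (by norm_num) hN p α hp (by norm_num; exact hp')
      (lt_of_le_of_lt (le_of_eq (by ring)) hα)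
  have h0 : ∀ α : ℝ, 1 / 96 < α → LS (24/11) α := fun a ha => h1 _ a (by norm_num) le_rfl (lt_of_le_of_lt (le_of_eq (by norm_num)) ha)
  have h3 : (∀ α : ℝ, 1 / 10 < α → LS (10 / 3) α) → ∀ p α : ℝ, 24/11 ≤ p → p ≤ 10 / 3 →
        1 / 2 * (1 / 2 - 1 / p) - 5 / 76 * (1 / p - 3 / 10) < α → LS p α := by
    intro hh p α hp1 hp2 hα
    refine finq_interp h0 hh (by norm_num) (by norm_num) (by norm_num) (by norm_num) hp1 hp2 (lt_of_le_of_lt (le_of_eq ?_) hα)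
    generalize 1 / p = u
    norm_num
    ring
  refine ⟨h1, ?_, fun hh => ⟨h3 hh, ?_⟩⟩
  · intro p α hp1 hp2 hα
    refine finq_interp h0 ls_125 (by norm_num) (by norm_num) (by norm_num) (by norm_num) hp1 hp2 (lt_of_le_of_lt (le_of_eq ?_) hα)
    generalize 1 / p = u
    norm_num
    ring
  · intro α hα
    exact h3 hh 3 α (by norm_num) (by norm_num) (lt_of_le_of_lt (le_of_eq (by norm_num)) hα)

/-- the box estimate from the blocks, loss `(1+κ')/2` -/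
theorem nikr_of_blocks {κ' : ℝ} (hκ' : 0 ≤ κ') (hREC : StREC) (hBGL : StBGL) (hBRD : StBRD) {r : ℝ} (hr : 1 < r) (hr3 : r ≤ 4/3)
    (hFLT : StFLT κ' r) : StNIKr ((1 + κ') / 2) r := hREC κ' r hκ' hr hr3 hBGL hBRD hFLT

/-- the box estimate with loss `3/4` for `1 < r ≤ 3/2` -/
theorem nikr_34 (hREC : StREC) (hREC2 : StREC2) (hBGL : StBGL) (hBRD : StBRD) (hFLT : ∀ r, 1 < r → r ≤ 3/2 → StFLT (1/2) r) :
    ∀ r, 1 < r → r ≤ 3/2 → StNIKr (3/4) r := by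
  intro r h1 h2
  have e : ((1:ℝ) + 1/2) / 2 = 3/4 := by norm_num
  rcases le_total r (4/3) with h | h
  · have := nikr_of_blocks (κ' := 1/2) (by norm_num) hREC hBGL hBRD h1 h (hFLT r h1 h2)
    rwa [e] at this
  · have := hREC2 (1/2) r (by norm_num) h (by linarith) (by linarith) (by linarith) hBGL (stBRD2 hBRD) (hFLT r h1 h2)
    rwa [e] at this

/-- the box estimate with loss `1/2` for `1 < r ≤ 4/3` -/
theorem nikr_12 (hREC : StREC) (hBGL : StBGL) (hBRD : StBRD) (hFLT : ∀ r, 1 < r → r ≤ 4/3 → StFLT 0 r) :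
    ∀ r, 1 < r → r ≤ 4/3 → StNIKr (1/2) r := by
  intro r h1 h2
  have := nikr_of_blocks (κ' := 0) le_rfl hREC hBGL hBRD h1 h2 (hFLT r h1 h2)
  rwa [show ((1:ℝ) + 0) / 2 = 1/2 by norm_num] at this

end Vale.Agent.P106.Q
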