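import Vale.Agent.P106.G.Fin2

/-! # The whole range from the exponent `3`

`(LS_{3,ε})` for all `ε > 0` implies `(LS_{p,α})` for all `p > 2` and `α > max(0, 1 - 3/p)`. -/

open MeasureTheory Complex Set Filter
open scoped ENNReal NNReal ContDiff FourierTransform SchwartzMap Topology

set_option linter.all false

namespace Vale.Agent.P106.Q

open Vale.Agent.P117 Vale.Agent.P106 Vale.Agent.P106.G Vale.Agent.P106.G.LpgFin

theorem X0_int : Integrable X0 := contDiff_X0.continuous.integrable_of_hasCompactSupport compact_X0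

/-- fixed time bound with one loss of the frequency, all exponents -/
theorem stGL_one {P : ℝ} (hP : 2 < P) : StGL P 1 X0 := by
  obtain ⟨C1, hC1, h1⟩ := kw3_L1
  obtain ⟨C2, hC2, h2⟩ := KE_L1
  obtain ⟨A, hA, hb⟩ := bump_of_compact contDiff_th0 (fun t ht => th0_supp ht) 4
  set k1 : ℝ := ∫ x, ‖K1 x‖ with hk1
  have hk10 : 0 ≤ k1 := integral_nonneg fun _ => norm_nonneg _
  have hk1e : ∫⁻ x, ‖K1 x‖ₑ ≤ ENNReal.ofReal k1 := by
    rw [hk1, ofReal_integral_norm_eq_lintegral_enorm K1.integrable]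
  have hP0 : 0 < P := by linarith
  have hP1 : (1:ℝ≥0∞) ≤ ENNReal.ofReal P := by
    rw [← ENNReal.ofReal_one]; exact ENNReal.ofReal_le_ofReal (by linarith)
  set D : ℝ := C1 * A * k1 + C2 with hD
  have hD0 : 0 ≤ D := by positivity
  refine ⟨(2 * D) ^ P, by positivity, ?_⟩
  intro Λ f hΛ hf
  have hΛ0 : 0 < Λ := by linarith
  obtain ⟨g1, g2, g3⟩ := f1_props hf
  have n0 : 0 ≤ nrm (ENNReal.ofReal P) f volume := nrm_nonneg
  have hn1 := nrm_cv_le K1.continuous K1.integrable hk10 hk1e hf hP1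
  set n := nrm (ENNReal.ofReal P) f volume with hn
  have hpt : ∀ T ∈ Icc Λ (2 * Λ), ∫⁻ x : G.E3, ‖𝓕⁻ (fun ξ : G.E3 => cexp (2 * Real.pi * I * (T * ‖ξ‖ : ℝ)) * (X0 ξ * 𝓕 f ξ)) x‖ₑ ^ P ≤
      ENNReal.ofReal ((2 * D * Λ * n) ^ P) := by
    intro T hT
    have hT0 : 0 < T := by linarith [hT.1]
    have hKc : Continuous (fun x : G.E3 => kw3 Λ th0 T (‖x‖ ^ 2)) := (continuous_kw3 hb hΛ0 T).comp (by fun_prop)
    have hKL := h1 Λ hΛ A th0 hb T hT
    have hKi : Integrable (fun x : G.E3 => kw3 Λ th0 T (‖x‖ ^ 2)) :=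
      ⟨hKc.aestronglyMeasurable, lt_of_le_of_lt hKL ENNReal.ofReal_lt_top⟩
    have hESi := integrable_ES hΛ0 hT.1
    have hEc : Continuous (KE Λ T) := continuous_fourierInv hESi
    have hEL := h2 Λ T hΛ hT
    have hEi : Integrable (KE Λ T) := ⟨hEc.aestronglyMeasurable, lt_of_le_of_lt hEL ENNReal.ofReal_lt_top⟩
    have a1 : Adm volume (cv (fun x : G.E3 => kw3 Λ th0 T (‖x‖ ^ 2)) (cv K1 f)) :=
      adm_cv hKc hKi (fun x => norm_kw3_le hb hΛ0 T _) g1
    have a2 : Adm volume (cv (KE Λ T) f) := adm_cv hEc hEi (fun x => norm_fourierInv_le _ x) hf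
    have b1 : nrm (ENNReal.ofReal P) (cv (fun x : G.E3 => kw3 Λ th0 T (‖x‖ ^ 2)) (cv K1 f)) volume ≤ D * Λ * n := by
      refine (nrm_cv_le hKc hKi (B := C1 * A * Λ) (by positivity) hKL g1 hP1).trans ?_
      calc C1 * A * Λ * nrm (ENNReal.ofReal P) (cv K1 f) volume ≤ C1 * A * Λ * (k1 * n) := by gcongr
        _ = C1 * A * k1 * Λ * n := by ring
        _ ≤ _ := by
          have : C1 * A * k1 ≤ D := by rw [hD]; linarith
          gcongr
    have b2 : nrm (ENNReal.ofReal P) (cv (KE Λ T) f) volume ≤ D * Λ * n := by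
      refine (nrm_cv_le hEc hEi (B := C2 * Λ) (by positivity) hEL hf hP1).trans ?_
      have : C2 ≤ D := by
        rw [hD]
        have : 0 ≤ C1 * A * k1 := by positivity
        linarith
      gcongr
    have c1 := pow_nrm_le (P := P) (by linarith) a1 b1
    have c2 := pow_nrm_le (P := P) (by linarith) a2 b2
    have e1 : (fun ξ : G.E3 => cexp (2 * Real.pi * I * (T * ‖ξ‖ : ℝ)) * (X0 ξ * 𝓕 f ξ)) = fun ξ : G.E3 => wm1 X0 T ξ * 𝓕 f ξ := by
      ext ξ
      unfold wm1
      ring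
    rw [e1]
    calc ∫⁻ x : G.E3, ‖𝓕⁻ (fun ξ => wm1 X0 T ξ * 𝓕 f ξ) x‖ₑ ^ P ≤
          ∫⁻ x : G.E3, (2:ℝ≥0∞) ^ (P - 1) * (‖cv (fun x : G.E3 => kw3 Λ th0 T (‖x‖ ^ 2)) (cv K1 f) x‖ₑ ^ P +
            ‖cv (KE Λ T) f x‖ₑ ^ P) := by
          apply lintegral_mono
          intro x
          simp only
          rw [V_identity hΛ0 hT hf]
          have h5 : ‖(((T / Λ) ^ (-(1/2:ℝ)) : ℝ) : ℂ) *
              (cv (fun x : G.E3 => kw3 Λ th0 T (‖x‖ ^ 2)) (cv K1 f) x - cv (KE Λ T) f x)‖ₑ ≤
              ‖cv (fun x : G.E3 => kw3 Λ th0 T (‖x‖ ^ 2)) (cv K1 f) x‖ₑ + ‖cv (KE Λ T) f x‖ₑ := by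
            rw [enorm_mul]
            have h6 : ‖(((T / Λ) ^ (-(1/2:ℝ)) : ℝ) : ℂ)‖ₑ ≤ 1 := by
              rw [← ofReal_norm, Complex.norm_real, Real.norm_of_nonneg (by positivity), ← ENNReal.ofReal_one]
              apply ENNReal.ofReal_le_ofReal
              apply Real.rpow_le_one_of_one_le_of_nonpos _ (by norm_num)
              rw [le_div_iff₀ hΛ0]; linarith [hT.1]
            calc _ ≤ 1 * ‖cv (fun x : G.E3 => kw3 Λ th0 T (‖x‖ ^ 2)) (cv K1 f) x - cv (KE Λ T) f x‖ₑ := by gcongr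
              _ ≤ _ := by rw [one_mul]; exact enorm_sub_le
          calc _ ≤ (‖cv (fun x : G.E3 => kw3 Λ th0 T (‖x‖ ^ 2)) (cv K1 f) x‖ₑ + ‖cv (KE Λ T) f x‖ₑ) ^ P := by gcongr
            _ ≤ _ := ENNReal.rpow_add_le_mul_rpow_add_rpow _ _ (by linarith)
      _ = (2:ℝ≥0∞) ^ (P - 1) * ((∫⁻ x : G.E3, ‖cv (fun x : G.E3 => kw3 Λ th0 T (‖x‖ ^ 2)) (cv K1 f) x‖ₑ ^ P) +
            ∫⁻ x : G.E3, ‖cv (KE Λ T) f x‖ₑ ^ P) := by
          rw [lintegral_const_mul' _ _ (ENNReal.rpow_ne_top_of_nonneg (by linarith) ENNReal.ofNat_ne_top),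
            lintegral_add_left (a1.meas.enorm.pow_const _)]
      _ ≤ (2:ℝ≥0∞) ^ (P - 1) * (ENNReal.ofReal ((D * Λ * n) ^ P) + ENNReal.ofReal ((D * Λ * n) ^ P)) := by gcongr
      _ = ENNReal.ofReal ((2 * D * Λ * n) ^ P) := by
          have e2 : (2:ℝ≥0∞) ^ (P - 1) = ENNReal.ofReal ((2:ℝ) ^ (P - 1)) := by
            rw [← ENNReal.ofReal_rpow_of_pos (by norm_num)]
            norm_num
          rw [e2, ← ENNReal.ofReal_add (by positivity) (by positivity), ← ENNReal.ofReal_mul (by positivity)]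
          congr 1
          have e3 : (2 * D * Λ * n) ^ P = (2:ℝ) ^ P * (D * Λ * n) ^ P := by
            rw [← Real.mul_rpow (by norm_num) (by positivity)]
            congr 1
            ring
          have e4 : (2:ℝ) ^ P = (2:ℝ) ^ (P - 1) * 2 := by
            rw [Real.rpow_sub_one (by norm_num)]
            ring
          rw [e3, e4]
          ring
  calc ∫⁻ t in Icc Λ (2 * Λ), ∫⁻ x : G.E3, ‖𝓕⁻ (fun ξ : G.E3 => cexp (2 * Real.pi * I * (t * ‖ξ‖ : ℝ)) * (X0 ξ * 𝓕 f ξ)) x‖ₑ ^ P ≤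
        ∫⁻ t in Icc Λ (2 * Λ), ENNReal.ofReal ((2 * D * Λ * n) ^ P) := setLIntegral_mono measurable_const hpt
    _ = ENNReal.ofReal ((2 * D * Λ * n) ^ P) * ENNReal.ofReal Λ := by
        rw [setLIntegral_const, Real.volume_Icc]
        congr 2
        ring
    _ = _ := by
        rw [nrm_pow (by linarith) hf, ← ENNReal.ofReal_mul (by positivity), ← ENNReal.ofReal_mul (by positivity)]
        congr 1
        rw [show 2 * D * Λ * n = (2 * D) * (Λ * n) by ring, Real.mul_rpow (by positivity) (by positivity),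
          Real.mul_rpow hΛ0.le n0, one_mul, Real.rpow_add hΛ0, Real.rpow_one]
        ring

/-- the trivial bound `α(p) ≤ 1` -/
theorem ls_one {P α : ℝ} (hP : 2 < P) (hα : 1 < α) : LS P α :=
  LS_of_StGL hP (by norm_num) hα (stGL_one hP)

/-- near the exponent `2` the loss tends to zero -/
theorem ls_near2 {e : ℝ} (he : 0 < e) : ∃ p0 : ℝ, 2 < p0 ∧ p0 < 5/2 ∧ ∀ α, e < α → LS p0 α := by
  have h := Vale.Agent.P106.G.ls_final
  set d : ℝ := min e (14 / 285) with hd
  have hd0 : 0 < d := lt_min he (by norm_num)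
  have hd1 : d ≤ e := min_le_left _ _
  have hd2 : d ≤ 14 / 285 := min_le_right _ _
  refine ⟨2 + d, by linarith, by linarith, ?_⟩
  intro α hα
  refine h.1 (2 + d) (by linarith) (by linarith) α (lt_of_le_of_lt ?_ hα)
  have h2 : 1 / 2 - 1 / (2 + d) = d / (2 * (2 + d)) := by
    field_simp
    ring
  rw [h2]
  have h3 : d / (2 * (2 + d)) ≤ d / 2 := by
    apply div_le_div_of_nonneg_left hd0.le (by norm_num) (by linarith)
  linarith

/-- **the whole range from the exponent `3`** -/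
theorem full_of_LS3 (h3 : ∀ ε : ℝ, 0 < ε → LS 3 ε) {p α : ℝ} (hp : 2 < p) (hα : max 0 (1 - 3 / p) < α) : LS p α := by
  have hα0 : 0 < α := lt_of_le_of_lt (le_max_left _ _) hα
  have hα1 : 1 - 3 / p < α := lt_of_le_of_lt (le_max_right _ _) hα
  have hp0 : 0 < p := by linarith
  rcases lt_trichotomy p 3 with h | h | h
  · -- below the exponent three
    have hgap : 0 < min (α / 2) (p - 2) := lt_min (by linarith) (by linarith)
    obtain ⟨q, hq2, hq5, hq⟩ := ls_near2 (e := α / 2) (by linarith)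
    rcases le_or_gt p q with hpq | hpq
    · -- choose a smaller starting exponent: use the monotone family
      have hls := Vale.Agent.P106.G.ls_final
      -- an exponent between `2` and `p` with a small loss
      set d : ℝ := min (α / 2) (min (14 / 285) ((p - 2) / 2)) with hd
      have hd0 : 0 < d := lt_min (by linarith) (lt_min (by norm_num) (by linarith))
      have hd1 : d ≤ α / 2 := min_le_left _ _
      have hd2 : d ≤ 14 / 285 := (min_le_right _ _).trans (min_le_left _ _)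
      have hd3 : d ≤ (p - 2) / 2 := (min_le_right _ _).trans (min_le_right _ _)
      have h0 : ∀ a : ℝ, d / 2 < a → LS (2 + d) a := by
        intro a ha
        refine hls.1 (2 + d) (by linarith) (by linarith) a (lt_of_le_of_lt ?_ ha)
        have h2 : 1 / 2 - 1 / (2 + d) = d / (2 * (2 + d)) := by
          field_simp
          ring
        rw [h2]
        have h3 : d / (2 * (2 + d)) ≤ d / 2 := by
          apply div_le_div_of_nonneg_left hd0.le (by norm_num) (by linarith)
        linarith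
      have e1 : 1 / p < 1 / (2 + d) := one_div_lt_one_div_of_lt (by linarith) (by linarith)
      have e2 : 1 / 3 < 1 / p := one_div_lt_one_div_of_lt hp0 h
      have hD : 0 < 1 / (2 + d) - 1 / 3 := by linarith
      set θ : ℝ := (1 / (2 + d) - 1 / p) / (1 / (2 + d) - 1 / 3) with hθ
      have hθ0 : 0 < θ := div_pos (by linarith) hD
      have hθ1 : θ < 1 := by rw [hθ, div_lt_one hD]; linarith
      have hθe : θ * (1 / (2 + d) - 1 / 3) = 1 / (2 + d) - 1 / p := by rw [hθ, div_mul_cancel₀ _ hD.ne']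
      refine interp_LS (p0 := 2 + d) (p1 := 3) (p := p) (a0 := d / 2) (a1 := 0) (θ := θ) (by linarith) (by norm_num) hp hθ0 hθ1
        ?_ ?_ h0 h3 α ?_
      · have e3 : (1 - θ) / (2 + d) = (1 - θ) * (1 / (2 + d)) := by ring
        have e4 : θ / 3 = θ * (1 / 3) := by ring
        rw [e3, e4]
        linarith
      · have : 0 < 1 - θ := by linarith
        positivity
      · have : (1 - θ) * (d / 2) ≤ 1 * (d / 2) := by gcongr; linarith
        linarith
    · have e1 : 1 / p < 1 / q := one_div_lt_one_div_of_lt (by linarith) hpq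
      have e2 : 1 / 3 < 1 / p := one_div_lt_one_div_of_lt hp0 h
      have hD : 0 < 1 / q - 1 / 3 := by linarith
      set θ : ℝ := (1 / q - 1 / p) / (1 / q - 1 / 3) with hθ
      have hθ0 : 0 < θ := div_pos (by linarith) hD
      have hθ1 : θ < 1 := by rw [hθ, div_lt_one hD]; linarith
      have hθe : θ * (1 / q - 1 / 3) = 1 / q - 1 / p := by rw [hθ, div_mul_cancel₀ _ hD.ne']
      refine interp_LS (p0 := q) (p1 := 3) (p := p) (a0 := α / 2) (a1 := 0) (θ := θ) (by linarith) (by norm_num) hp hθ0 hθ1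
        ?_ ?_ hq h3 α ?_
      · have e3 : (1 - θ) / q = (1 - θ) * (1 / q) := by ring
        have e4 : θ / 3 = θ * (1 / 3) := by ring
        rw [e3, e4]
        linarith
      · have : 0 < 1 - θ := by linarith
        positivity
      · have : (1 - θ) * (α / 2) ≤ 1 * (α / 2) := by gcongr; linarith
        linarith
  · rw [h]
    exact h3 α hα0
  · -- above the exponent three: interpolation with the trivial bound at a large exponent
    have e1 : 1 / p < 1 / 3 := one_div_lt_one_div_of_lt (by norm_num) h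
    have e1' : 0 < 1 / p := by positivity
    have e3p : 3 / p = 3 * (1 / p) := by ring
    rw [e3p] at hα1
    set u := 1 / p with hu
    -- choose `v = 1/p1` small
    obtain ⟨v, hv0, hvu, hva⟩ : ∃ v : ℝ, 0 < v ∧ v < u ∧ (1 / 3 - u) / (1 / 3 - v) < α := by
      rcases lt_or_ge 1 α with h1 | h1
      · refine ⟨u / 2, by positivity, by linarith, ?_⟩
        rw [div_lt_iff₀ (by linarith)]
        nlinarith
      · -- `(1/3 - u) < α (1/3 - v)` for small `v`
        refine ⟨min (u / 2) ((α * (1 / 3) - (1 / 3 - u)) / (2 * α)), ?_, ?_, ?_⟩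
        · apply lt_min (by positivity)
          apply div_pos (by linarith) (by linarith)
        · exact lt_of_le_of_lt (min_le_left _ _) (by linarith)
        · have m1 := min_le_left (u / 2) ((α * (1 / 3) - (1 / 3 - u)) / (2 * α))
          have m2 := min_le_right (u / 2) ((α * (1 / 3) - (1 / 3 - u)) / (2 * α))
          set v := min (u / 2) ((α * (1 / 3) - (1 / 3 - u)) / (2 * α)) with hv
          rw [div_lt_iff₀ (by linarith)]
          rw [le_div_iff₀ (by linarith)] at m2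
          nlinarith
    have hp1 : 2 < 1 / v := by
      rw [lt_div_iff₀ hv0]
      linarith
    have hpv : 1 / (1 / v) = v := by rw [one_div_one_div]
    have hD : 0 < 1 / 3 - v := by linarith
    set θ : ℝ := (1 / 3 - u) / (1 / 3 - v) with hθ
    have hθ0 : 0 < θ := div_pos (by linarith) hD
    have hθ1 : θ < 1 := by rw [hθ, div_lt_one hD]; linarith
    have hθe : θ * (1 / 3 - v) = 1 / 3 - u := by rw [hθ, div_mul_cancel₀ _ hD.ne']
    refine interp_LS (p0 := 3) (p1 := 1 / v) (p := p) (a0 := 0) (a1 := 1) (θ := θ) (by norm_num) (by linarith) hp hθ0 hθ1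
      ?_ ?_ h3 (fun a ha => ls_one hp1 ha) α ?_
    · have e3 : (1 - θ) / 3 = (1 - θ) * (1 / 3) := by ring
      have e4 : θ / (1 / v) = θ * v := by rw [div_div_eq_mul_div, div_one]
      rw [e3, e4, ← hu]
      linarith
    · have : 0 < 1 - θ := by linarith
      linarith
    · linarith

end Vale.Agent.P106.Q
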