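import Vale.Agent.P106.G.Defs

/-! # P106 / Q : hairbrush, upper half. Abstract Cordoba argument in slabs of bounded overlap -/

open MeasureTheory Set
open scoped ENNReal NNReal

set_option linter.all false

namespace Vale.Agent.P106.Q.Hair

open Vale.Agent.P106.G

/-- Cauchy–Schwarz on a set, squared -/
theorem cs_set {α : Type*} [MeasurableSpace α] {μ : Measure α} {f : α → ℝ≥0∞} (hf : Measurable f) (S : Set α) :
    (∫⁻ x in S, f x ∂μ) ^ 2 ≤ μ S * ∫⁻ x, f x ^ 2 ∂μ := by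
  have h := ENNReal.lintegral_mul_le_Lp_mul_Lq (μ.restrict S) (p := 2) (q := 2) (by constructor <;> norm_num)
    (f := fun _ => (1:ℝ≥0∞)) (g := f) aemeasurable_const hf.aemeasurable
  simp only [Pi.mul_apply, one_mul, ENNReal.one_rpow, lintegral_const, Measure.restrict_apply MeasurableSet.univ, univ_inter] at h
  have h2 : ∀ y : ℝ≥0∞, (y ^ (1/2:ℝ)) ^ 2 = y := by
    intro y
    rw [← ENNReal.rpow_natCast, ← ENNReal.rpow_mul]; norm_num
  calc (∫⁻ x in S, f x ∂μ) ^ 2 ≤ ((μ S) ^ (1/2:ℝ) * (∫⁻ x in S, f x ^ (2:ℝ) ∂μ) ^ (1/2:ℝ)) ^ 2 := by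
        gcongr
    _ = μ S * ∫⁻ x in S, f x ^ (2:ℝ) ∂μ := by rw [mul_pow, h2, h2]
    _ ≤ μ S * ∫⁻ x, f x ^ 2 ∂μ := by
        refine mul_le_mul' le_rfl ?_
        simp only [ENNReal.rpow_two]
        exact setLIntegral_le_lintegral _ _

/-- square of a weighted sum of indicators -/
theorem sq_int {α ι : Type*} [MeasurableSpace α] {μ : Measure α} (H : Finset ι) (w : ι → ℝ≥0∞) (T : ι → Set α)
    (mT : ∀ i, MeasurableSet (T i)) :
    ∫⁻ x, (∑ i ∈ H, w i * (T i).indicator 1 x) ^ 2 ∂μ = ∑ i ∈ H, w i * ∑ j ∈ H, w j * μ (T i ∩ T j) := by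
  have e : ∀ x, (∑ i ∈ H, w i * (T i).indicator (1 : α → ℝ≥0∞) x) ^ 2 =
      ∑ i ∈ H, ∑ j ∈ H, w i * (w j * (T i ∩ T j).indicator (1 : α → ℝ≥0∞) x) := by
    intro x
    rw [sq, Finset.sum_mul_sum]
    refine Finset.sum_congr rfl fun i _ => Finset.sum_congr rfl fun j _ => ?_
    by_cases h1 : x ∈ T i <;> by_cases h2 : x ∈ T j <;> simp [h1, h2]
  simp_rw [e]
  rw [lintegral_finset_sum']
  · refine Finset.sum_congr rfl fun i _ => ?_
    rw [lintegral_finset_sum', Finset.mul_sum]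
    · refine Finset.sum_congr rfl fun j _ => ?_
      rw [lintegral_const_mul, lintegral_const_mul, lintegral_indicator_one ((mT i).inter (mT j))]
      · exact measurable_one.indicator ((mT i).inter (mT j))
      · exact (measurable_one.indicator ((mT i).inter (mT j))).const_mul _
    · intro j _
      exact (((measurable_one.indicator ((mT i).inter (mT j))).const_mul _).const_mul _).aemeasurable
  · intro i _
    refine (Finset.measurable_sum _ fun j _ => ?_).aemeasurable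
    exact ((measurable_one.indicator ((mT i).inter (mT j))).const_mul _).const_mul _

/-- Cordoba in one class -/
theorem cor1 {α ι : Type*} [MeasurableSpace α] {μ : Measure α} (H : Finset ι) (w : ι → ℝ≥0∞) (T : ι → Set α)
    (mT : ∀ i, MeasurableSet (T i)) {Y : Set α} {A B : ℝ≥0∞} (hw : ∑ i ∈ H, w i ≠ ⊤)
    (hA : ∀ i ∈ H, A ≤ μ (T i ∩ Y)) (hB : ∀ i ∈ H, ∑ j ∈ H, w j * μ (T i ∩ T j) ≤ B) :
    A ^ 2 * ∑ i ∈ H, w i ≤ B * μ Y := by
  set σ := ∑ i ∈ H, w i with hσ
  by_cases h0 : σ = 0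
  · rw [h0, mul_zero]; exact bot_le
  have mf : Measurable fun x => ∑ i ∈ H, w i * (T i).indicator (1 : α → ℝ≥0∞) x :=
    Finset.measurable_sum _ fun i _ => (measurable_one.indicator (mT i)).const_mul _
  have h1 : A * σ ≤ ∫⁻ x in Y, ∑ i ∈ H, w i * (T i).indicator (1 : α → ℝ≥0∞) x ∂μ := by
    rw [lintegral_finset_sum']
    · rw [hσ, Finset.mul_sum]
      refine Finset.sum_le_sum fun i hi => ?_
      rw [lintegral_const_mul _ (measurable_one.indicator (mT i)), lintegral_indicator_one (mT i),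
        Measure.restrict_apply (mT i), mul_comm]
      gcongr
      exact hA i hi
    · intro i _
      exact ((measurable_one.indicator (mT i)).const_mul _).aemeasurable
  have h2 : (A * σ) ^ 2 ≤ μ Y * (B * σ) := by
    calc (A * σ) ^ 2 ≤ (∫⁻ x in Y, ∑ i ∈ H, w i * (T i).indicator (1 : α → ℝ≥0∞) x ∂μ) ^ 2 := by gcongr
      _ ≤ μ Y * ∫⁻ x, (∑ i ∈ H, w i * (T i).indicator (1 : α → ℝ≥0∞) x) ^ 2 ∂μ := cs_set mf Y
      _ = μ Y * ∑ i ∈ H, w i * ∑ j ∈ H, w j * μ (T i ∩ T j) := by rw [sq_int H w T mT]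
      _ ≤ μ Y * ∑ i ∈ H, w i * B := by
          gcongr with i hi
          exact hB i hi
      _ = μ Y * (B * σ) := by rw [← Finset.sum_mul, mul_comm B σ]
  have h3 : A ^ 2 * σ * σ ≤ B * μ Y * σ := by
    calc A ^ 2 * σ * σ = (A * σ) ^ 2 := by ring
      _ ≤ μ Y * (B * σ) := h2
      _ = B * μ Y * σ := by ring
  exact (ENNReal.mul_le_mul_iff_left h0 hw).1 h3

/-- Cordoba in classes of bounded overlap -/
theorem cor2 {α ι : Type*} [MeasurableSpace α] {μ : Measure α} (H : Finset ι) (w : ι → ℝ≥0∞) (T : ι → Set α)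
    (mT : ∀ i, MeasurableSet (T i)) (cl : ι → ℤ) {X : Set α} (Y : ℤ → Set α) (mX : MeasurableSet X) (mY : ∀ j, MeasurableSet (Y j))
    {A B : ℝ≥0∞} {M : ℝ} (hM0 : 0 ≤ M) (hw : ∑ i ∈ H, w i ≠ ⊤)
    (hA : ∀ i ∈ H, A ≤ μ (T i ∩ (X ∩ Y (cl i))))
    (hB : ∀ i ∈ H, ∑ j ∈ H.filter (fun j => cl j = cl i), w j * μ (T i ∩ T j) ≤ B)
    (hM : ∀ (x : α) (J : Finset ℤ), (∀ j ∈ J, x ∈ Y j) → (J.card : ℝ) ≤ M) :
    A ^ 2 * ∑ i ∈ H, w i ≤ B * (ENNReal.ofReal M * μ X) := by
  classical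
  have h1 : ∀ j ∈ H.image cl, A ^ 2 * ∑ i ∈ H.filter (fun i => cl i = j), w i ≤ B * μ (X ∩ Y j) := by
    intro j _
    refine cor1 _ w T mT ?_ ?_ ?_
    · exact ne_top_of_le_ne_top hw (Finset.sum_le_sum_of_subset (Finset.filter_subset _ _))
    · intro i hi
      have := hA i (Finset.mem_filter.1 hi).1
      rwa [(Finset.mem_filter.1 hi).2] at this
    · intro i hi
      have := hB i (Finset.mem_filter.1 hi).1
      rwa [(Finset.mem_filter.1 hi).2] at this
  have h2 : ∑ i ∈ H, w i = ∑ j ∈ H.image cl, ∑ i ∈ H.filter (fun i => cl i = j), w i := by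
    rw [Finset.sum_fiberwise_of_maps_to]
    intro i hi; exact Finset.mem_image_of_mem _ hi
  have h3 : ∑ j ∈ H.image cl, μ (X ∩ Y j) ≤ ENNReal.ofReal M * μ X := by
    calc ∑ j ∈ H.image cl, μ (X ∩ Y j) = ∑ j ∈ H.image cl, ∫⁻ x in X, (Y j).indicator 1 x ∂μ := by
          refine Finset.sum_congr rfl fun j _ => ?_
          rw [lintegral_indicator_one (mY j), Measure.restrict_apply (mY j), inter_comm]
      _ = ∫⁻ x in X, ∑ j ∈ H.image cl, (Y j).indicator 1 x ∂μ := by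
          rw [lintegral_finset_sum']
          intro j _
          exact (measurable_one.indicator (mY j)).aemeasurable
      _ ≤ ∫⁻ x in X, ENNReal.ofReal M ∂μ := by
          refine lintegral_mono fun x => ?_
          have e : ∑ j ∈ H.image cl, (Y j).indicator (1 : α → ℝ≥0∞) x = (((H.image cl).filter fun j => x ∈ Y j).card : ℝ≥0∞) := by
            rw [Finset.card_filter]
            push_cast
            refine Finset.sum_congr rfl fun j _ => ?_
            by_cases ht : x ∈ Y j <;> simp [ht]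
          show ∑ j ∈ H.image cl, (Y j).indicator (1 : α → ℝ≥0∞) x ≤ ENNReal.ofReal M
          rw [e, ← ENNReal.ofReal_natCast]
          exact ENNReal.ofReal_le_ofReal (hM x _ fun j hj => (Finset.mem_filter.1 hj).2)
      _ = ENNReal.ofReal M * μ X := by
          rw [lintegral_const, Measure.restrict_apply MeasurableSet.univ, univ_inter]
  rw [h2, Finset.mul_sum]
  calc ∑ j ∈ H.image cl, A ^ 2 * ∑ i ∈ H.filter (fun i => cl i = j), w i ≤ ∑ j ∈ H.image cl, B * μ (X ∩ Y j) :=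
        Finset.sum_le_sum h1
    _ = B * ∑ j ∈ H.image cl, μ (X ∩ Y j) := by rw [Finset.mul_sum]
    _ ≤ _ := by gcongr

end Vale.Agent.P106.Q.Hair
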