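import Vale.Agent.P106.Q.HairA

/-! # P106 / Q : hairbrush, upper half. Tubes of the integer grid and their intersections -/

open MeasureTheory Set
open scoped ENNReal NNReal

set_option linter.all false

namespace Vale.Agent.P106.Q.Hair

open Vale.Agent.P106.G

/-- tube of direction `k` through the base cell `q` -/
def Tb (N : ℕ) (k q : ℤ × ℤ) : Set (ℝ × (ℝ × ℝ)) :=
  {z | (1/2 ≤ z.1 ∧ z.1 ≤ 4) ∧ ((q.1:ℝ) ≤ N * z.2.1 - z.1 * k.1 ∧ N * z.2.1 - z.1 * k.1 < q.1 + 1) ∧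
    ((q.2:ℝ) ≤ N * z.2.2 - z.1 * k.2 ∧ N * z.2.2 - z.1 * k.2 < q.2 + 1)}

theorem mTb (N : ℕ) (k q : ℤ × ℤ) : MeasurableSet (Tb N k q) := by
  have h1 : Measurable fun z : ℝ × (ℝ × ℝ) => (N:ℝ) * z.2.1 - z.1 * k.1 := by fun_prop
  have h2 : Measurable fun z : ℝ × (ℝ × ℝ) => (N:ℝ) * z.2.2 - z.1 * k.2 := by fun_prop
  exact ((measurableSet_le measurable_const measurable_fst).inter (measurableSet_le measurable_fst measurable_const)).inter
    (((measurableSet_le measurable_const h1).inter (measurableSet_lt h1 measurable_const)).inter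
      ((measurableSet_le measurable_const h2).inter (measurableSet_lt h2 measurable_const)))

/-- volume of a part of a tube -/
theorem vol_Tb {N : ℕ} (hN : 1 ≤ N) (k q : ℤ × ℤ) {J : Set ℝ} (hJ : MeasurableSet J) :
    volume {z : ℝ × (ℝ × ℝ) | z ∈ Tb N k q ∧ z.1 ∈ J} ≤ volume J * ENNReal.ofReal (1 / (N:ℝ) ^ 2) := by
  have hN0 : (0:ℝ) < N := by exact_mod_cast hN
  have hm : MeasurableSet {z : ℝ × (ℝ × ℝ) | z ∈ Tb N k q ∧ z.1 ∈ J} := (mTb N k q).inter (measurable_fst hJ)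
  rw [Measure.volume_eq_prod, Measure.prod_apply hm]
  calc ∫⁻ t : ℝ, volume (Prod.mk t ⁻¹' {z : ℝ × (ℝ × ℝ) | z ∈ Tb N k q ∧ z.1 ∈ J})
      ≤ ∫⁻ t : ℝ, J.indicator (fun _ => ENNReal.ofReal (1 / (N:ℝ) ^ 2)) t := by
        refine lintegral_mono fun t => ?_
        by_cases ht : t ∈ J
        · rw [indicator_of_mem ht]
          have hsub : Prod.mk t ⁻¹' {z : ℝ × (ℝ × ℝ) | z ∈ Tb N k q ∧ z.1 ∈ J} ⊆
              Ico ((q.1 + t * k.1) / N : ℝ) ((q.1 + 1 + t * k.1) / N) ×ˢ Ico ((q.2 + t * k.2) / N : ℝ) ((q.2 + 1 + t * k.2) / N) := by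
            rintro s ⟨⟨_, h1, h2⟩, _⟩
            refine ⟨⟨?_, ?_⟩, ⟨?_, ?_⟩⟩
            · rw [div_le_iff₀ hN0]; have := h1.1; simp only at this; linarith
            · rw [lt_div_iff₀ hN0]; have := h1.2; simp only at this; linarith
            · rw [div_le_iff₀ hN0]; have := h2.1; simp only at this; linarith
            · rw [lt_div_iff₀ hN0]; have := h2.2; simp only at this; linarith
          refine (measure_mono hsub).trans (le_of_eq ?_)
          rw [Measure.volume_eq_prod, Measure.prod_prod, Real.volume_Ico, Real.volume_Ico, ← ENNReal.ofReal_mul (by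
            rw [← sub_div]; apply div_nonneg _ hN0.le; linarith)]
          congr 1; field_simp; ring
        · have : Prod.mk t ⁻¹' {z : ℝ × (ℝ × ℝ) | z ∈ Tb N k q ∧ z.1 ∈ J} = ∅ := by
            ext s; simp [ht]
          rw [this]; simp
    _ = volume J * ENNReal.ofReal (1 / (N:ℝ) ^ 2) := by
        rw [lintegral_indicator hJ, setLIntegral_const, mul_comm]

/-- times of intersection -/
theorem jlen (m d : ℤ) : volume {t : ℝ | (1/2 ≤ t ∧ t ≤ 4) ∧ |t * d - m| ≤ 1} ≤ ENNReal.ofReal (24 / (1 + |(m:ℝ)|)) := by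
  have hm0 : (0:ℝ) < 1 + |(m:ℝ)| := by positivity
  by_cases hm : |m| ≤ 1
  · have hm' : |(m:ℝ)| ≤ 1 := by exact_mod_cast hm
    calc volume {t : ℝ | (1/2 ≤ t ∧ t ≤ 4) ∧ |t * d - m| ≤ 1} ≤ volume (Icc (1/2 : ℝ) 4) := measure_mono fun t ht => ht.1
      _ = ENNReal.ofReal (4 - 1/2) := Real.volume_Icc
      _ ≤ _ := by
        refine ENNReal.ofReal_le_ofReal ?_
        rw [le_div_iff₀ hm0]; linarith
  · push Not at hm
    have hm2 : (2:ℝ) ≤ |(m:ℝ)| := by exact_mod_cast hm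
    by_cases hne : ({t : ℝ | (1/2 ≤ t ∧ t ≤ 4) ∧ |t * d - m| ≤ 1}).Nonempty
    · obtain ⟨t, ⟨ht1, ht2⟩, ht3⟩ := hne
      have hd : (|(m:ℝ)| - 1) / 4 ≤ |(d:ℝ)| := by
        have h1 : |(m:ℝ)| ≤ |t * d| + 1 := by
          have h := abs_sub_abs_le_abs_sub (m:ℝ) (t * d)
          rw [abs_sub_comm] at h; linarith
        have h2 : |t * (d:ℝ)| ≤ 4 * |(d:ℝ)| := by
          rw [abs_mul]
          refine mul_le_mul_of_nonneg_right ?_ (abs_nonneg _)
          rw [abs_le]; constructor <;> linarith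
        linarith
      have hd0 : 0 < |(d:ℝ)| := by linarith
      have hsub : {t : ℝ | (1/2 ≤ t ∧ t ≤ 4) ∧ |t * d - m| ≤ 1} ⊆ Icc (m / d - 1 / |(d:ℝ)|) (m / d + 1 / |(d:ℝ)|) := by
        rintro u ⟨_, hu⟩
        have hd1 : (d:ℝ) ≠ 0 := abs_pos.1 hd0
        have : |u - m / d| ≤ 1 / |(d:ℝ)| := by
          have e : u - m / d = (u * d - m) / d := by field_simp
          rw [e, abs_div]; gcongr
        have := abs_le.1 this
        exact ⟨by linarith [this.1], by linarith [this.2]⟩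
      refine (measure_mono hsub).trans ?_
      rw [Real.volume_Icc]
      refine ENNReal.ofReal_le_ofReal ?_
      have h3 : 1 / |(d:ℝ)| ≤ 4 / (|(m:ℝ)| - 1) := by
        rw [div_le_div_iff₀ hd0 (by linarith)]; linarith
      have h4 : 8 / (|(m:ℝ)| - 1) ≤ 24 / (1 + |(m:ℝ)|) := by
        rw [div_le_div_iff₀ (by linarith) hm0]; linarith
      have e : (m:ℝ) / d + 1 / |(d:ℝ)| - (m / d - 1 / |(d:ℝ)|) = 2 * (1 / |(d:ℝ)|) := by ring
      rw [e]
      have e2 : 8 / (|(m:ℝ)| - 1) = 2 * (4 / (|(m:ℝ)| - 1)) := by ring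
      linarith
    · rw [not_nonempty_iff_eq_empty] at hne
      rw [hne]; simp

theorem mjl (m d : ℤ) : MeasurableSet {t : ℝ | (1/2 ≤ t ∧ t ≤ 4) ∧ |t * d - m| ≤ 1} := by
  have h1 : Measurable fun t : ℝ => |t * d - m| := by fun_prop
  exact (measurableSet_Icc : MeasurableSet (Icc (1/2 : ℝ) 4)).inter (measurableSet_le h1 measurable_const)

/-- volume of the intersection of two tubes -/
theorem vol_pair1 {N : ℕ} (hN : 1 ≤ N) (k q k' q' : ℤ × ℤ) :
    volume (Tb N k q ∩ Tb N k' q') ≤ ENNReal.ofReal (24 / ((N:ℝ) ^ 2 * (1 + |((q.1:ℤ):ℝ) - q'.1|))) := by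
  have hN0 : (0:ℝ) < N := by exact_mod_cast hN
  have hsub : Tb N k q ∩ Tb N k' q' ⊆ {z : ℝ × (ℝ × ℝ) | z ∈ Tb N k q ∧ z.1 ∈ {t : ℝ | (1/2 ≤ t ∧ t ≤ 4) ∧
      |t * ((k'.1 - k.1 : ℤ):ℝ) - ((q.1 - q'.1 : ℤ):ℝ)| ≤ 1}} := by
    rintro z ⟨h, h'⟩
    refine ⟨h, h.1, ?_⟩
    have h1 := h.2.1
    have h1' := h'.2.1
    push_cast
    rw [abs_le]; constructor <;> nlinarith
  refine (measure_mono hsub).trans ((vol_Tb hN k q (mjl _ _)).trans ?_)
  refine (mul_le_mul' (jlen _ _) le_rfl).trans (le_of_eq ?_)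
  rw [← ENNReal.ofReal_mul (by positivity)]
  congr 1
  push_cast
  field_simp

theorem vol_pair2 {N : ℕ} (hN : 1 ≤ N) (k q k' q' : ℤ × ℤ) :
    volume (Tb N k q ∩ Tb N k' q') ≤ ENNReal.ofReal (24 / ((N:ℝ) ^ 2 * (1 + |((q.2:ℤ):ℝ) - q'.2|))) := by
  have hN0 : (0:ℝ) < N := by exact_mod_cast hN
  have hsub : Tb N k q ∩ Tb N k' q' ⊆ {z : ℝ × (ℝ × ℝ) | z ∈ Tb N k q ∧ z.1 ∈ {t : ℝ | (1/2 ≤ t ∧ t ≤ 4) ∧
      |t * ((k'.2 - k.2 : ℤ):ℝ) - ((q.2 - q'.2 : ℤ):ℝ)| ≤ 1}} := by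
    rintro z ⟨h, h'⟩
    refine ⟨h, h.1, ?_⟩
    have h1 := h.2.2
    have h1' := h'.2.2
    push_cast
    rw [abs_le]; constructor <;> nlinarith
  refine (measure_mono hsub).trans ((vol_Tb hN k q (mjl _ _)).trans ?_)
  refine (mul_le_mul' (jlen _ _) le_rfl).trans (le_of_eq ?_)
  rw [← ENNReal.ofReal_mul (by positivity)]
  congr 1
  push_cast
  field_simp

/-- integers in an interval -/
theorem card_int {J : Finset ℤ} {a r : ℝ} (hr : 0 ≤ r) (h : ∀ j ∈ J, |a - (j:ℝ)| ≤ r) : (J.card : ℝ) ≤ 2 * r + 1 := by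
  have hsub : J ⊆ Finset.Icc ⌈a - r⌉ ⌊a + r⌋ := by
    intro j hj
    have := abs_le.1 (h j hj)
    rw [Finset.mem_Icc]
    exact ⟨Int.ceil_le.2 (by linarith [this.2]), Int.le_floor.2 (by linarith [this.1])⟩
  have h1 : (J.card : ℝ) ≤ ((Finset.Icc ⌈a - r⌉ ⌊a + r⌋).card : ℝ) := by exact_mod_cast Finset.card_le_card hsub
  rw [Int.card_Icc] at h1
  have h2 : (((⌊a + r⌋ + 1 - ⌈a - r⌉).toNat : ℕ) : ℝ) ≤ 2 * r + 1 := by
    have h3 : ((⌊a + r⌋ : ℤ):ℝ) ≤ a + r := Int.floor_le _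
    have h4 : a - r ≤ ((⌈a - r⌉ : ℤ):ℝ) := Int.le_ceil _
    rcases le_total 0 (⌊a + r⌋ + 1 - ⌈a - r⌉) with h5 | h5
    · have : (((⌊a + r⌋ + 1 - ⌈a - r⌉).toNat : ℕ) : ℝ) = ((⌊a + r⌋ + 1 - ⌈a - r⌉ : ℤ) : ℝ) := by
        exact_mod_cast congrArg (fun x : ℤ => (x:ℝ)) (Int.toNat_of_nonneg h5)
      rw [this]; push_cast; linarith
    · rw [Int.toNat_of_nonpos h5]; push_cast; linarith
  linarith

/-- harmonic sum over integers -/
theorem harm {S : Finset ℤ} {M : ℕ} (h : ∀ m ∈ S, |m| ≤ (M:ℤ)) : ∑ m ∈ S, 1 / (1 + |(m:ℝ)|) ≤ 2 * (1 + Real.log (M + 1)) := by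
  classical
  have h1 : ∑ m ∈ S, 1 / (1 + |(m:ℝ)|) ≤ ∑ m ∈ Finset.Icc (-(M:ℤ)) M, 1 / (1 + |(m:ℝ)|) := by
    refine Finset.sum_le_sum_of_subset_of_nonneg ?_ ?_
    · intro m hm
      rw [Finset.mem_Icc]; exact abs_le.1 (h m hm)
    · intro m _ _; positivity
  have h2 : ∑ m ∈ Finset.Icc (-(M:ℤ)) M, 1 / (1 + |(m:ℝ)|) ≤ 2 * ∑ i ∈ Finset.range (M + 1), 1 / (1 + (i:ℝ)) := by
    have e : ∀ m ∈ Finset.Icc (-(M:ℤ)) M, m.natAbs ∈ Finset.range (M + 1) := by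
      intro m hm
      rw [Finset.mem_Icc] at hm
      rw [Finset.mem_range]; omega
    rw [← Finset.sum_fiberwise_of_maps_to e, Finset.mul_sum]
    refine Finset.sum_le_sum fun i _ => ?_
    calc ∑ m ∈ (Finset.Icc (-(M:ℤ)) M).filter (fun m => m.natAbs = i), 1 / (1 + |(m:ℝ)|)
        = ∑ m ∈ (Finset.Icc (-(M:ℤ)) M).filter (fun m => m.natAbs = i), 1 / (1 + (i:ℝ)) := by
          refine Finset.sum_congr rfl fun m hm => ?_
          have := (Finset.mem_filter.1 hm).2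
          rw [← this, Nat.cast_natAbs]; push_cast; rfl
      _ = (((Finset.Icc (-(M:ℤ)) M).filter (fun m => m.natAbs = i)).card : ℝ) * (1 / (1 + (i:ℝ))) := by
          rw [Finset.sum_const, nsmul_eq_mul]
      _ ≤ 2 * (1 / (1 + (i:ℝ))) := by
          refine mul_le_mul_of_nonneg_right ?_ (by positivity)
          have : (Finset.Icc (-(M:ℤ)) M).filter (fun m => m.natAbs = i) ⊆ {(i:ℤ), -(i:ℤ)} := by
            intro m hm
            have := (Finset.mem_filter.1 hm).2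
            simp only [Finset.mem_insert, Finset.mem_singleton]
            omega
          have h3 := (Finset.card_le_card this).trans Finset.card_le_two
          exact_mod_cast h3
  have h3 : ∑ i ∈ Finset.range (M + 1), 1 / (1 + (i:ℝ)) ≤ 1 + Real.log (M + 1) := by
    have h := harmonic_le_one_add_log (M + 1)
    have e : ((harmonic (M + 1) : ℚ) : ℝ) = ∑ i ∈ Finset.range (M + 1), 1 / (1 + (i:ℝ)) := by
      rw [harmonic]; push_cast
      refine Finset.sum_congr rfl fun i _ => ?_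
      rw [one_div, add_comm]
    rw [e] at h
    push_cast at h
    exact h
  linarith

end Vale.Agent.P106.Q.Hair
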