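import Vale.Agent.P106.Q.HairB

/-! # P106 / Q : hairbrush, upper half. Geometry of the slabs through the axis -/

open MeasureTheory Set
open scoped ENNReal NNReal

set_option linter.all false

namespace Vale.Agent.P106.Q.Hair

open Vale.Agent.P106.G

/-- selection of a coordinate (first or second), to treat both cases at once -/
structure Sel (N : ℕ) (c1 c2 : ℤ × ℤ → ℤ) (r1 r2 : ℝ × ℝ → ℝ) : Prop where
  mem : ∀ k q z, z ∈ Tb N k q ↔ (1/2 ≤ z.1 ∧ z.1 ≤ 4) ∧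
    (((c1 q:ℤ):ℝ) ≤ N * r1 z.2 - z.1 * c1 k ∧ N * r1 z.2 - z.1 * c1 k < c1 q + 1) ∧
    (((c2 q:ℤ):ℝ) ≤ N * r2 z.2 - z.1 * c2 k ∧ N * r2 z.2 - z.1 * c2 k < c2 q + 1)
  m1 : Measurable r1
  m2 : Measurable r2
  inj : ∀ q q', c1 q = c1 q' → c2 q = c2 q' → q = q'
  vol : ∀ k q k' q', volume (Tb N k q ∩ Tb N k' q') ≤ ENNReal.ofReal (24 / ((N:ℝ) ^ 2 * (1 + |((c1 q:ℤ):ℝ) - c1 q'|)))
  grd : ∀ k ∈ grd N, (0 ≤ c1 k ∧ c1 k < N) ∧ (0 ≤ c2 k ∧ c2 k < N)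

theorem sel1 {N : ℕ} (hN : 1 ≤ N) : Sel N Prod.fst Prod.snd Prod.fst Prod.snd where
  mem k q z := Iff.rfl
  m1 := measurable_fst
  m2 := measurable_snd
  inj q q' h h' := Prod.ext h h'
  vol k q k' q' := vol_pair1 hN k q k' q'
  grd k hk := by
    simp only [G.grd, Finset.mem_product, Finset.mem_Ico] at hk
    exact hk

theorem sel2 {N : ℕ} (hN : 1 ≤ N) : Sel N Prod.snd Prod.fst Prod.snd Prod.fst where
  mem k q z := by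
    unfold Tb
    simp only [mem_setOf_eq]
    tauto
  m1 := measurable_snd
  m2 := measurable_fst
  inj q q' h h' := Prod.ext h' h
  vol k q k' q' := vol_pair2 hN k q k' q'
  grd k hk := by
    simp only [G.grd, Finset.mem_product, Finset.mem_Ico] at hk
    exact ⟨hk.2, hk.1⟩

/-- slope of a direction, up to `1/N` -/
theorem slope {N c d1 d2 : ℝ} (hN : 1 ≤ N) (hc : 0 < c) (h1 : c * N ≤ |d1|) (h1' : |d1| ≤ N) (h2 : |d2| ≤ N) (j : ℤ)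
    (hj : j = ⌊N * (d2 / d1)⌋) : |d2 - j / N * d1| ≤ 1 ∧ |(j:ℝ) / N| ≤ 1 / c + 1 := by
  have hN0 : 0 < N := by linarith
  have hd0 : 0 < |d1| := lt_of_lt_of_le (by positivity) h1
  have hd1 : d1 ≠ 0 := abs_pos.1 hd0
  have e1 : (j:ℝ) ≤ N * (d2 / d1) := by rw [hj]; exact Int.floor_le _
  have e2 : N * (d2 / d1) < j + 1 := by rw [hj]; exact Int.lt_floor_add_one _
  have e3 : |d2 / d1 - j / N| ≤ 1 / N := by
    have e : d2 / d1 - j / N = (N * (d2 / d1) - j) / N := by field_simp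
    rw [e, abs_div, abs_of_pos hN0]
    gcongr
    rw [abs_le]; constructor <;> linarith
  constructor
  · have e : d2 - j / N * d1 = (d2 / d1 - j / N) * d1 := by field_simp
    rw [e, abs_mul]
    calc |d2 / d1 - j / N| * |d1| ≤ 1 / N * N := by gcongr
      _ = 1 := by field_simp
  · have h3 : |d2 / d1| ≤ 1 / c := by
      rw [abs_div, div_le_div_iff₀ hd0 hc]; nlinarith
    have h4 : |(j:ℝ) / N| ≤ |d2 / d1| + |d2 / d1 - j / N| := by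
      have e : (j:ℝ) / N = d2 / d1 - (d2 / d1 - j / N) := by ring
      calc |(j:ℝ) / N| = |d2 / d1 - (d2 / d1 - j / N)| := by rw [← e]
        _ ≤ _ := abs_sub _ _
    have h5 : 1 / N ≤ 1 := by rw [div_le_one hN0]; exact hN
    linarith

section

variable {N : ℕ} {c1 c2 : ℤ × ℤ → ℤ} {r1 r2 : ℝ × ℝ → ℝ}

/-- facts on a tube meeting the axis tube -/
theorem meet (S : Sel N c1 c2 r1 r2) {k0 q0 k q : ℤ × ℤ} (h : (Tb N k q ∩ Tb N k0 q0).Nonempty) :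
    ∃ t0 : ℝ, (1/2 ≤ t0 ∧ t0 ≤ 4) ∧
      |((c1 q:ℤ):ℝ) - c1 q0 + t0 * (((c1 k:ℤ):ℝ) - c1 k0)| ≤ 1 ∧ |((c2 q:ℤ):ℝ) - c2 q0 + t0 * (((c2 k:ℤ):ℝ) - c2 k0)| ≤ 1 := by
  obtain ⟨z, hz, hz0⟩ := h
  obtain ⟨ht, ⟨a1, a2⟩, ⟨b1, b2⟩⟩ := (S.mem k q z).1 hz
  obtain ⟨_, ⟨a3, a4⟩, ⟨b3, b4⟩⟩ := (S.mem k0 q0 z).1 hz0
  refine ⟨z.1, ht, ?_, ?_⟩
  · rw [abs_le]; constructor <;> nlinarith
  · rw [abs_le]; constructor <;> nlinarith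

/-- the class of a direction -/
noncomputable def clf (N : ℕ) (c1 c2 : ℤ × ℤ → ℤ) (k0 : ℤ × ℤ) (i : (ℤ × ℤ) × (ℤ × ℤ)) : ℤ :=
  ⌊(N:ℝ) * ((((c2 i.1:ℤ):ℝ) - c2 k0) / (((c1 i.1:ℤ):ℝ) - c1 k0))⌋

/-- the slab of slope `j / N` minus a neighbourhood of the axis -/
def Ysl (N : ℕ) (c1 c2 : ℤ × ℤ → ℤ) (r1 r2 : ℝ × ℝ → ℝ) (k0 q0 : ℤ × ℤ) (A B : ℝ) (j : ℤ) : Set (ℝ × (ℝ × ℝ)) :=
  {z | A ≤ |N * r1 z.2 - z.1 * c1 k0 - c1 q0| ∧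
    |(N * r2 z.2 - z.1 * c2 k0 - c2 q0) - j / N * (N * r1 z.2 - z.1 * c1 k0 - c1 q0)| ≤ B}

theorem mY (S : Sel N c1 c2 r1 r2) (k0 q0 : ℤ × ℤ) (A B : ℝ) (j : ℤ) : MeasurableSet (Ysl N c1 c2 r1 r2 k0 q0 A B j) := by
  have h1 : Measurable fun z : ℝ × (ℝ × ℝ) => (N:ℝ) * r1 z.2 - z.1 * c1 k0 - c1 q0 :=
    ((((S.m1.comp measurable_snd).const_mul _).sub (measurable_fst.mul_const _))).sub_const _
  have h2 : Measurable fun z : ℝ × (ℝ × ℝ) => (N:ℝ) * r2 z.2 - z.1 * c2 k0 - c2 q0 :=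
    ((((S.m2.comp measurable_snd).const_mul _).sub (measurable_fst.mul_const _))).sub_const _
  exact (measurableSet_le measurable_const (_root_.continuous_abs.measurable.comp h1)).inter
    (measurableSet_le (_root_.continuous_abs.measurable.comp (h2.sub (h1.const_mul _))) measurable_const)

/-- a tube of class `j` is in the slab, away from the axis outside a short interval of time -/
theorem in_slab (hN : 1 ≤ N) (S : Sel N c1 c2 r1 r2) {c A : ℝ} (hc : 0 < c) {k0 q0 k q : ℤ × ℤ} (hk0 : k0 ∈ grd N) (hk : k ∈ grd N)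
    (hd : c * N ≤ |((c1 k:ℤ):ℝ) - c1 k0|) {t0 : ℝ} (ht0 : 1/2 ≤ t0 ∧ t0 ≤ 4)
    (h1 : |((c1 q:ℤ):ℝ) - c1 q0 + t0 * (((c1 k:ℤ):ℝ) - c1 k0)| ≤ 1)
    (h2 : |((c2 q:ℤ):ℝ) - c2 q0 + t0 * (((c2 k:ℤ):ℝ) - c2 k0)| ≤ 1)
    {z : ℝ × (ℝ × ℝ)} (hz : z ∈ Tb N k q) (hA : A ≤ |z.1 - t0| * (c * N) - 2) :
    z ∈ Ysl N c1 c2 r1 r2 k0 q0 A (8 + 2 / c) (clf N c1 c2 k0 (k, q)) := by
  have hN0 : (1:ℝ) ≤ N := by exact_mod_cast hN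
  obtain ⟨ht, ⟨a1, a2⟩, ⟨b1, b2⟩⟩ := (S.mem k q z).1 hz
  obtain ⟨⟨g1, g2⟩, ⟨g3, g4⟩⟩ := S.grd k hk
  obtain ⟨⟨f1, f2⟩, ⟨f3, f4⟩⟩ := S.grd k0 hk0
  have g1' : (0:ℝ) ≤ c1 k := by exact_mod_cast g1
  have g2' : ((c1 k:ℤ):ℝ) < N := by exact_mod_cast g2
  have g3' : (0:ℝ) ≤ c2 k := by exact_mod_cast g3
  have g4' : ((c2 k:ℤ):ℝ) < N := by exact_mod_cast g4
  have f1' : (0:ℝ) ≤ c1 k0 := by exact_mod_cast f1
  have f2' : ((c1 k0:ℤ):ℝ) < N := by exact_mod_cast f2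
  have f3' : (0:ℝ) ≤ c2 k0 := by exact_mod_cast f3
  have f4' : ((c2 k0:ℤ):ℝ) < N := by exact_mod_cast f4
  set d1 : ℝ := ((c1 k:ℤ):ℝ) - c1 k0 with hd1
  set d2 : ℝ := ((c2 k:ℤ):ℝ) - c2 k0 with hd2
  have hd1' : |d1| ≤ N := by rw [abs_le]; constructor <;> linarith
  have hd2' : |d2| ≤ N := by rw [abs_le]; constructor <;> linarith
  obtain ⟨s1, s2⟩ := slope hN0 hc hd hd1' hd2' (clf N c1 c2 k0 (k, q)) rfl
  set μ : ℝ := ((clf N c1 c2 k0 (k, q) : ℤ) : ℝ) / N with hμ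
  set u1 : ℝ := ((c1 q:ℤ):ℝ) - c1 q0 + t0 * d1 with hu1
  set u2 : ℝ := ((c2 q:ℤ):ℝ) - c2 q0 + t0 * d2 with hu2
  set p1 : ℝ := N * r1 z.2 - z.1 * c1 k0 - c1 q0 with hp1
  set p2 : ℝ := N * r2 z.2 - z.1 * c2 k0 - c2 q0 with hp2
  have e1 : |p1 - (z.1 - t0) * d1| ≤ 2 := by
    have : p1 - (z.1 - t0) * d1 = (N * r1 z.2 - z.1 * c1 k - c1 q) + u1 := by rw [hp1, hu1, hd1]; ring
    rw [this]
    have := abs_le.1 h1
    rw [abs_le]; constructor <;> linarith [this.1, this.2]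
  have e2 : |p2 - (z.1 - t0) * d2| ≤ 2 := by
    have : p2 - (z.1 - t0) * d2 = (N * r2 z.2 - z.1 * c2 k - c2 q) + u2 := by rw [hp2, hu2, hd2]; ring
    rw [this]
    have := abs_le.1 h2
    rw [abs_le]; constructor <;> linarith [this.1, this.2]
  refine ⟨?_, ?_⟩
  · show A ≤ |p1|
    have h3 : |(z.1 - t0) * d1| ≤ |p1| + 2 := by
      have : (z.1 - t0) * d1 = p1 - (p1 - (z.1 - t0) * d1) := by ring
      calc |(z.1 - t0) * d1| = |p1 - (p1 - (z.1 - t0) * d1)| := by rw [← this]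
        _ ≤ |p1| + |p1 - (z.1 - t0) * d1| := abs_sub _ _
        _ ≤ _ := by linarith
    rw [abs_mul] at h3
    have h4 : |z.1 - t0| * (c * N) ≤ |z.1 - t0| * |d1| := by gcongr
    linarith
  · show |p2 - μ * p1| ≤ 8 + 2 / c
    have e : p2 - μ * p1 = (p2 - (z.1 - t0) * d2) - μ * (p1 - (z.1 - t0) * d1) + (z.1 - t0) * (d2 - μ * d1) := by ring
    rw [e]
    have h5 : |μ * (p1 - (z.1 - t0) * d1)| ≤ (1 / c + 1) * 2 := by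
      rw [abs_mul]; gcongr
    have h6 : |(z.1 - t0) * (d2 - μ * d1)| ≤ 4 * 1 := by
      rw [abs_mul]
      have : |z.1 - t0| ≤ 4 := by rw [abs_le]; constructor <;> linarith [ht.1, ht.2, ht0.1, ht0.2]
      gcongr
    have h7 := abs_add_le ((p2 - (z.1 - t0) * d2) - μ * (p1 - (z.1 - t0) * d1)) ((z.1 - t0) * (d2 - μ * d1))
    have h8 := abs_sub (p2 - (z.1 - t0) * d2) (μ * (p1 - (z.1 - t0) * d1))
    have e3 : 8 + 2 / c = 2 + (1 / c + 1) * 2 + 4 * 1 := by ring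
    linarith

/-- base cells of the tubes of a class -/
theorem base (hN : 1 ≤ N) (S : Sel N c1 c2 r1 r2) {c : ℝ} (hc : 0 < c) {k0 q0 k q : ℤ × ℤ} (hk0 : k0 ∈ grd N) (hk : k ∈ grd N)
    (hd : c * N ≤ |((c1 k:ℤ):ℝ) - c1 k0|) {t0 : ℝ} (ht0 : 1/2 ≤ t0 ∧ t0 ≤ 4)
    (h1 : |((c1 q:ℤ):ℝ) - c1 q0 + t0 * (((c1 k:ℤ):ℝ) - c1 k0)| ≤ 1)
    (h2 : |((c2 q:ℤ):ℝ) - c2 q0 + t0 * (((c2 k:ℤ):ℝ) - c2 k0)| ≤ 1) :
    |(((c2 q:ℤ):ℝ) - c2 q0) - ((clf N c1 c2 k0 (k, q) : ℤ) : ℝ) / N * (((c1 q:ℤ):ℝ) - c1 q0)| ≤ 6 + 1 / c ∧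
      |((c1 q:ℤ):ℝ) - c1 q0| ≤ 5 * N ∧ |((c2 q:ℤ):ℝ) - c2 q0| ≤ 5 * N := by
  have hN0 : (1:ℝ) ≤ N := by exact_mod_cast hN
  obtain ⟨⟨g1, g2⟩, ⟨g3, g4⟩⟩ := S.grd k hk
  obtain ⟨⟨f1, f2⟩, ⟨f3, f4⟩⟩ := S.grd k0 hk0
  have g1' : (0:ℝ) ≤ c1 k := by exact_mod_cast g1
  have g2' : ((c1 k:ℤ):ℝ) < N := by exact_mod_cast g2
  have g3' : (0:ℝ) ≤ c2 k := by exact_mod_cast g3
  have g4' : ((c2 k:ℤ):ℝ) < N := by exact_mod_cast g4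
  have f1' : (0:ℝ) ≤ c1 k0 := by exact_mod_cast f1
  have f2' : ((c1 k0:ℤ):ℝ) < N := by exact_mod_cast f2
  have f3' : (0:ℝ) ≤ c2 k0 := by exact_mod_cast f3
  have f4' : ((c2 k0:ℤ):ℝ) < N := by exact_mod_cast f4
  set d1 : ℝ := ((c1 k:ℤ):ℝ) - c1 k0 with hd1
  set d2 : ℝ := ((c2 k:ℤ):ℝ) - c2 k0 with hd2
  have hd1' : |d1| ≤ N := by rw [abs_le]; constructor <;> linarith
  have hd2' : |d2| ≤ N := by rw [abs_le]; constructor <;> linarith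
  obtain ⟨s1, s2⟩ := slope hN0 hc hd hd1' hd2' (clf N c1 c2 k0 (k, q)) rfl
  set μ : ℝ := ((clf N c1 c2 k0 (k, q) : ℤ) : ℝ) / N with hμ
  set a1 : ℝ := ((c1 q:ℤ):ℝ) - c1 q0 with ha1
  set a2 : ℝ := ((c2 q:ℤ):ℝ) - c2 q0 with ha2
  have bd : ∀ a d : ℝ, |a + t0 * d| ≤ 1 → |d| ≤ N → |a| ≤ 5 * N := by
    intro a d h h'
    have h3 : |t0 * d| ≤ 4 * N := by
      rw [abs_mul]
      have : |t0| ≤ 4 := by rw [abs_le]; constructor <;> linarith [ht0.1, ht0.2]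
      gcongr
    calc |a| = |(a + t0 * d) - t0 * d| := by ring_nf
      _ ≤ |a + t0 * d| + |t0 * d| := abs_sub _ _
      _ ≤ 5 * N := by linarith
  refine ⟨?_, bd a1 d1 h1 hd1', bd a2 d2 h2 hd2'⟩
  have e : a2 - μ * a1 = (a2 + t0 * d2) - μ * (a1 + t0 * d1) - t0 * (d2 - μ * d1) := by ring
  rw [e]
  have h5 : |μ * (a1 + t0 * d1)| ≤ (1 / c + 1) * 1 := by
    rw [abs_mul]; gcongr
  have h6 : |t0 * (d2 - μ * d1)| ≤ 4 * 1 := by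
    rw [abs_mul]
    have : |t0| ≤ 4 := by rw [abs_le]; constructor <;> linarith [ht0.1, ht0.2]
    gcongr
  have h7 := abs_sub ((a2 + t0 * d2) - μ * (a1 + t0 * d1)) (t0 * (d2 - μ * d1))
  have h8 := abs_sub (a2 + t0 * d2) (μ * (a1 + t0 * d1))
  linarith

/-- overlap of the slabs away from the axis -/
theorem overlap (hN : 1 ≤ N) {A B : ℝ} (hA : 0 < A) (hB : 0 ≤ B) (k0 q0 : ℤ × ℤ) (z : ℝ × (ℝ × ℝ)) (J : Finset ℤ)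
    (h : ∀ j ∈ J, z ∈ Ysl N c1 c2 r1 r2 k0 q0 A B j) : (J.card : ℝ) ≤ 2 * (B * N / A) + 1 := by
  have hN0 : (0:ℝ) < N := by exact_mod_cast hN
  refine card_int (a := (N * r2 z.2 - z.1 * c2 k0 - c2 q0) * N / (N * r1 z.2 - z.1 * c1 k0 - c1 q0)) (by positivity) ?_
  intro j hj
  obtain ⟨h1, h2⟩ := h j hj
  set p1 : ℝ := N * r1 z.2 - z.1 * c1 k0 - c1 q0 with hp1
  set p2 : ℝ := N * r2 z.2 - z.1 * c2 k0 - c2 q0 with hp2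
  have hp : 0 < |p1| := lt_of_lt_of_le hA h1
  have hp' : p1 ≠ 0 := abs_pos.1 hp
  have e : p2 * N / p1 - j = (p2 - j / N * p1) * N / p1 := by field_simp
  rw [e, abs_div, abs_mul, abs_of_pos hN0]
  calc |p2 - ↑j / ↑N * p1| * N / |p1| ≤ B * N / |p1| := by gcongr
    _ ≤ B * N / A := by gcongr

end

end Vale.Agent.P106.Q.Hair
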