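import Vale.Agent.P106.Q.HairC

/-! # P106 / Q : hairbrush, upper half. Assembly -/

open MeasureTheory Set
open scoped ENNReal NNReal

set_option linter.all false

namespace Vale.Agent.P106.Q.Hair

open Vale.Agent.P106.G

variable {N : ℕ} {c1 c2 : ℤ × ℤ → ℤ} {r1 r2 : ℝ × ℝ → ℝ}

/-- the tubes of a family meet `T0` and have direction far from that of `T0` -/
structure Fam (N : ℕ) (c1 : ℤ × ℤ → ℤ) (c : ℝ) (k0 q0 : ℤ × ℤ) (H : Finset ((ℤ × ℤ) × (ℤ × ℤ))) : Prop where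
  hk0 : k0 ∈ grd N
  hg : ∀ i ∈ H, i.1 ∈ grd N
  hd : ∀ i ∈ H, c * N ≤ |((c1 i.1:ℤ):ℝ) - c1 k0|
  hm : ∀ i ∈ H, (Tb N i.1 i.2 ∩ Tb N k0 q0).Nonempty

/-- Cordoba sum in a slab -/
theorem cord (hN : 1 ≤ N) (S : Sel N c1 c2 r1 r2) {c : ℝ} (hc : 0 < c) {k0 q0 : ℤ × ℤ} {H : Finset ((ℤ × ℤ) × (ℤ × ℤ))}
    (F : Fam N c1 c k0 q0 H) {w : (ℤ × ℤ) × (ℤ × ℤ) → ℝ≥0∞}
    (hw : ∀ q, ∑ i ∈ H.filter (fun i => i.2 = q), w i ≤ 1) {i : (ℤ × ℤ) × (ℤ × ℤ)} (hi : i ∈ H) :
    ∑ j ∈ H.filter (fun j => clf N c1 c2 k0 j = clf N c1 c2 k0 i), w j * volume (Tb N i.1 i.2 ∩ Tb N j.1 j.2) ≤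
      ENNReal.ofReal ((13 + 2 / c) * (192 * (1 + Real.log N) / (N:ℝ) ^ 2)) := by
  classical
  have hN0 : (1:ℝ) ≤ N := by exact_mod_cast hN
  have hNp : (0:ℝ) < N := by linarith
  have hl : 0 ≤ Real.log N := Real.log_nonneg hN0
  set μ : ℝ := ((clf N c1 c2 k0 i : ℤ) : ℝ) / N with hμ
  set Hj := H.filter (fun j => clf N c1 c2 k0 j = clf N c1 c2 k0 i) with hHj
  have hb : ∀ j ∈ H, |(((c2 j.2:ℤ):ℝ) - c2 q0) - ((clf N c1 c2 k0 j : ℤ) : ℝ) / N * (((c1 j.2:ℤ):ℝ) - c1 q0)| ≤ 6 + 1 / c ∧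
      |((c1 j.2:ℤ):ℝ) - c1 q0| ≤ 5 * N ∧ |((c2 j.2:ℤ):ℝ) - c2 q0| ≤ 5 * N := by
    intro j hj
    obtain ⟨t0, ht0, h1, h2⟩ := meet S (F.hm j hj)
    exact base hN S hc F.hk0 (F.hg j hj) (F.hd j hj) ht0 h1 h2
  set g : ℤ → ℝ := fun n => 24 / ((N:ℝ) ^ 2 * (1 + |((c1 i.2:ℤ):ℝ) - n|)) with hg
  have hg0 : ∀ n, 0 ≤ g n := fun n => by positivity
  set Q := Hj.image (fun j => j.2) with hQ
  have hQm : ∀ q ∈ Q, |(((c2 q:ℤ):ℝ) - c2 q0) - μ * (((c1 q:ℤ):ℝ) - c1 q0)| ≤ 6 + 1 / c ∧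
      |((c1 q:ℤ):ℝ) - c1 q0| ≤ 5 * N := by
    intro q hq
    obtain ⟨j, hj, rfl⟩ := Finset.mem_image.1 hq
    obtain ⟨hjH, hje⟩ := Finset.mem_filter.1 hj
    have := hb j hjH
    rw [hje] at this
    exact ⟨this.1, this.2.1⟩
  calc ∑ j ∈ Hj, w j * volume (Tb N i.1 i.2 ∩ Tb N j.1 j.2) ≤ ∑ j ∈ Hj, w j * ENNReal.ofReal (g (c1 j.2)) := by
        refine Finset.sum_le_sum fun j _ => mul_le_mul' le_rfl (S.vol _ _ _ _)
    _ = ∑ q ∈ Q, ∑ j ∈ Hj.filter (fun j => j.2 = q), w j * ENNReal.ofReal (g (c1 j.2)) := by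
        rw [Finset.sum_fiberwise_of_maps_to]
        intro j hj; exact Finset.mem_image_of_mem _ hj
    _ ≤ ∑ q ∈ Q, ENNReal.ofReal (g (c1 q)) := by
        refine Finset.sum_le_sum fun q _ => ?_
        calc ∑ j ∈ Hj.filter (fun j => j.2 = q), w j * ENNReal.ofReal (g (c1 j.2))
            = (∑ j ∈ Hj.filter (fun j => j.2 = q), w j) * ENNReal.ofReal (g (c1 q)) := by
              rw [Finset.sum_mul]
              refine Finset.sum_congr rfl fun j hj => ?_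
              rw [(Finset.mem_filter.1 hj).2]
          _ ≤ 1 * ENNReal.ofReal (g (c1 q)) := by
              refine mul_le_mul' (le_trans (Finset.sum_le_sum_of_subset ?_) (hw q)) le_rfl
              intro j hj
              rw [Finset.mem_filter] at hj ⊢
              exact ⟨(Finset.mem_filter.1 hj.1).1, hj.2⟩
          _ = _ := one_mul _
    _ = ENNReal.ofReal (∑ q ∈ Q, g (c1 q)) := (ENNReal.ofReal_sum_of_nonneg fun q _ => hg0 _).symm
    _ ≤ _ := by
        refine ENNReal.ofReal_le_ofReal ?_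
        calc ∑ q ∈ Q, g (c1 q) = ∑ n ∈ Q.image c1, ∑ q ∈ Q.filter (fun q => c1 q = n), g (c1 q) := by
              rw [Finset.sum_fiberwise_of_maps_to]
              intro j hj; exact Finset.mem_image_of_mem _ hj
          _ ≤ ∑ n ∈ Q.image c1, (13 + 2 / c) * g n := by
              refine Finset.sum_le_sum fun n _ => ?_
              have e : ∑ q ∈ Q.filter (fun q => c1 q = n), g (c1 q) = ((Q.filter (fun q => c1 q = n)).card : ℝ) * g n := by
                rw [← nsmul_eq_mul, ← Finset.sum_const]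
                refine Finset.sum_congr rfl fun q hq => ?_
                rw [(Finset.mem_filter.1 hq).2]
              rw [e]
              refine mul_le_mul_of_nonneg_right ?_ (hg0 n)
              have hinj : Set.InjOn c2 (Q.filter (fun q => c1 q = n)) := by
                intro q hq q' hq' h
                exact S.inj q q' (((Finset.mem_filter.1 hq).2).trans ((Finset.mem_filter.1 hq').2).symm) h
              rw [← Finset.card_image_of_injOn hinj]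
              have h13 : 13 + 2 / c = 2 * (6 + 1 / c) + 1 := by ring
              rw [h13]
              refine card_int (a := c2 q0 + μ * (n - c1 q0)) (by positivity) ?_
              intro m hm
              obtain ⟨q, hq, rfl⟩ := Finset.mem_image.1 hm
              obtain ⟨hqQ, hqn⟩ := Finset.mem_filter.1 hq
              have := (hQm q hqQ).1
              rw [hqn] at this
              rw [abs_sub_comm]
              convert this using 2
              ring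
          _ = (13 + 2 / c) * ∑ n ∈ Q.image c1, g n := by rw [Finset.mul_sum]
          _ ≤ (13 + 2 / c) * (192 * (1 + Real.log N) / (N:ℝ) ^ 2) := by
              refine mul_le_mul_of_nonneg_left ?_ (by positivity)
              have e1 : ∑ n ∈ Q.image c1, g n = 24 / (N:ℝ) ^ 2 * ∑ m ∈ (Q.image c1).image (fun n => n - c1 i.2), 1 / (1 + |(m:ℝ)|) := by
                rw [Finset.sum_image (s := Q.image c1) (g := fun n => n - c1 i.2) (f := fun m : ℤ => 1 / (1 + |(m:ℝ)|))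
                  (fun x _ y _ h => by simpa using h), Finset.mul_sum]
                refine Finset.sum_congr rfl fun n _ => ?_
                rw [hg]
                simp only
                rw [abs_sub_comm]
                push_cast
                field_simp
              rw [e1]
              have e2 := harm (S := (Q.image c1).image (fun n => n - c1 i.2)) (M := 10 * N) (by
                intro m hm
                obtain ⟨n, hn, rfl⟩ := Finset.mem_image.1 hm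
                obtain ⟨q, hq, rfl⟩ := Finset.mem_image.1 hn
                have h1 := (hQm q hq).2
                have h2 := (hb i hi).2.1
                have h3 : |((c1 q:ℤ):ℝ) - c1 i.2| ≤ 10 * N := by
                  have := abs_sub_le ((c1 q:ℤ):ℝ) (c1 q0) (c1 i.2)
                  rw [abs_sub_comm ((c1 q0:ℤ):ℝ) (c1 i.2)] at this
                  linarith
                exact_mod_cast h3)
              have e3 : Real.log (((10 * N : ℕ):ℝ) + 1) ≤ 3 + Real.log N := by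
                have h4 : ((10 * N : ℕ):ℝ) + 1 ≤ 11 * N := by push_cast; linarith
                have h5 : Real.log (((10 * N : ℕ):ℝ) + 1) ≤ Real.log (11 * N) := Real.log_le_log (by positivity) h4
                rw [Real.log_mul (by norm_num) (by linarith)] at h5
                have h6 : Real.log 11 ≤ 3 := by
                  rw [Real.log_le_iff_le_exp (by norm_num)]
                  have h7 : (2.7182818283:ℝ) < Real.exp 1 := Real.exp_one_gt_d9
                  have h8 : Real.exp 3 = Real.exp 1 ^ 3 := by rw [← Real.exp_nat_mul]; norm_num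
                  rw [h8]
                  have h9 : (2.7:ℝ) ^ 3 ≤ Real.exp 1 ^ 3 := by gcongr; linarith
                  have h10 : (11:ℝ) ≤ (2.7:ℝ) ^ 3 := by norm_num
                  linarith
                linarith
              calc 24 / (N:ℝ) ^ 2 * ∑ m ∈ (Q.image c1).image (fun n => n - c1 i.2), 1 / (1 + |(m:ℝ)|)
                  ≤ 24 / (N:ℝ) ^ 2 * (2 * (1 + Real.log (((10 * N : ℕ):ℝ) + 1))) := by gcongr
                _ ≤ 24 / (N:ℝ) ^ 2 * (8 * (1 + Real.log N)) := mul_le_mul_of_nonneg_left (by linarith) (by positivity)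
                _ = _ := by ring

/-- the constant -/
noncomputable def Cst (c : ℝ) : ℝ := 768 * (13 + 2 / c) * (2 * ((8 + 2 / c) * 16 / c) + 1) + 200 * (32 / c) ^ 2

theorem Cst0 {c : ℝ} (hc : 0 < c) : 0 ≤ Cst c := by unfold Cst; positivity

/-- main case: the axis neighbourhood is thick -/
theorem half_big (hN : 1 ≤ N) (S : Sel N c1 c2 r1 r2) {c e : ℝ} (hc : 0 < c) (he : 0 < e) (he1 : e ≤ 1) (hbig : 32 ≤ e * c * N)
    {k0 q0 : ℤ × ℤ} {H : Finset ((ℤ × ℤ) × (ℤ × ℤ))} (F : Fam N c1 c k0 q0 H) {w : (ℤ × ℤ) × (ℤ × ℤ) → ℝ≥0∞}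
    (hwt : ∀ i ∈ H, w i ≠ ⊤)
    (hw : ∀ q, ∑ i ∈ H.filter (fun i => i.2 = q), w i ≤ 1) {X : Set (ℝ × (ℝ × ℝ))} (mX : MeasurableSet X)
    (hX : ∀ i ∈ H, ENNReal.ofReal (e / (N:ℝ) ^ 2) ≤ volume (Tb N i.1 i.2 ∩ X)) :
    ENNReal.ofReal (e ^ 3) * ∑ i ∈ H, w i ≤ ENNReal.ofReal (Cst c * (N:ℝ) ^ 2 * (1 + Real.log N)) * volume X := by
  have hN0 : (1:ℝ) ≤ N := by exact_mod_cast hN
  have hNp : (0:ℝ) < N := by linarith
  have hl : 0 ≤ Real.log N := Real.log_nonneg hN0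
  set A : ℝ := e * c * N / 16 with hA
  have hA0 : 0 < A := by positivity
  have key := cor2 (μ := (volume : Measure (ℝ × (ℝ × ℝ)))) H w (fun i => Tb N i.1 i.2) (fun i => mTb N i.1 i.2)
    (clf N c1 c2 k0) (Ysl N c1 c2 r1 r2 k0 q0 A (8 + 2 / c)) mX (mY S k0 q0 A _)
    (A := ENNReal.ofReal (e / 2 / (N:ℝ) ^ 2)) (B := ENNReal.ofReal ((13 + 2 / c) * (192 * (1 + Real.log N) / (N:ℝ) ^ 2)))
    (M := 2 * ((8 + 2 / c) * N / A) + 1) (by positivity) ?_ ?_ ?_ ?_
  · -- conclusion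
    have hM : 2 * ((8 + 2 / c) * N / A) + 1 ≤ (2 * ((8 + 2 / c) * 16 / c) + 1) / e := by
      rw [le_div_iff₀ he]
      have e1 : (2 * ((8 + 2 / c) * N / A) + 1) * e = 2 * ((8 + 2 / c) * 16 / c) + e := by
        rw [hA]; field_simp
      rw [e1]; linarith
    have k2 : ENNReal.ofReal (4 * e * (N:ℝ) ^ 4) * (ENNReal.ofReal (e / 2 / (N:ℝ) ^ 2) ^ 2 * ∑ i ∈ H, w i) ≤
        ENNReal.ofReal (4 * e * (N:ℝ) ^ 4) * (ENNReal.ofReal ((13 + 2 / c) * (192 * (1 + Real.log N) / (N:ℝ) ^ 2)) *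
          (ENNReal.ofReal (2 * ((8 + 2 / c) * N / A) + 1) * volume X)) := mul_le_mul' le_rfl key
    have e1 : ENNReal.ofReal (4 * e * (N:ℝ) ^ 4) * (ENNReal.ofReal (e / 2 / (N:ℝ) ^ 2) ^ 2 * ∑ i ∈ H, w i) =
        ENNReal.ofReal (e ^ 3) * ∑ i ∈ H, w i := by
      rw [← mul_assoc, ← ENNReal.ofReal_pow (by positivity), ← ENNReal.ofReal_mul (by positivity)]
      congr 2
      field_simp; ring
    rw [e1] at k2
    refine k2.trans ?_
    rw [← mul_assoc, ← mul_assoc, ← ENNReal.ofReal_mul (by positivity), ← ENNReal.ofReal_mul (by positivity)]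
    refine mul_le_mul' (ENNReal.ofReal_le_ofReal ?_) le_rfl
    calc 4 * e * (N:ℝ) ^ 4 * ((13 + 2 / c) * (192 * (1 + Real.log N) / (N:ℝ) ^ 2)) * (2 * ((8 + 2 / c) * N / A) + 1)
        ≤ 4 * e * (N:ℝ) ^ 4 * ((13 + 2 / c) * (192 * (1 + Real.log N) / (N:ℝ) ^ 2)) * ((2 * ((8 + 2 / c) * 16 / c) + 1) / e) := by
          gcongr
      _ = 768 * (13 + 2 / c) * (2 * ((8 + 2 / c) * 16 / c) + 1) * (N:ℝ) ^ 2 * (1 + Real.log N) := by
          field_simp; ring
      _ ≤ Cst c * (N:ℝ) ^ 2 * (1 + Real.log N) := by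
          have : 768 * (13 + 2 / c) * (2 * ((8 + 2 / c) * 16 / c) + 1) ≤ Cst c := by
            unfold Cst
            have : 0 ≤ 200 * (32 / c) ^ 2 := by positivity
            linarith
          gcongr
  · exact (ENNReal.sum_lt_top.2 fun i hi => lt_top_iff_ne_top.2 (hwt i hi)).ne
  · intro i hi
    obtain ⟨t0, ht0, h1, h2⟩ := meet S (F.hm i hi)
    have hsub : Tb N i.1 i.2 ∩ X ⊆ (Tb N i.1 i.2 ∩ (X ∩ Ysl N c1 c2 r1 r2 k0 q0 A (8 + 2 / c) (clf N c1 c2 k0 i))) ∪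
        {z | z ∈ Tb N i.1 i.2 ∧ z.1 ∈ Icc (t0 - e / 8) (t0 + e / 8)} := by
      rintro z ⟨hz, hzX⟩
      by_cases h : |z.1 - t0| ≤ e / 8
      · right
        have := abs_le.1 h
        exact ⟨hz, by linarith [this.1], by linarith [this.2]⟩
      · left
        push Not at h
        refine ⟨hz, hzX, ?_⟩
        refine in_slab hN S hc F.hk0 (F.hg i hi) (F.hd i hi) ht0 h1 h2 hz ?_
        rw [hA]
        have : e / 8 * (c * N) ≤ |z.1 - t0| * (c * N) := by gcongr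
        nlinarith
    have h3 := (hX i hi).trans ((measure_mono hsub).trans (measure_union_le _ _))
    have h4 : volume {z | z ∈ Tb N i.1 i.2 ∧ z.1 ∈ Icc (t0 - e / 8) (t0 + e / 8)} ≤ ENNReal.ofReal (e / 4 / (N:ℝ) ^ 2) := by
      refine (vol_Tb hN _ _ measurableSet_Icc).trans (le_of_eq ?_)
      rw [Real.volume_Icc, ← ENNReal.ofReal_mul (by linarith)]
      congr 1; field_simp; ring
    have h5 : ENNReal.ofReal (e / (N:ℝ) ^ 2) ≤
        volume (Tb N i.1 i.2 ∩ (X ∩ Ysl N c1 c2 r1 r2 k0 q0 A (8 + 2 / c) (clf N c1 c2 k0 i))) + ENNReal.ofReal (e / 2 / (N:ℝ) ^ 2) := by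
      refine h3.trans (add_le_add le_rfl (h4.trans (ENNReal.ofReal_le_ofReal ?_)))
      gcongr; norm_num
    have h6 : ENNReal.ofReal (e / (N:ℝ) ^ 2) = ENNReal.ofReal (e / 2 / (N:ℝ) ^ 2) + ENNReal.ofReal (e / 2 / (N:ℝ) ^ 2) := by
      rw [← ENNReal.ofReal_add (by positivity) (by positivity)]
      congr 1; field_simp; ring
    rw [h6] at h5
    exact (ENNReal.add_le_add_iff_right ENNReal.ofReal_ne_top).1 h5
  · intro i hi
    exact cord hN S hc F hw hi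
  · intro z J hJ
    exact overlap hN hA0 (by positivity) k0 q0 z J hJ

/-- trivial case: the axis neighbourhood is thin -/
theorem half_small (hN : 1 ≤ N) (S : Sel N c1 c2 r1 r2) {c e : ℝ} (hc : 0 < c) (he : 0 < e) (he1 : e ≤ 1) (hsm : e * c * N < 32)
    {k0 q0 : ℤ × ℤ} {H : Finset ((ℤ × ℤ) × (ℤ × ℤ))} (F : Fam N c1 c k0 q0 H) {w : (ℤ × ℤ) × (ℤ × ℤ) → ℝ≥0∞}
    (hw : ∀ q, ∑ i ∈ H.filter (fun i => i.2 = q), w i ≤ 1) {X : Set (ℝ × (ℝ × ℝ))}
    (hX : ∀ i ∈ H, ENNReal.ofReal (e / (N:ℝ) ^ 2) ≤ volume (Tb N i.1 i.2 ∩ X)) :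
    ENNReal.ofReal (e ^ 3) * ∑ i ∈ H, w i ≤ ENNReal.ofReal (Cst c * (N:ℝ) ^ 2 * (1 + Real.log N)) * volume X := by
  classical
  have hN0 : (1:ℝ) ≤ N := by exact_mod_cast hN
  have hNp : (0:ℝ) < N := by linarith
  have hl : 0 ≤ Real.log N := Real.log_nonneg hN0
  rcases H.eq_empty_or_nonempty with h0 | ⟨i0, hi0⟩
  · rw [h0]; simp
  have hX0 := (hX i0 hi0).trans (measure_mono inter_subset_right)
  have hs : ∑ i ∈ H, w i ≤ ENNReal.ofReal (121 * (N:ℝ) ^ 2) := by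
    have e1 : ∑ i ∈ H, w i = ∑ q ∈ H.image (fun j => j.2), ∑ i ∈ H.filter (fun i => i.2 = q), w i := by
      rw [Finset.sum_fiberwise_of_maps_to]
      intro j hj; exact Finset.mem_image_of_mem _ hj
    have e2 : ∑ q ∈ H.image (fun j => j.2), ∑ i ∈ H.filter (fun i => i.2 = q), w i ≤ ((H.image (fun j => j.2)).card : ℝ≥0∞) := by
      refine (Finset.sum_le_sum fun q _ => hw q).trans (le_of_eq ?_)
      simp
    have e3 : ((H.image (fun j => j.2)).card : ℝ) ≤ 121 * (N:ℝ) ^ 2 := by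
      have hinj : Set.InjOn (fun q : ℤ × ℤ => (c1 q, c2 q)) (H.image (fun j => j.2)) := by
        intro q _ q' _ h
        exact S.inj q q' (congrArg Prod.fst h) (congrArg Prod.snd h)
      rw [← Finset.card_image_of_injOn hinj]
      set P := (H.image (fun j => j.2)).image (fun q : ℤ × ℤ => (c1 q, c2 q)) with hP
      have hb : ∀ x ∈ P, |((c1 q0:ℤ):ℝ) - x.1| ≤ 5 * N ∧ |((c2 q0:ℤ):ℝ) - x.2| ≤ 5 * N := by
        intro x hx
        obtain ⟨q, hq, rfl⟩ := Finset.mem_image.1 hx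
        obtain ⟨j, hj, rfl⟩ := Finset.mem_image.1 hq
        obtain ⟨t0, ht0, h1, h2⟩ := meet S (F.hm j hj)
        have := base hN S hc F.hk0 (F.hg j hj) (F.hd j hj) ht0 h1 h2
        rw [abs_sub_comm, abs_sub_comm ((c2 q0:ℤ):ℝ)]
        exact this.2
      have hsub : P ⊆ P.image Prod.fst ×ˢ P.image Prod.snd := Finset.subset_product
      have h1 := Finset.card_le_card hsub
      rw [Finset.card_product] at h1
      have h2 : ((P.image Prod.fst).card : ℝ) ≤ 2 * (5 * N) + 1 := by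
        refine card_int (a := ((c1 q0:ℤ):ℝ)) (by positivity) ?_
        intro j hj
        obtain ⟨x, hx, rfl⟩ := Finset.mem_image.1 hj
        exact (hb x hx).1
      have h3 : ((P.image Prod.snd).card : ℝ) ≤ 2 * (5 * N) + 1 := by
        refine card_int (a := ((c2 q0:ℤ):ℝ)) (by positivity) ?_
        intro j hj
        obtain ⟨x, hx, rfl⟩ := Finset.mem_image.1 hj
        exact (hb x hx).2
      have h4 : (P.card : ℝ) ≤ ((P.image Prod.fst).card : ℝ) * ((P.image Prod.snd).card : ℝ) := by exact_mod_cast h1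
      calc (P.card : ℝ) ≤ ((P.image Prod.fst).card : ℝ) * ((P.image Prod.snd).card : ℝ) := h4
        _ ≤ (11 * N) * (11 * N) := by gcongr <;> linarith
        _ = _ := by ring
    rw [e1]
    refine e2.trans ?_
    rw [← ENNReal.ofReal_natCast]
    exact ENNReal.ofReal_le_ofReal e3
  have h5 : e ^ 3 * (121 * (N:ℝ) ^ 2) ≤ Cst c * (N:ℝ) ^ 2 * (1 + Real.log N) * (e / (N:ℝ) ^ 2) := by
    have h6 : e * N ≤ 32 / c := by rw [le_div_iff₀ hc]; nlinarith
    have h7 : (e * N) ^ 2 ≤ (32 / c) ^ 2 := by gcongr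
    have h8 : 121 * (32 / c) ^ 2 ≤ Cst c := by
      unfold Cst
      have : 0 ≤ 768 * (13 + 2 / c) * (2 * ((8 + 2 / c) * 16 / c) + 1) := by positivity
      nlinarith [sq_nonneg (32 / c)]
    have h9 := Cst0 hc
    calc e ^ 3 * (121 * (N:ℝ) ^ 2) = e * (121 * (e * N) ^ 2) := by ring
      _ ≤ e * (121 * (32 / c) ^ 2) := by gcongr
      _ ≤ e * Cst c := by gcongr
      _ ≤ e * (Cst c * (1 + Real.log N)) := by
          refine mul_le_mul_of_nonneg_left ?_ he.le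
          nlinarith
      _ = _ := by field_simp
  calc ENNReal.ofReal (e ^ 3) * ∑ i ∈ H, w i ≤ ENNReal.ofReal (e ^ 3) * ENNReal.ofReal (121 * (N:ℝ) ^ 2) := by gcongr
    _ = ENNReal.ofReal (e ^ 3 * (121 * (N:ℝ) ^ 2)) := by rw [← ENNReal.ofReal_mul (by positivity)]
    _ ≤ ENNReal.ofReal (Cst c * (N:ℝ) ^ 2 * (1 + Real.log N) * (e / (N:ℝ) ^ 2)) := ENNReal.ofReal_le_ofReal h5
    _ = ENNReal.ofReal (Cst c * (N:ℝ) ^ 2 * (1 + Real.log N)) * ENNReal.ofReal (e / (N:ℝ) ^ 2) := by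
        rw [← ENNReal.ofReal_mul (by have := Cst0 hc; positivity)]
    _ ≤ _ := by gcongr

theorem half (hN : 1 ≤ N) (S : Sel N c1 c2 r1 r2) {c e : ℝ} (hc : 0 < c) (he : 0 < e) (he1 : e ≤ 1)
    {k0 q0 : ℤ × ℤ} {H : Finset ((ℤ × ℤ) × (ℤ × ℤ))} (F : Fam N c1 c k0 q0 H) {w : (ℤ × ℤ) × (ℤ × ℤ) → ℝ≥0∞}
    (hwt : ∀ i ∈ H, w i ≠ ⊤)
    (hw : ∀ q, ∑ i ∈ H.filter (fun i => i.2 = q), w i ≤ 1) {X : Set (ℝ × (ℝ × ℝ))} (mX : MeasurableSet X)
    (hX : ∀ i ∈ H, ENNReal.ofReal (e / (N:ℝ) ^ 2) ≤ volume (Tb N i.1 i.2 ∩ X)) :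
    ENNReal.ofReal (e ^ 3) * ∑ i ∈ H, w i ≤ ENNReal.ofReal (Cst c * (N:ℝ) ^ 2 * (1 + Real.log N)) * volume X := by
  rcases le_or_gt 32 (e * c * N) with h | h
  · exact half_big hN S hc he he1 h F hwt hw mX hX
  · exact half_small hN S hc he he1 h F hw hX

/-- the hairbrush bound -/
theorem hair {N : ℕ} (hN : 1 ≤ N) {c e : ℝ} (hc : 0 < c) (he : 0 < e) (he1 : e ≤ 1)
    {k0 q0 : ℤ × ℤ} (hk0 : k0 ∈ grd N) {H : Finset ((ℤ × ℤ) × (ℤ × ℤ))} {w : (ℤ × ℤ) × (ℤ × ℤ) → ℝ≥0∞}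
    (hg : ∀ i ∈ H, i.1 ∈ grd N)
    (hd : ∀ i ∈ H, c ≤ |((i.1.1:ℝ) - k0.1) / N| ∨ c ≤ |((i.1.2:ℝ) - k0.2) / N|)
    (hm : ∀ i ∈ H, (Tb N i.1 i.2 ∩ Tb N k0 q0).Nonempty)
    (hwt : ∀ i ∈ H, w i ≠ ⊤)
    (hw : ∀ q, ∑ i ∈ H.filter (fun i => i.2 = q), w i ≤ 1) {X : Set (ℝ × (ℝ × ℝ))} (mX : MeasurableSet X)
    (hX : ∀ i ∈ H, ENNReal.ofReal (e / (N:ℝ) ^ 2) ≤ volume (Tb N i.1 i.2 ∩ X)) :
    ENNReal.ofReal (e ^ 3) * ∑ i ∈ H, w i ≤ ENNReal.ofReal (2 * Cst c * (N:ℝ) ^ 2 * (1 + Real.log N)) * volume X := by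
  classical
  have hN0 : (1:ℝ) ≤ N := by exact_mod_cast hN
  have hNp : (0:ℝ) < N := by linarith
  have hl : 0 ≤ Real.log N := Real.log_nonneg hN0
  have sub_w : ∀ (H' : Finset ((ℤ × ℤ) × (ℤ × ℤ))), H' ⊆ H → ∀ q, ∑ i ∈ H'.filter (fun i => i.2 = q), w i ≤ 1 := by
    intro H' h q
    exact (Finset.sum_le_sum_of_subset (Finset.filter_subset_filter _ h)).trans (hw q)
  have conv : ∀ a : ℝ, c ≤ |a / N| → c * N ≤ |a| := by
    intro a h
    rw [abs_div, abs_of_pos hNp, le_div_iff₀ hNp] at h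
    exact h
  have h1 := half (w := w) (X := X) hN (sel1 hN) hc he he1 (k0 := k0) (q0 := q0)
    (H := H.filter fun i => c ≤ |((i.1.1:ℝ) - k0.1) / N|)
    ⟨hk0, fun i hi => hg i (Finset.mem_filter.1 hi).1, fun i hi => conv _ (Finset.mem_filter.1 hi).2,
      fun i hi => hm i (Finset.mem_filter.1 hi).1⟩
    (fun i hi => hwt i (Finset.mem_filter.1 hi).1) (sub_w _ (Finset.filter_subset _ _)) mX
    (fun i hi => hX i (Finset.mem_filter.1 hi).1)
  have h2 := half (w := w) (X := X) hN (sel2 hN) hc he he1 (k0 := k0) (q0 := q0)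
    (H := H.filter fun i => ¬ c ≤ |((i.1.1:ℝ) - k0.1) / N|)
    ⟨hk0, fun i hi => hg i (Finset.mem_filter.1 hi).1, fun i hi => conv _
      ((hd i (Finset.mem_filter.1 hi).1).resolve_left (Finset.mem_filter.1 hi).2),
      fun i hi => hm i (Finset.mem_filter.1 hi).1⟩
    (fun i hi => hwt i (Finset.mem_filter.1 hi).1) (sub_w _ (Finset.filter_subset _ _)) mX
    (fun i hi => hX i (Finset.mem_filter.1 hi).1)
  have h3 := add_le_add h1 h2
  rw [← mul_add, Finset.sum_filter_add_sum_filter_not] at h3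
  refine h3.trans (le_of_eq ?_)
  have h9 := Cst0 hc
  rw [← add_mul, ← ENNReal.ofReal_add (by positivity) (by positivity)]
  congr 2; ring

end Vale.Agent.P106.Q.Hair
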