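import Vale.Agent.P106.Q.NK3C
import Vale.Agent.P106.Q.FLT
import Vale.Agent.P117.K.KTC
import Vale.Agent.P117.K.BrW

/-! # P106 / Q : the flat estimate without loss from the Kakeya theorem -/

open MeasureTheory Complex Set
open scoped ENNReal NNReal

set_option linter.all false

namespace Vale.Agent.P106.Q

open Vale.Agent.P106.G

/-- [NK3] without loss for `r ≤ 3/2` from the finite Kakeya inequality with price `2` -/
theorem nk3_zero (h : ∀ b : ℝ, 0 < b → Vale.Agent.P127.U.JF 2 b) {r : ℝ} (h1 : 1 < r) (h2 : r ≤ 3/2) : StNK3 0 r := by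
  intro ε C0 hε hC0
  have hr : 0 < r - 1 := by linarith
  set b : ℝ := ε / (2 * (r - 1)) with hb
  have hb0 : 0 < b := by positivity
  have hK : Vale.Agent.P117.K.StKTc (b / 2) 2 :=
    Vale.Agent.P117.K.stKTC (b / 2) 2 (by positivity) (by norm_num) (Vale.Agent.P117.K.stKT_of_JF (h b hb0))
  have h3 : StNK3 (2 * (b / 2)) r := nk3_of_KTc (by positivity) (by norm_num) hK h1 (by linarith)
  obtain ⟨C, hC, h4⟩ := h3 (ε / 2) C0 (by positivity) hC0
  refine ⟨C, hC, ?_⟩
  intro N μ hN hm hs hsum hfin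
  refine (h4 N μ hN hm hs hsum hfin).trans (le_of_eq ?_)
  have e : 2 * (b / 2) * (r - 1) + ε / 2 = 0 * (r - 1) + ε := by
    rw [hb]
    field_simp
    ring
  rw [e]

/-- [FLT] without loss for `r ≤ 3/2` -/
theorem flt_zero (h : ∀ b : ℝ, 0 < b → Vale.Agent.P127.U.JF 2 b) {r : ℝ} (h1 : 1 < r) (h2 : r ≤ 3/2) : StFLT 0 r :=
  stFLT le_rfl h1 (nk3_zero h h1 h2)

end Vale.Agent.P106.Q
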