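import Vale.Agent.P106.Q.DefsN

/-! # P106 / Q : block NK3E, interface between the bilinear estimate (607) and the recursion (812) -/

open MeasureTheory Complex Set
open scoped ENNReal NNReal

set_option linter.all false

namespace Vale.Agent.P106.Q

open Vale.Agent.P106.G

/-- index of the cap of side `1/K` which contains the direction `k/N` -/
def capK (K N : ℕ) (k : ℤ × ℤ) : ℤ × ℤ := (k.1 * K / N, k.2 * K / N)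

/-- directions of the cap `b` -/
noncomputable def grb (K N : ℕ) (b : ℤ × ℤ) : Finset (ℤ × ℤ) := (grd N).filter fun k => capK K N k = b

/-- part of the transported density with directions in the cap `b` -/
noncomputable def Wb (K N : ℕ) (μ : ℤ × ℤ → ℝ × ℝ → ℝ≥0∞) (b : ℤ × ℤ) (t : ℝ) (s : ℝ × ℝ) : ℝ≥0∞ :=
  ∑ k ∈ grb K N b, μ k (s.1 - t * (k.1 / N), s.2 - t * (k.2 / N))

/-- hypotheses of `StNK3` -/
structure Den3 (C0 : ℝ) (N : ℕ) (μ : ℤ × ℤ → ℝ × ℝ → ℝ≥0∞) : Prop where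
  meas : ∀ k, Measurable (μ k)
  slow : ∀ k s s', |s.1 - s'.1| ≤ 1 / (N:ℝ) → |s.2 - s'.2| ≤ 1 / (N:ℝ) → μ k s ≤ ENNReal.ofReal C0 * μ k s'
  sum : ∀ s, ∑ k ∈ grd N, μ k s ≤ 1
  fin : ∑ k ∈ grd N, ∫⁻ s, μ k s < ⊤

/-- [BILr] the bilinear term: two caps of side `1/K` which are not neighbours -/
def StBILr (κ r : ℝ) : Prop := ∀ (ε C0 : ℝ) (K : ℕ), 0 < ε → 1 ≤ C0 → 1 ≤ K → ∃ C : ℝ, 0 ≤ C ∧
  ∀ (N : ℕ) (μ : ℤ × ℤ → ℝ × ℝ → ℝ≥0∞), 1 ≤ N → Den3 C0 N μ → ∀ b b' : ℤ × ℤ, (2 ≤ |b.1 - b'.1| ∨ 2 ≤ |b.2 - b'.2|) →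
    ∫⁻ t in Icc (1/2 : ℝ) 4, ∫⁻ s, (Wb K N μ b t s * Wb K N μ b' t s) ^ (r / 2) ≤
      ENNReal.ofReal (C * (N:ℝ) ^ (κ * (r - 1) + ε)) * ∑ k ∈ grd N, ∫⁻ s, μ k s

end Vale.Agent.P106.Q
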