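import Vale.Agent.P106.Q.DefsN
import Vale.Agent.P106.Q.NK3D

/-! # P106 / Q : block NK3E, interface between the dyadic level sum (981) and the localisation (607) -/

open MeasureTheory Complex Set
open scoped ENNReal NNReal

set_option linter.all false

namespace Vale.Agent.P106.Q

open Vale.Agent.P106.G

/-- directions of the two families are separated -/
def SepG (c : ℝ) (N : ℕ) (μ1 μ2 : ℤ × ℤ → ℝ × ℝ → ℝ≥0∞) : Prop :=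
  ∀ k ∈ grd N, ∀ k' ∈ grd N, (∃ s, μ1 k s ≠ 0) → (∃ s, μ2 k' s ≠ 0) →
    c ≤ |((k.1:ℝ) - k'.1) / N| ∨ c ≤ |((k.2:ℝ) - k'.2) / N|

/-- [BILl] integrated bilinear estimate, local -/
def StBILl (r : ℝ) : Prop := ∀ (c C0 ε : ℝ), 0 < c → 1 ≤ C0 → 0 < ε → ∃ C : ℝ, 0 ≤ C ∧
  ∀ (N : ℕ) (μ1 μ2 : ℤ × ℤ → ℝ × ℝ → ℝ≥0∞), 1 ≤ N → DenF C0 N μ1 → DenF C0 N μ2 → SepG c N μ1 μ2 →
  (∀ k s, μ1 k s ≠ 0 → |s.1| ≤ 10 ∧ |s.2| ≤ 10) → (∀ k s, μ2 k s ≠ 0 → |s.1| ≤ 10 ∧ |s.2| ≤ 10) →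
    ∫⁻ t in Icc (1/2 : ℝ) 4, ∫⁻ s, (Wf N μ1 t s * Wf N μ2 t s) ^ (r / 2) ≤
      ENNReal.ofReal (C * (N:ℝ) ^ ((r - 1) / 2 + ε)) * ((∑ k ∈ grd N, ∫⁻ s, μ1 k s) + (∑ k ∈ grd N, ∫⁻ s, μ2 k s))

/-- [BILg] integrated bilinear estimate, global -/
def StBILg (r : ℝ) : Prop := ∀ (c C0 ε : ℝ), 0 < c → 1 ≤ C0 → 0 < ε → ∃ C : ℝ, 0 ≤ C ∧
  ∀ (N : ℕ) (μ1 μ2 : ℤ × ℤ → ℝ × ℝ → ℝ≥0∞), 1 ≤ N → DenF C0 N μ1 → DenF C0 N μ2 → SepG c N μ1 μ2 →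
    ∫⁻ t in Icc (1/2 : ℝ) 4, ∫⁻ s, (Wf N μ1 t s * Wf N μ2 t s) ^ (r / 2) ≤
      ENNReal.ofReal (C * (N:ℝ) ^ ((r - 1) / 2 + ε)) * ((∑ k ∈ grd N, ∫⁻ s, μ1 k s) + (∑ k ∈ grd N, ∫⁻ s, μ2 k s))

end Vale.Agent.P106.Q
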