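import Vale.Agent.P106.Q.NK3D

/-! # P106 / Q : block NK3E, narrow part: rescaling of a cap -/

open MeasureTheory Complex Set
open scoped ENNReal NNReal

set_option linter.all false

namespace Vale.Agent.P106.Q.NR

open Vale.Agent.P106.G Vale.Agent.P106.Q

theorem scale2 {a : ℝ} (ha : 0 < a) {f : ℝ × ℝ → ℝ≥0∞} (hf : Measurable f) :
    ∫⁻ x : ℝ × ℝ, f (a • x) = ENNReal.ofReal ((a ^ 2)⁻¹) * ∫⁻ x, f x := by
  have h1 : ∫⁻ x : ℝ × ℝ, f (a • x) = ∫⁻ x, f x ∂(Measure.map (a • ·) (volume : Measure (ℝ × ℝ))) :=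
    (lintegral_map hf (measurable_const_smul a)).symm
  rw [h1, Measure.map_addHaar_smul _ ha.ne', lintegral_smul_measure, smul_eq_mul]
  congr 2
  have : Module.finrank ℝ (ℝ × ℝ) = 2 := by simp
  rw [this, abs_of_pos (by positivity)]

variable {N K : ℕ} {μ : ℤ × ℤ → ℝ × ℝ → ℝ≥0∞} {C0 : ℝ}

/-- corner of the cap `b` in the grid `N` -/
def cor (K N : ℕ) (b : ℤ × ℤ) : ℤ × ℤ := ((b.1 * N + (K - 1)) / K, (b.2 * N + (K - 1)) / K)

theorem cor_spec (hK : 1 ≤ K) (x : ℤ) (N : ℕ) :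
    x * N ≤ (x * N + (K - 1)) / K * K ∧ (x * N + (K - 1)) / K * K ≤ x * N + (K - 1) := by
  have hK0 : (0:ℤ) < K := by exact_mod_cast hK
  have h1 := Int.ediv_mul_le (x * N + (K - 1)) hK0.ne'
  have h2 := Int.lt_ediv_add_one_mul_self (x * N + (K - 1)) hK0
  constructor
  · nlinarith
  · exact h1

/-- coordinates in the cap -/
theorem cap_coord (hK : 1 ≤ K) (hN : 1 ≤ N) {k b : ℤ} (h : k * K / N = b) :
    0 ≤ k - (b * N + (K - 1)) / K ∧ k - (b * N + (K - 1)) / K < ((N / K + 1 : ℕ) : ℤ) := by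
  have hK0 : (0:ℤ) < K := by exact_mod_cast hK
  have hN0 : (0:ℤ) < N := by exact_mod_cast hN
  obtain ⟨c1, c2⟩ := cor_spec hK b N
  set c := (b * N + (K - 1)) / (K:ℤ) with hc
  have h1 : b * N ≤ k * K := by rw [← h]; exact Int.ediv_mul_le _ hN0.ne'
  have h2 : k * K < (b + 1) * N := by rw [← h]; exact Int.lt_ediv_add_one_mul_self _ hN0
  constructor
  · by_contra hcon
    push Not at hcon
    have : k ≤ c - 1 := by omega
    have : k * K ≤ (c - 1) * K := mul_le_mul_of_nonneg_right this hK0.le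
    nlinarith
  · have h3 : (k - c) * K < N := by nlinarith
    push_cast
    have h4 : k - c ≤ (N:ℤ) / K := by
      rw [Int.le_ediv_iff_mul_le hK0]; exact h3.le
    omega

/-- rescaled densities of the cap -/
noncomputable def resc (K N : ℕ) (μ : ℤ × ℤ → ℝ × ℝ → ℝ≥0∞) (b : ℤ × ℤ) (m : ℤ × ℤ) (y : ℝ × ℝ) : ℝ≥0∞ := by
  classical
  exact if m + cor K N b ∈ grb K N b then μ (m + cor K N b) ((((N / K + 1 : ℕ) : ℝ) / N) • y) else 0

theorem sum_resc (hK : 1 ≤ K) (hN : 1 ≤ N) (b : ℤ × ℤ) (F : ℤ × ℤ → ℝ≥0∞) :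
    (∑ m ∈ grd (N / K + 1), (by classical exact if m + cor K N b ∈ grb K N b then F (m + cor K N b) else 0)) =
      ∑ k ∈ grb K N b, F k := by
  classical
  rw [← Finset.sum_filter]
  refine Finset.sum_bij' (fun m _ => m + cor K N b) (fun k _ => k - cor K N b) ?_ ?_ ?_ ?_ ?_
  · intro m hm
    exact (Finset.mem_filter.1 hm).2
  · intro k hk
    rw [Finset.mem_filter]
    refine ⟨?_, by rw [sub_add_cancel]; exact hk⟩
    have h1 := (Finset.mem_filter.1 hk).2
    have e1 : k.1 * K / N = b.1 := congrArg Prod.fst h1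
    have e2 : k.2 * K / N = b.2 := congrArg Prod.snd h1
    simp only [grd, Finset.mem_product, Finset.mem_Ico]
    exact ⟨cap_coord hK hN e1, cap_coord hK hN e2⟩
  · intro m _; simp
  · intro k _; simp
  · intro m _; rfl

theorem grb_sub (b : ℤ × ℤ) : grb K N b ⊆ grd N := Finset.filter_subset _ _

theorem den_resc (hK : 1 ≤ K) (hN : 1 ≤ N) (h : Den3 C0 N μ) (b : ℤ × ℤ) : Den3 C0 (N / K + 1) (resc K N μ b) where
  meas m := by
    classical
    unfold resc
    by_cases hm : m + cor K N b ∈ grb K N b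
    · simp only [hm, if_true]
      exact (h.meas _).comp (measurable_const_smul _)
    · simp only [hm, if_false]
      exact measurable_const
  slow m s s' h1 h2 := by
    classical
    unfold resc
    by_cases hm : m + cor K N b ∈ grb K N b
    · simp only [hm, if_true]
      have hN0 : (0:ℝ) < N := by exact_mod_cast hN
      have hN1 : (0:ℝ) < ((N / K + 1 : ℕ) : ℝ) := by positivity
      have key : ∀ x y : ℝ, |x - y| ≤ 1 / ((N / K + 1 : ℕ) : ℝ) →
          |((N / K + 1 : ℕ) : ℝ) / N * x - ((N / K + 1 : ℕ) : ℝ) / N * y| ≤ 1 / (N:ℝ) := by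
        intro x y hxy
        rw [← mul_sub, abs_mul, abs_of_pos (by positivity)]
        calc ((N / K + 1 : ℕ) : ℝ) / N * |x - y| ≤ ((N / K + 1 : ℕ) : ℝ) / N * (1 / ((N / K + 1 : ℕ) : ℝ)) := by gcongr
          _ = 1 / N := by field_simp
      exact h.slow _ _ _ (key _ _ h1) (key _ _ h2)
    · simp only [hm, if_false]
      exact bot_le
  sum s := by
    classical
    have := sum_resc hK hN b (fun k => μ k ((((N / K + 1 : ℕ) : ℝ) / N) • s))
    unfold resc
    rw [this]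
    exact (Finset.sum_le_sum_of_subset (grb_sub b)).trans (h.sum _)
  fin := by
    classical
    refine ENNReal.sum_lt_top.2 fun m hm => ?_
    unfold resc
    by_cases hm : m + cor K N b ∈ grb K N b
    · simp only [hm, if_true]
      have hN0 : (0:ℝ) < N := by exact_mod_cast hN
      rw [scale2 (by positivity) (h.meas _)]
      refine ENNReal.mul_lt_top ENNReal.ofReal_lt_top ?_
      refine lt_of_le_of_lt ?_ h.fin
      exact Finset.single_le_sum (f := fun k => ∫⁻ s, μ k s) (fun _ _ => bot_le) (grb_sub b hm)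
    · simp only [hm, if_false]
      simp

theorem energy_resc (hK : 1 ≤ K) (hN : 1 ≤ N) (h : Den3 C0 N μ) (b : ℤ × ℤ) :
    ∑ m ∈ grd (N / K + 1), ∫⁻ s, resc K N μ b m s =
      ENNReal.ofReal (((((N / K + 1 : ℕ) : ℝ) / N) ^ 2)⁻¹) * ∑ k ∈ grb K N b, ∫⁻ s, μ k s := by
  classical
  have hN0 : (0:ℝ) < N := by exact_mod_cast hN
  rw [Finset.mul_sum, ← sum_resc hK hN b]
  refine Finset.sum_congr rfl fun m _ => ?_
  unfold resc
  by_cases hm : m + cor K N b ∈ grb K N b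
  · simp only [hm, if_true]
    rw [scale2 (by positivity) (h.meas _)]
  · simp only [hm, if_false]
    simp

theorem Wb_resc (hK : 1 ≤ K) (hN : 1 ≤ N) (b : ℤ × ℤ) (t : ℝ) (s : ℝ × ℝ) :
    Wb K N μ b t s = Wf (N / K + 1) (resc K N μ b) t
      ((((N / K + 1 : ℕ) : ℝ) / N)⁻¹ • (s - (t * ((cor K N b).1 / N), t * ((cor K N b).2 / N)))) := by
  classical
  have hN0 : (0:ℝ) < N := by exact_mod_cast hN
  have hN1 : (0:ℝ) < ((N / K + 1 : ℕ) : ℝ) := by positivity
  unfold Wb Wf resc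
  rw [← sum_resc hK hN b]
  refine Finset.sum_congr rfl fun m _ => ?_
  by_cases hm : m + cor K N b ∈ grb K N b
  · simp only [hm, if_true]
    congr 1
    set N' : ℝ := ((N / K + 1 : ℕ) : ℝ) with hN'
    ext
    · simp only [Prod.smul_mk, smul_eq_mul, Prod.smul_fst, Prod.fst_sub, Prod.fst_add]
      push_cast
      field_simp
      ring
    · simp only [Prod.smul_mk, smul_eq_mul, Prod.smul_snd, Prod.snd_sub, Prod.snd_add]
      push_cast
      field_simp
      ring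
  · simp only [hm, if_false]

theorem meas_Wf (hm : ∀ k, Measurable (μ k)) : Measurable fun z : ℝ × (ℝ × ℝ) => Wf N μ z.1 z.2 := by
  unfold Wf
  refine Finset.measurable_sum _ fun k _ => ?_
  exact (hm k).comp (by fun_prop)

theorem meas_Wb (hm : ∀ k, Measurable (μ k)) (b : ℤ × ℤ) : Measurable fun z : ℝ × (ℝ × ℝ) => Wb K N μ b z.1 z.2 := by
  unfold Wb
  refine Finset.measurable_sum _ fun k _ => ?_
  exact (hm k).comp (by fun_prop)

/-- the narrow term of one cap -/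
theorem narrow (hK : 1 ≤ K) (hN : 1 ≤ N) (h : Den3 C0 N μ) (b : ℤ × ℤ) {r A : ℝ}
    (hA : ∫⁻ t in Icc (1/2 : ℝ) 4, ∫⁻ s, Wf (N / K + 1) (resc K N μ b) t s ^ r ≤
      ENNReal.ofReal A * ∑ m ∈ grd (N / K + 1), ∫⁻ s, resc K N μ b m s) :
    ∫⁻ t in Icc (1/2 : ℝ) 4, ∫⁻ s, Wb K N μ b t s ^ r ≤ ENNReal.ofReal A * ∑ k ∈ grb K N b, ∫⁻ s, μ k s := by
  have hN0 : (0:ℝ) < N := by exact_mod_cast hN
  set l : ℝ := ((N / K + 1 : ℕ) : ℝ) / N with hl
  have hl0 : 0 < l := by positivity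
  have mW := meas_Wf (N := N / K + 1) (μ := resc K N μ b) (den_resc hK hN h b).meas
  have e1 : ∀ t : ℝ, ∫⁻ s, Wb K N μ b t s ^ r = ENNReal.ofReal (l ^ 2) * ∫⁻ s, Wf (N / K + 1) (resc K N μ b) t s ^ r := by
    intro t
    have mG : Measurable fun s : ℝ × ℝ => Wf (N / K + 1) (resc K N μ b) t s ^ r :=
      (mW.comp (measurable_const.prodMk measurable_id)).pow_const r
    calc ∫⁻ s, Wb K N μ b t s ^ r
        = ∫⁻ s : ℝ × ℝ, (fun s => Wf (N / K + 1) (resc K N μ b) t (l⁻¹ • s) ^ r)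
            (s - (t * ((cor K N b).1 / N), t * ((cor K N b).2 / N))) := by
          refine lintegral_congr fun s => ?_
          rw [Wb_resc hK hN b t s]
      _ = ∫⁻ s : ℝ × ℝ, Wf (N / K + 1) (resc K N μ b) t (l⁻¹ • s) ^ r :=
          lintegral_sub_right_eq_self (μ := (volume : Measure (ℝ × ℝ)))
            (fun s : ℝ × ℝ => Wf (N / K + 1) (resc K N μ b) t (l⁻¹ • s) ^ r)
            (t * (((cor K N b).1 : ℝ) / N), t * (((cor K N b).2 : ℝ) / N))
      _ = ENNReal.ofReal (((l⁻¹) ^ 2)⁻¹) * ∫⁻ s, Wf (N / K + 1) (resc K N μ b) t s ^ r := scale2 (by positivity) mG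
      _ = _ := by rw [inv_pow, inv_inv]
  simp only [e1]
  rw [lintegral_const_mul' _ _ ENNReal.ofReal_ne_top]
  calc ENNReal.ofReal (l ^ 2) * ∫⁻ t in Icc (1/2 : ℝ) 4, ∫⁻ s, Wf (N / K + 1) (resc K N μ b) t s ^ r
      ≤ ENNReal.ofReal (l ^ 2) * (ENNReal.ofReal A * ∑ m ∈ grd (N / K + 1), ∫⁻ s, resc K N μ b m s) := by gcongr
    _ = ENNReal.ofReal (l ^ 2) * (ENNReal.ofReal A * (ENNReal.ofReal ((l ^ 2)⁻¹) * ∑ k ∈ grb K N b, ∫⁻ s, μ k s)) := by
        rw [energy_resc hK hN h b]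
    _ = (ENNReal.ofReal (l ^ 2) * ENNReal.ofReal ((l ^ 2)⁻¹)) * (ENNReal.ofReal A * ∑ k ∈ grb K N b, ∫⁻ s, μ k s) := by ring
    _ = _ := by
        rw [← ENNReal.ofReal_mul (by positivity), mul_inv_cancel₀ (by positivity), ENNReal.ofReal_one, one_mul]

end Vale.Agent.P106.Q.NR
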