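import Vale.Agent.P106.Q.BIL3
import Vale.Agent.P106.Q.NK3ED
import Vale.Agent.P106.Q.NK3Ra

/-! # P106 / Q : block NK3E, dyadic level sum: `StBIL3 → StBILl r` for `1 < r ≤ 5/3` -/

open MeasureTheory Complex Set
open scoped ENNReal NNReal

set_option linter.all false

namespace Vale.Agent.P106.Q.LV

open Vale.Agent.P106.G Vale.Agent.P106.Q

theorem real_lem {s1 s2 x E1 E2 M r : ℝ} (hs1 : 0 < s1) (hs2 : 0 < s2) (hx : 0 ≤ x) (hE1 : 0 < E1) (hE2 : 0 < E2)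
    (h1 : s1 * x ≤ 4 * E1) (h2 : s2 * x ≤ 4 * E2) (hM0 : 0 ≤ M)
    (hM : s1 * s2 * ((s1 * x / (4 * E1)) * (s2 * x / (4 * E2))) ^ (3/2 : ℝ) ≤ M) (hr : 1 < r) (hr2 : r ≤ 5/3) :
    (s1 * s2) ^ (r / 2) * x ≤ 4 * M ^ ((r - 1) / 2) * (E1 + E2) := by
  have hMr : 0 ≤ M ^ ((r - 1) / 2) := Real.rpow_nonneg hM0 _
  rcases hx.eq_or_lt with h0 | hx0
  · rw [← h0, mul_zero]; positivity
  set e : ℝ := (s1 * x / (4 * E1)) * (s2 * x / (4 * E2)) with he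
  have he0 : 0 < e := by positivity
  have he1 : e ≤ 1 := by
    have a1 : s1 * x / (4 * E1) ≤ 1 := by rw [div_le_one (by positivity)]; exact h1
    have a2 : s2 * x / (4 * E2) ≤ 1 := by rw [div_le_one (by positivity)]; exact h2
    exact mul_le_one₀ a1 (by positivity) a2
  have hp : 0 < s1 * s2 := by positivity
  have h3 : (s1 * s2) ^ ((r - 1) / 2) * e ^ (3 / 4 * (r - 1)) ≤ M ^ ((r - 1) / 2) := by
    have h := Real.rpow_le_rpow (by positivity) hM (show 0 ≤ (r - 1) / 2 by linarith)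
    rw [Real.mul_rpow hp.le (by positivity), ← Real.rpow_mul he0.le] at h
    rwa [show 3 / 2 * ((r - 1) / 2) = 3 / 4 * (r - 1) by ring] at h
  have h4 : e ^ (1/2 : ℝ) ≤ e ^ (3 / 4 * (r - 1)) := Real.rpow_le_rpow_of_exponent_ge he0 he1 (by linarith)
  have h5 : (s1 * s2) ^ (1/2 : ℝ) * x = 4 * (E1 * E2) ^ (1/2 : ℝ) * e ^ (1/2 : ℝ) := by
    have e1 : e * (16 * (E1 * E2)) = (s1 * s2) * x ^ 2 := by rw [he]; field_simp; ring
    have e2 : (e * (16 * (E1 * E2))) ^ (1/2 : ℝ) = ((s1 * s2) * x ^ 2) ^ (1/2 : ℝ) := by rw [e1]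
    rw [Real.mul_rpow he0.le (by positivity), Real.mul_rpow (x := 16) (y := E1 * E2) (by norm_num) (by positivity),
      Real.mul_rpow (x := s1 * s2) (y := x ^ 2) hp.le (by positivity), ← Real.rpow_natCast x 2, ← Real.rpow_mul hx0.le] at e2
    have e3 : (16:ℝ) ^ (1/2 : ℝ) = 4 := by
      rw [show (16:ℝ) = 4 ^ (2:ℝ) by norm_num, ← Real.rpow_mul (by norm_num)]; norm_num
    rw [e3] at e2
    norm_num at e2 ⊢
    linarith
  have h6 : (E1 * E2) ^ (1/2 : ℝ) ≤ E1 + E2 := by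
    rw [← Real.sqrt_eq_rpow]
    rw [Real.sqrt_le_left (by positivity)]
    nlinarith
  have h7 : (s1 * s2) ^ (r / 2) = (s1 * s2) ^ ((r - 1) / 2) * (s1 * s2) ^ (1/2 : ℝ) := by
    rw [← Real.rpow_add hp]; congr 1; ring
  rw [h7, mul_assoc, h5]
  have h8 : (s1 * s2) ^ ((r - 1) / 2) * e ^ (1/2 : ℝ) ≤ M ^ ((r - 1) / 2) :=
    (mul_le_mul_of_nonneg_left h4 (by positivity)).trans h3
  calc (s1 * s2) ^ ((r - 1) / 2) * (4 * (E1 * E2) ^ (1/2 : ℝ) * e ^ (1/2 : ℝ))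
      = 4 * ((s1 * s2) ^ ((r - 1) / 2) * e ^ (1/2 : ℝ)) * (E1 * E2) ^ (1/2 : ℝ) := by ring
    _ ≤ 4 * M ^ ((r - 1) / 2) * (E1 + E2) := by gcongr

/-- dyadic level of a number -/
theorem lev {W : ℝ≥0∞} {m : ℕ} (h1 : ENNReal.ofReal (((2:ℝ) ^ m)⁻¹) ≤ W) (h2 : W ≤ ENNReal.ofReal ((2:ℝ) ^ m)) :
    ∃ i ∈ Finset.Icc (-(m:ℤ)) m, ENNReal.ofReal ((2:ℝ) ^ i) ≤ W ∧ W ≤ ENNReal.ofReal (2 * (2:ℝ) ^ i) := by
  have hWt : W ≠ ⊤ := ne_top_of_le_ne_top ENNReal.ofReal_ne_top h2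
  set w := W.toReal with hw
  have e : W = ENNReal.ofReal w := (ENNReal.ofReal_toReal hWt).symm
  have hp : (0:ℝ) < ((2:ℝ) ^ m)⁻¹ := by positivity
  have g1 : ((2:ℝ) ^ m)⁻¹ ≤ w := by
    have := ENNReal.toReal_mono hWt h1
    rwa [ENNReal.toReal_ofReal hp.le] at this
  have hw0 : 0 < w := lt_of_lt_of_le hp g1
  have g2 : w ≤ (2:ℝ) ^ m := by
    rw [e] at h2
    exact (ENNReal.ofReal_le_ofReal_iff (by positivity)).1 h2
  refine ⟨Int.log 2 w, ?_, ?_, ?_⟩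
  · rw [Finset.mem_Icc]
    constructor
    · have h := Int.log_mono_right (b := 2) (R := ℝ) (by positivity) g1
      have e2 : Int.log 2 (((2:ℝ) ^ m)⁻¹) = -(m:ℤ) := by
        have := Int.log_zpow (R := ℝ) (b := 2) (by norm_num) (-(m:ℤ))
        rw [zpow_neg, zpow_natCast] at this
        exact_mod_cast this
      rwa [e2] at h
    · have h := Int.log_mono_right (b := 2) (R := ℝ) hw0 g2
      have e2 : Int.log 2 ((2:ℝ) ^ m) = (m:ℤ) := by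
        have := Int.log_zpow (R := ℝ) (b := 2) (by norm_num) (m:ℤ)
        rw [zpow_natCast] at this
        exact_mod_cast this
      rwa [e2] at h
  · rw [e]
    refine ENNReal.ofReal_le_ofReal ?_
    have := Int.zpow_log_le_self (R := ℝ) (b := 2) (by norm_num) hw0
    exact_mod_cast this
  · rw [e]
    refine ENNReal.ofReal_le_ofReal ?_
    have h := Int.lt_zpow_succ_log_self (R := ℝ) (b := 2) (by norm_num) w
    have h' : w < (2:ℝ) ^ (Int.log 2 w + 1) := by exact_mod_cast h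
    rw [zpow_add_one₀ (by norm_num)] at h'
    linarith

/-- low part -/
theorem low {a b : ℝ≥0∞} {r : ℝ} (hr : 1 ≤ r) (h : a * b ≤ 1) : (a * b) ^ (r / 2) ≤ a + b := by
  calc (a * b) ^ (r / 2) ≤ (a * b) ^ (1/2 : ℝ) := ENNReal.rpow_le_rpow_of_exponent_ge h (by linarith)
    _ ≤ ((max a b) * (max a b)) ^ (1/2 : ℝ) := by
        gcongr
        · exact le_max_left _ _
        · exact le_max_right _ _
    _ = max a b := by
        rw [← sq, ← ENNReal.rpow_natCast, ← ENNReal.rpow_mul]; norm_num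
    _ ≤ a + b := max_le le_self_add le_add_self

variable {C0 : ℝ} {N : ℕ} {μ : ℤ × ℤ → ℝ × ℝ → ℝ≥0∞}

theorem W_le (h : DenF C0 N μ) (t : ℝ) (s : ℝ × ℝ) : Wf N μ t s ≤ ((N ^ 2 : ℕ) : ℝ≥0∞) := by
  unfold Wf
  calc ∑ k ∈ grd N, μ k (s.1 - t * (k.1 / N), s.2 - t * (k.2 / N)) ≤ ∑ k ∈ grd N, 1 := by
        refine Finset.sum_le_sum fun k hk => ?_
        exact (Finset.single_le_sum (f := fun k => μ k (s.1 - t * _, s.2 - t * _)) (fun _ _ => bot_le) hk).trans (h.sum _)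
    _ = _ := by
        rw [Finset.sum_const, nsmul_eq_mul, mul_one]
        congr 1
        simp [grd, sq]

theorem int_W (h : DenF C0 N μ) (t : ℝ) : ∫⁻ s, Wf N μ t s = ∑ k ∈ grd N, ∫⁻ s, μ k s := by
  unfold Wf
  have mk : ∀ k, Measurable fun s : ℝ × ℝ => μ k (s.1 - t * (k.1 / N), s.2 - t * (k.2 / N)) := fun k =>
    (h.meas k).comp (by fun_prop)
  rw [lintegral_finset_sum _ fun k _ => mk k]
  refine Finset.sum_congr rfl fun k _ => ?_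
  exact lintegral_sub_right_eq_self (μ := (volume : Measure (ℝ × ℝ))) (μ k) (t * ((k.1:ℝ) / N), t * ((k.2:ℝ) / N))

/-- the time strip -/
def Z0 : Set (ℝ × (ℝ × ℝ)) := {z | 1/2 ≤ z.1 ∧ z.1 ≤ 4}

theorem Z0_eq : Z0 = Icc (1/2 : ℝ) 4 ×ˢ (univ : Set (ℝ × ℝ)) := by
  ext z; simp [Z0]

theorem mZ0 : MeasurableSet Z0 := by
  rw [Z0_eq]; exact measurableSet_Icc.prod MeasurableSet.univ

theorem int_Z0 {F : ℝ × (ℝ × ℝ) → ℝ≥0∞} (hF : Measurable F) :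
    ∫⁻ t in Icc (1/2 : ℝ) 4, ∫⁻ s, F (t, s) = ∫⁻ z in Z0, F z := by
  rw [Z0_eq]
  show _ = ∫⁻ z in Icc (1/2 : ℝ) 4 ×ˢ (univ : Set (ℝ × ℝ)), F z ∂((volume : Measure ℝ).prod (volume : Measure (ℝ × ℝ)))
  rw [← Measure.prod_restrict, Measure.restrict_univ, lintegral_prod _ hF.aemeasurable]

theorem int_WZ (h : DenF C0 N μ) : ∫⁻ z in Z0, Wf N μ z.1 z.2 ≤ 4 * ∑ k ∈ grd N, ∫⁻ s, μ k s := by
  rw [← int_Z0 (NR.meas_Wf h.meas)]
  simp only [int_W h]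
  rw [setLIntegral_const, Real.volume_Icc, mul_comm]
  gcongr
  rw [show (4:ℝ≥0∞) = ENNReal.ofReal 4 by norm_num]
  exact ENNReal.ofReal_le_ofReal (by norm_num)

theorem denF_mono {C0' : ℝ} (h : DenF C0 N μ) (hC : C0 ≤ C0') : DenF C0' N μ :=
  ⟨h.meas, fun k s s' h1 h2 => (h.slow k s s' h1 h2).trans (mul_le_mul' (ENNReal.ofReal_le_ofReal hC) le_rfl), h.sum, h.fin⟩

/-- one pair of levels -/
theorem pairlev {μ1 μ2 : ℤ × ℤ → ℝ × ℝ → ℝ≥0∞} {CC r : ℝ} (hN : 1 ≤ N) (hr : 1 < r) (hr2 : r ≤ 5/3) (hC0 : 2 ≤ C0) (hCC : 0 ≤ CC)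
    (h1 : DenF C0 N μ1) (h2 : DenF C0 N μ2)
    (hb : ∀ (X : Set (ℝ × (ℝ × ℝ))) (σ1 σ2 e1 e2 : ℝ), MeasurableSet X → (∀ z ∈ X, 1/2 ≤ z.1 ∧ z.1 ≤ 4) → 0 < σ1 → 0 < σ2 →
      0 ≤ e1 → e1 ≤ 1 → 0 ≤ e2 → e2 ≤ 1 →
      (∀ z ∈ X, ENNReal.ofReal σ1 ≤ Wf N μ1 z.1 z.2 ∧ Wf N μ1 z.1 z.2 ≤ ENNReal.ofReal (C0 * σ1)) →
      (∀ z ∈ X, ENNReal.ofReal σ2 ≤ Wf N μ2 z.1 z.2 ∧ Wf N μ2 z.1 z.2 ≤ ENNReal.ofReal (C0 * σ2)) →
      ENNReal.ofReal e1 * ∑ k ∈ grd N, ∫⁻ s, μ1 k s ≤ ENNReal.ofReal σ1 * volume X →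
      ENNReal.ofReal e2 * ∑ k ∈ grd N, ∫⁻ s, μ2 k s ≤ ENNReal.ofReal σ2 * volume X →
      ∑ k ∈ grd N, ∫⁻ s, μ1 k s ≠ 0 → ∑ k ∈ grd N, ∫⁻ s, μ2 k s ≠ 0 →
      σ1 * σ2 * (e1 * e2) ^ (3/2 : ℝ) ≤ CC * N * (1 + Real.log N) ^ 4)
    (hE1 : ∑ k ∈ grd N, ∫⁻ s, μ1 k s ≠ 0) (hE2 : ∑ k ∈ grd N, ∫⁻ s, μ2 k s ≠ 0)
    {s1 s2 : ℝ} (hs1 : 0 < s1) (hs2 : 0 < s2) {X : Set (ℝ × (ℝ × ℝ))} (mX : MeasurableSet X) (hXZ : X ⊆ Z0)
    (hX1 : ∀ z ∈ X, ENNReal.ofReal s1 ≤ Wf N μ1 z.1 z.2 ∧ Wf N μ1 z.1 z.2 ≤ ENNReal.ofReal (2 * s1))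
    (hX2 : ∀ z ∈ X, ENNReal.ofReal s2 ≤ Wf N μ2 z.1 z.2 ∧ Wf N μ2 z.1 z.2 ≤ ENNReal.ofReal (2 * s2)) :
    ∫⁻ z in X, (Wf N μ1 z.1 z.2 * Wf N μ2 z.1 z.2) ^ (r / 2) ≤
      ENNReal.ofReal (16 * (CC * N * (1 + Real.log N) ^ 4) ^ ((r - 1) / 2)) *
        ((∑ k ∈ grd N, ∫⁻ s, μ1 k s) + (∑ k ∈ grd N, ∫⁻ s, μ2 k s)) := by
  have hN1 : (1:ℝ) ≤ N := by exact_mod_cast hN
  have hl : 0 ≤ Real.log N := Real.log_nonneg hN1
  set E1 := ∑ k ∈ grd N, ∫⁻ s, μ1 k s with hE1d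
  set E2 := ∑ k ∈ grd N, ∫⁻ s, μ2 k s with hE2d
  have t1 : E1 ≠ ⊤ := h1.fin.ne
  have t2 : E2 ≠ ⊤ := h2.fin.ne
  have p1 : 0 < E1.toReal := ENNReal.toReal_pos hE1 t1
  have p2 : 0 < E2.toReal := ENNReal.toReal_pos hE2 t2
  -- volume bounds
  have v1 : ENNReal.ofReal s1 * volume X ≤ 4 * E1 := by
    calc ENNReal.ofReal s1 * volume X = ∫⁻ z in X, ENNReal.ofReal s1 := by rw [setLIntegral_const]
      _ ≤ ∫⁻ z in X, Wf N μ1 z.1 z.2 := setLIntegral_mono' mX fun z hz => (hX1 z hz).1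
      _ ≤ ∫⁻ z in Z0, Wf N μ1 z.1 z.2 := lintegral_mono_set hXZ
      _ ≤ _ := int_WZ h1
  have v2 : ENNReal.ofReal s2 * volume X ≤ 4 * E2 := by
    calc ENNReal.ofReal s2 * volume X = ∫⁻ z in X, ENNReal.ofReal s2 := by rw [setLIntegral_const]
      _ ≤ ∫⁻ z in X, Wf N μ2 z.1 z.2 := setLIntegral_mono' mX fun z hz => (hX2 z hz).1
      _ ≤ ∫⁻ z in Z0, Wf N μ2 z.1 z.2 := lintegral_mono_set hXZ
      _ ≤ _ := int_WZ h2
  have vt : volume X ≠ ⊤ := by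
    intro hc
    rw [hc, ENNReal.mul_top (by simpa using hs1)] at v1
    exact (ENNReal.mul_ne_top (by norm_num) t1) (top_le_iff.1 v1)
  set x := (volume X).toReal with hx
  have ex : volume X = ENNReal.ofReal x := (ENNReal.ofReal_toReal vt).symm
  have eE1 : E1 = ENNReal.ofReal E1.toReal := (ENNReal.ofReal_toReal t1).symm
  have eE2 : E2 = ENNReal.ofReal E2.toReal := (ENNReal.ofReal_toReal t2).symm
  have hx0 : 0 ≤ x := ENNReal.toReal_nonneg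
  have b1 : s1 * x ≤ 4 * E1.toReal := by
    rw [ex, eE1, ← ENNReal.ofReal_mul hs1.le, show (4:ℝ≥0∞) = ENNReal.ofReal 4 by norm_num,
      ← ENNReal.ofReal_mul (by norm_num)] at v1
    exact (ENNReal.ofReal_le_ofReal_iff (by positivity)).1 v1
  have b2 : s2 * x ≤ 4 * E2.toReal := by
    rw [ex, eE2, ← ENNReal.ofReal_mul hs2.le, show (4:ℝ≥0∞) = ENNReal.ofReal 4 by norm_num,
      ← ENNReal.ofReal_mul (by norm_num)] at v2
    exact (ENNReal.ofReal_le_ofReal_iff (by positivity)).1 v2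
  have key := hb X s1 s2 (s1 * x / (4 * E1.toReal)) (s2 * x / (4 * E2.toReal)) mX hXZ hs1 hs2 (by positivity)
    (by rw [div_le_one (by positivity)]; exact b1) (by positivity) (by rw [div_le_one (by positivity)]; exact b2)
    (fun z hz => ⟨(hX1 z hz).1, (hX1 z hz).2.trans (ENNReal.ofReal_le_ofReal (by nlinarith))⟩)
    (fun z hz => ⟨(hX2 z hz).1, (hX2 z hz).2.trans (ENNReal.ofReal_le_ofReal (by nlinarith))⟩)
    (by
      rw [eE1, ENNReal.toReal_ofReal p1.le, ex, ← ENNReal.ofReal_mul (by positivity), ← ENNReal.ofReal_mul hs1.le]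
      refine ENNReal.ofReal_le_ofReal ?_
      have : s1 * x / (4 * E1.toReal) * E1.toReal = s1 * x / 4 := by field_simp
      rw [this]
      have : 0 ≤ s1 * x := by positivity
      linarith)
    (by
      rw [eE2, ENNReal.toReal_ofReal p2.le, ex, ← ENNReal.ofReal_mul (by positivity), ← ENNReal.ofReal_mul hs2.le]
      refine ENNReal.ofReal_le_ofReal ?_
      have : s2 * x / (4 * E2.toReal) * E2.toReal = s2 * x / 4 := by field_simp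
      rw [this]
      have : 0 ≤ s2 * x := by positivity
      linarith)
    hE1 hE2
  have hM0 : 0 ≤ CC * N * (1 + Real.log N) ^ 4 := by positivity
  have fin := real_lem hs1 hs2 hx0 p1 p2 b1 b2 hM0 key hr hr2
  calc ∫⁻ z in X, (Wf N μ1 z.1 z.2 * Wf N μ2 z.1 z.2) ^ (r / 2)
      ≤ ∫⁻ z in X, ENNReal.ofReal (4 * (s1 * s2) ^ (r / 2)) := by
        refine setLIntegral_mono' mX fun z hz => ?_
        calc (Wf N μ1 z.1 z.2 * Wf N μ2 z.1 z.2) ^ (r / 2) ≤ (ENNReal.ofReal (2 * s1) * ENNReal.ofReal (2 * s2)) ^ (r / 2) := by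
              have g1 := (hX1 z hz).2
              have g2 := (hX2 z hz).2
              gcongr
          _ = ENNReal.ofReal ((4 * (s1 * s2)) ^ (r / 2)) := by
              rw [← ENNReal.ofReal_mul (by positivity), ENNReal.ofReal_rpow_of_nonneg (by positivity) (by linarith)]
              congr 2; ring
          _ ≤ _ := by
              refine ENNReal.ofReal_le_ofReal ?_
              rw [Real.mul_rpow (by norm_num) (by positivity)]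
              have : (4:ℝ) ^ (r / 2) ≤ 4 := by
                calc (4:ℝ) ^ (r / 2) ≤ 4 ^ (1:ℝ) := Real.rpow_le_rpow_of_exponent_le (by norm_num) (by linarith)
                  _ = 4 := by norm_num
              gcongr
    _ = ENNReal.ofReal (4 * ((s1 * s2) ^ (r / 2) * x)) := by
        rw [setLIntegral_const, ex, ← ENNReal.ofReal_mul (by positivity)]
        congr 1; ring
    _ ≤ ENNReal.ofReal (16 * (CC * N * (1 + Real.log N) ^ 4) ^ ((r - 1) / 2) * (E1.toReal + E2.toReal)) := by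
        refine ENNReal.ofReal_le_ofReal ?_
        linarith
    _ = _ := by
        rw [ENNReal.ofReal_mul (by positivity), ENNReal.ofReal_add p1.le p2.le, ← eE1, ← eE2]

theorem volX0 {μ1 : ℤ × ℤ → ℝ × ℝ → ℝ≥0∞} (h1 : DenF C0 N μ1) (hE1 : ∑ k ∈ grd N, ∫⁻ s, μ1 k s = 0)
    {s1 : ℝ} (hs1 : 0 < s1) {X : Set (ℝ × (ℝ × ℝ))} (mX : MeasurableSet X) (hXZ : X ⊆ Z0)
    (hX1 : ∀ z ∈ X, ENNReal.ofReal s1 ≤ Wf N μ1 z.1 z.2) : volume X = 0 := by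
  have v1 : ENNReal.ofReal s1 * volume X ≤ 4 * ∑ k ∈ grd N, ∫⁻ s, μ1 k s := by
    calc ENNReal.ofReal s1 * volume X = ∫⁻ z in X, ENNReal.ofReal s1 := by rw [setLIntegral_const]
      _ ≤ ∫⁻ z in X, Wf N μ1 z.1 z.2 := setLIntegral_mono' mX fun z hz => (hX1 z hz)
      _ ≤ ∫⁻ z in Z0, Wf N μ1 z.1 z.2 := lintegral_mono_set hXZ
      _ ≤ _ := int_WZ h1
  rw [hE1, mul_zero] at v1
  have := le_antisymm v1 bot_le
  rcases mul_eq_zero.1 this with h | h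
  · exact absurd h (by simpa using hs1)
  · exact h

/-- the pair of levels -/
def Xl (N : ℕ) (μ1 μ2 : ℤ × ℤ → ℝ × ℝ → ℝ≥0∞) (p : ℤ × ℤ) : Set (ℝ × (ℝ × ℝ)) :=
  {z | z ∈ Z0 ∧ (ENNReal.ofReal ((2:ℝ) ^ p.1) ≤ Wf N μ1 z.1 z.2 ∧ Wf N μ1 z.1 z.2 ≤ ENNReal.ofReal (2 * (2:ℝ) ^ p.1)) ∧
    (ENNReal.ofReal ((2:ℝ) ^ p.2) ≤ Wf N μ2 z.1 z.2 ∧ Wf N μ2 z.1 z.2 ≤ ENNReal.ofReal (2 * (2:ℝ) ^ p.2))}

theorem mXl {μ1 μ2 : ℤ × ℤ → ℝ × ℝ → ℝ≥0∞} (h1 : DenF C0 N μ1) (h2 : DenF C0 N μ2) (p : ℤ × ℤ) :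
    MeasurableSet (Xl N μ1 μ2 p) := by
  have m1 := NR.meas_Wf (N := N) h1.meas
  have m2 := NR.meas_Wf (N := N) h2.meas
  have e : Xl N μ1 μ2 p = Z0 ∩ ((({z : ℝ × (ℝ × ℝ) | ENNReal.ofReal ((2:ℝ) ^ p.1) ≤ Wf N μ1 z.1 z.2} ∩
      {z : ℝ × (ℝ × ℝ) | Wf N μ1 z.1 z.2 ≤ ENNReal.ofReal (2 * (2:ℝ) ^ p.1)})) ∩
      (({z : ℝ × (ℝ × ℝ) | ENNReal.ofReal ((2:ℝ) ^ p.2) ≤ Wf N μ2 z.1 z.2} ∩
      {z : ℝ × (ℝ × ℝ) | Wf N μ2 z.1 z.2 ≤ ENNReal.ofReal (2 * (2:ℝ) ^ p.2)}))) := by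
    ext z; simp only [Xl, mem_inter_iff, mem_setOf_eq]
  rw [e]
  exact mZ0.inter (((measurableSet_le measurable_const m1).inter (measurableSet_le m1 measurable_const)).inter
    ((measurableSet_le measurable_const m2).inter (measurableSet_le m2 measurable_const)))

/-- pointwise covering by levels -/
theorem cover {μ1 μ2 : ℤ × ℤ → ℝ × ℝ → ℝ≥0∞} {m : ℕ} {r : ℝ} (hr : 1 ≤ r) (h1 : DenF C0 N μ1) (h2 : DenF C0 N μ2)
    (hm : ((N ^ 2 : ℕ) : ℝ≥0∞) ≤ ENNReal.ofReal ((2:ℝ) ^ m)) (z : ℝ × (ℝ × ℝ)) (hz : z ∈ Z0) :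
    (Wf N μ1 z.1 z.2 * Wf N μ2 z.1 z.2) ^ (r / 2) ≤ (Wf N μ1 z.1 z.2 + Wf N μ2 z.1 z.2) +
      ∑ p ∈ Finset.Icc (-(m:ℤ)) m ×ˢ Finset.Icc (-(m:ℤ)) m,
        (Xl N μ1 μ2 p).indicator (fun z => (Wf N μ1 z.1 z.2 * Wf N μ2 z.1 z.2) ^ (r / 2)) z := by
  rcases le_or_gt (Wf N μ1 z.1 z.2 * Wf N μ2 z.1 z.2) 1 with hl | hg
  · exact (low hr hl).trans le_self_add
  have u1 : Wf N μ1 z.1 z.2 ≤ ENNReal.ofReal ((2:ℝ) ^ m) := (W_le h1 _ _).trans hm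
  have u2 : Wf N μ2 z.1 z.2 ≤ ENNReal.ofReal ((2:ℝ) ^ m) := (W_le h2 _ _).trans hm
  have one : ENNReal.ofReal (((2:ℝ) ^ m)⁻¹) * ENNReal.ofReal ((2:ℝ) ^ m) = 1 := by
    rw [← ENNReal.ofReal_mul (by positivity), inv_mul_cancel₀ (by positivity), ENNReal.ofReal_one]
  have l1 : ENNReal.ofReal (((2:ℝ) ^ m)⁻¹) ≤ Wf N μ1 z.1 z.2 := by
    by_contra hc
    push Not at hc
    have : Wf N μ1 z.1 z.2 * Wf N μ2 z.1 z.2 ≤ 1 := by rw [← one]; exact mul_le_mul' hc.le u2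
    exact absurd hg (not_lt.2 this)
  have l2 : ENNReal.ofReal (((2:ℝ) ^ m)⁻¹) ≤ Wf N μ2 z.1 z.2 := by
    by_contra hc
    push Not at hc
    have : Wf N μ1 z.1 z.2 * Wf N μ2 z.1 z.2 ≤ 1 := by rw [← one, mul_comm]; exact mul_le_mul' hc.le u1
    exact absurd hg (not_lt.2 this)
  obtain ⟨i, hi, hi1, hi2⟩ := lev l1 u1
  obtain ⟨j, hj, hj1, hj2⟩ := lev l2 u2
  have hX : z ∈ Xl N μ1 μ2 (i, j) := ⟨hz, ⟨hi1, hi2⟩, ⟨hj1, hj2⟩⟩
  have hs := Finset.single_le_sum (f := fun p => (Xl N μ1 μ2 p).indicator (fun z => (Wf N μ1 z.1 z.2 * Wf N μ2 z.1 z.2) ^ (r / 2)) z)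
    (fun _ _ => bot_le) (Finset.mk_mem_product hi hj)
  simp only [Set.indicator_of_mem hX] at hs
  exact hs.trans le_add_self

theorem m_bd {N : ℕ} (hN : 1 ≤ N) : ∃ m : ℕ, ((N ^ 2 : ℕ) : ℝ≥0∞) ≤ ENNReal.ofReal ((2:ℝ) ^ m) ∧
    (2 * (m:ℝ) + 1) ≤ 6 * (1 + Real.log N) := by
  have hN1 : (1:ℝ) ≤ N := by exact_mod_cast hN
  have hl : 0 ≤ Real.log N := Real.log_nonneg hN1
  have hlb : 0 ≤ Real.logb 2 N := Real.logb_nonneg (by norm_num) hN1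
  refine ⟨2 * ⌈Real.logb 2 N⌉₊, ?_, ?_⟩
  · have h1 : (N:ℝ) ≤ 2 ^ (⌈Real.logb 2 N⌉₊) := by
      have := Nat.le_ceil (Real.logb 2 N)
      rw [Real.logb_le_iff_le_rpow (by norm_num) (by positivity), Real.rpow_natCast] at this
      exact this
    have h2 : (N:ℝ) ^ 2 ≤ 2 ^ (2 * ⌈Real.logb 2 N⌉₊) := by
      rw [mul_comm, pow_mul]; gcongr
    have h3 : ((N ^ 2 : ℕ) : ℝ≥0∞) = ENNReal.ofReal ((N:ℝ) ^ 2) := by
      rw [ENNReal.ofReal_pow (by positivity), ENNReal.ofReal_natCast]; push_cast; rfl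
    rw [h3]
    exact ENNReal.ofReal_le_ofReal h2
  · have h1 := (Nat.ceil_lt_add_one hlb).le
    have h2 : Real.logb 2 N ≤ 3/2 * Real.log N - 0 := by
      rw [Real.logb, div_le_iff₀ (Real.log_pos (by norm_num))]
      have := Real.log_two_gt_d9
      nlinarith
    push_cast
    linarith

theorem final_real {N : ℕ} {CC r ε : ℝ} (hN : 1 ≤ N) (hr : 1 < r) (hr2 : r ≤ 5/3) (hCC : 0 ≤ CC) (hε : 0 < ε) :
    4 + (6 * (1 + Real.log N)) ^ 2 * (16 * (CC * N * (1 + Real.log N) ^ 4) ^ ((r - 1) / 2)) ≤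
      (4 + 576 * CC ^ ((r - 1) / 2) * (1 + 4 / ε) ^ 4) * (N:ℝ) ^ ((r - 1) / 2 + ε) := by
  have hN1 : (1:ℝ) ≤ N := by exact_mod_cast hN
  have hl : 0 ≤ Real.log N := Real.log_nonneg hN1
  set L : ℝ := 1 + Real.log N with hL
  have hL1 : 1 ≤ L := by linarith
  have e1 : (CC * N * L ^ 4) ^ ((r - 1) / 2) ≤ CC ^ ((r - 1) / 2) * (N:ℝ) ^ ((r - 1) / 2) * L ^ 2 := by
    rw [Real.mul_rpow (by positivity) (by positivity), Real.mul_rpow hCC (by positivity)]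
    have : (L ^ 4) ^ ((r - 1) / 2) ≤ L ^ 2 := by
      rw [← Real.rpow_natCast L 4, ← Real.rpow_mul (by positivity), ← Real.rpow_natCast L 2]
      exact Real.rpow_le_rpow_of_exponent_le hL1 (by push_cast; linarith)
    gcongr
  have e2 : L ≤ (1 + 4 / ε) * (N:ℝ) ^ (ε / 4) := by
    have h1 := Real.log_le_rpow_div (x := (N:ℝ)) (ε := ε / 4) (by positivity) (by positivity)
    have h2 : 1 ≤ (N:ℝ) ^ (ε / 4) := Real.one_le_rpow hN1 (by positivity)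
    have h3 : (N:ℝ) ^ (ε / 4) / (ε / 4) = 4 / ε * (N:ℝ) ^ (ε / 4) := by field_simp
    rw [h3] at h1
    rw [hL, add_mul, one_mul]
    exact add_le_add h2 h1
  have e3 : L ^ 4 ≤ (1 + 4 / ε) ^ 4 * (N:ℝ) ^ ε := by
    calc L ^ 4 ≤ ((1 + 4 / ε) * (N:ℝ) ^ (ε / 4)) ^ 4 := by gcongr
      _ = _ := by
          rw [mul_pow, ← Real.rpow_natCast ((N:ℝ) ^ (ε / 4)) 4, ← Real.rpow_mul (by positivity)]
          congr 2; push_cast; ring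
  have e4 : 1 ≤ (N:ℝ) ^ ((r - 1) / 2 + ε) := Real.one_le_rpow hN1 (by linarith)
  have hCr : 0 ≤ CC ^ ((r - 1) / 2) := Real.rpow_nonneg hCC _
  calc 4 + (6 * L) ^ 2 * (16 * (CC * N * L ^ 4) ^ ((r - 1) / 2))
      ≤ 4 * 1 + (6 * L) ^ 2 * (16 * (CC ^ ((r - 1) / 2) * (N:ℝ) ^ ((r - 1) / 2) * L ^ 2)) := by
        rw [mul_one]; gcongr
    _ = 4 * 1 + 576 * CC ^ ((r - 1) / 2) * (N:ℝ) ^ ((r - 1) / 2) * L ^ 4 := by ring
    _ ≤ 4 * (N:ℝ) ^ ((r - 1) / 2 + ε) + 576 * CC ^ ((r - 1) / 2) * (N:ℝ) ^ ((r - 1) / 2) * ((1 + 4 / ε) ^ 4 * (N:ℝ) ^ ε) := by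
        gcongr
    _ = _ := by
        rw [Real.rpow_add (by positivity)]; ring

end Vale.Agent.P106.Q.LV

namespace Vale.Agent.P106.Q

open Vale.Agent.P106.G LV

/-- dyadic level sum -/
theorem stBILl {r : ℝ} (h : StBIL3) (h1 : 1 < r) (h2 : r ≤ 5/3) : StBILl r := by
  intro c C0 ε hc hC0 hε
  obtain ⟨CC, hCC, hb⟩ := h c (max C0 2) hc (le_max_of_le_left hC0)
  refine ⟨4 + 576 * CC ^ ((r - 1) / 2) * (1 + 4 / ε) ^ 4, ?_, ?_⟩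
  · have := Real.rpow_nonneg hCC ((r - 1) / 2)
    positivity
  intro N μ1 μ2 hN hd1' hd2' hsep hs1 hs2
  have hd1 : DenF (max C0 2) N μ1 := denF_mono hd1' (le_max_left _ _)
  have hd2 : DenF (max C0 2) N μ2 := denF_mono hd2' (le_max_left _ _)
  have hN1 : (1:ℝ) ≤ N := by exact_mod_cast hN
  have hl : 0 ≤ Real.log N := Real.log_nonneg hN1
  obtain ⟨m, hm, hm2⟩ := m_bd hN
  have m1 := NR.meas_Wf (N := N) hd1.meas
  have m2 := NR.meas_Wf (N := N) hd2.meas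
  have mF : Measurable fun z : ℝ × (ℝ × ℝ) => (Wf N μ1 z.1 z.2 * Wf N μ2 z.1 z.2) ^ (r / 2) := (m1.mul m2).pow_const _
  have step := hb N μ1 μ2 hN hd1 hd2 hsep hs1 hs2
  set E1 := ∑ k ∈ grd N, ∫⁻ s, μ1 k s with hE1
  set E2 := ∑ k ∈ grd N, ∫⁻ s, μ2 k s with hE2
  set K : ℝ := 16 * (CC * N * (1 + Real.log N) ^ 4) ^ ((r - 1) / 2) with hK
  have hK0 : 0 ≤ K := by
    have := Real.rpow_nonneg (show 0 ≤ CC * N * (1 + Real.log N) ^ 4 by positivity) ((r - 1) / 2)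
    positivity
  have pair : ∀ p : ℤ × ℤ, ∫⁻ z in Xl N μ1 μ2 p, (Wf N μ1 z.1 z.2 * Wf N μ2 z.1 z.2) ^ (r / 2) ≤ ENNReal.ofReal K * (E1 + E2) := by
    intro p
    have hp1 : (0:ℝ) < 2 ^ p.1 := by positivity
    have hp2 : (0:ℝ) < 2 ^ p.2 := by positivity
    by_cases z1 : E1 = 0
    · rw [setLIntegral_measure_zero _ _ (volX0 hd1 z1 hp1 (mXl hd1 hd2 p) (fun z hz => hz.1) (fun z hz => hz.2.1.1))]
      exact bot_le
    by_cases z2 : E2 = 0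
    · rw [setLIntegral_measure_zero _ _ (volX0 hd2 z2 hp2 (mXl hd1 hd2 p) (fun z hz => hz.1) (fun z hz => hz.2.2.1))]
      exact bot_le
    exact pairlev hN h1 h2 (le_max_right _ _) hCC hd1 hd2 step z1 z2 hp1 hp2 (mXl hd1 hd2 p) (fun z hz => hz.1)
      (fun z hz => hz.2.1) (fun z hz => hz.2.2)
  rw [int_Z0 (F := fun z => (Wf N μ1 z.1 z.2 * Wf N μ2 z.1 z.2) ^ (r / 2)) mF]
  have iW1 := int_WZ hd1
  have iW2 := int_WZ hd2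
  have card : (((Finset.Icc (-(m:ℤ)) m ×ˢ Finset.Icc (-(m:ℤ)) m).card : ℕ) : ℝ≥0∞) ≤ ENNReal.ofReal ((6 * (1 + Real.log N)) ^ 2) := by
    rw [Finset.card_product, Int.card_Icc]
    have e : ((m:ℤ) + 1 - -(m:ℤ)).toNat = 2 * m + 1 := by omega
    rw [e]
    have e2 : (((2 * m + 1) * (2 * m + 1) : ℕ) : ℝ≥0∞) = ENNReal.ofReal ((2 * (m:ℝ) + 1) ^ 2) := by
      rw [← ENNReal.ofReal_natCast]; congr 1; push_cast; ring
    rw [e2]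
    exact ENNReal.ofReal_le_ofReal (by gcongr)
  calc ∫⁻ z in Z0, (Wf N μ1 z.1 z.2 * Wf N μ2 z.1 z.2) ^ (r / 2)
      ≤ ∫⁻ z in Z0, ((Wf N μ1 z.1 z.2 + Wf N μ2 z.1 z.2) +
      ∑ p ∈ Finset.Icc (-(m:ℤ)) m ×ˢ Finset.Icc (-(m:ℤ)) m,
        (Xl N μ1 μ2 p).indicator (fun z => (Wf N μ1 z.1 z.2 * Wf N μ2 z.1 z.2) ^ (r / 2)) z) :=
        setLIntegral_mono' mZ0 fun z hz => cover h1.le hd1 hd2 hm z hz
    _ = ((∫⁻ z in Z0, Wf N μ1 z.1 z.2) + (∫⁻ z in Z0, Wf N μ2 z.1 z.2)) +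
      ∑ p ∈ Finset.Icc (-(m:ℤ)) m ×ˢ Finset.Icc (-(m:ℤ)) m,
        ∫⁻ z in Z0, (Xl N μ1 μ2 p).indicator (fun z => (Wf N μ1 z.1 z.2 * Wf N μ2 z.1 z.2) ^ (r / 2)) z := by
        rw [lintegral_add_left (f := fun z : ℝ × (ℝ × ℝ) => Wf N μ1 z.1 z.2 + Wf N μ2 z.1 z.2) (m1.add m2),
          lintegral_add_left (f := fun z : ℝ × (ℝ × ℝ) => Wf N μ1 z.1 z.2) m1, lintegral_finset_sum]
        exact fun p _ => mF.indicator (mXl hd1 hd2 p)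
    _ ≤ (4 * E1 + 4 * E2) + ∑ p ∈ Finset.Icc (-(m:ℤ)) m ×ˢ Finset.Icc (-(m:ℤ)) m, ENNReal.ofReal K * (E1 + E2) := by
        refine add_le_add (add_le_add iW1 iW2) (Finset.sum_le_sum fun p _ => ?_)
        refine le_trans ?_ (pair p)
        rw [lintegral_indicator (mXl hd1 hd2 p)]
        rw [Measure.restrict_restrict (mXl hd1 hd2 p)]
        exact lintegral_mono_set inter_subset_left
    _ = 4 * (E1 + E2) + (((Finset.Icc (-(m:ℤ)) m ×ˢ Finset.Icc (-(m:ℤ)) m).card : ℕ) : ℝ≥0∞) * (ENNReal.ofReal K * (E1 + E2)) := by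
        rw [Finset.sum_const, nsmul_eq_mul, mul_add (4:ℝ≥0∞) E1 E2]
    _ ≤ ENNReal.ofReal 4 * (E1 + E2) + ENNReal.ofReal ((6 * (1 + Real.log N)) ^ 2) * (ENNReal.ofReal K * (E1 + E2)) := by
        rw [show (4:ℝ≥0∞) = ENNReal.ofReal 4 by norm_num]
        gcongr
    _ = ENNReal.ofReal (4 + (6 * (1 + Real.log N)) ^ 2 * K) * (E1 + E2) := by
        rw [← mul_assoc, ← add_mul, ← ENNReal.ofReal_mul (by positivity), ← ENNReal.ofReal_add (by norm_num) (by positivity)]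
    _ ≤ _ := by
        refine mul_le_mul' (ENNReal.ofReal_le_ofReal ?_) le_rfl
        exact final_real hN h1 h2 hCC hε

end Vale.Agent.P106.Q
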