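import Vale.Agent.P106.Q.MLKa

/-! # P106 / Q / MLK : multilinear Kakeya in four dimensions with a loss `ρ ^ ε` (Guth's short proof) -/

open MeasureTheory Set Metric
open scoped ENNReal NNReal

set_option linter.all false

namespace Vale.Agent.P106.Q.MLK

/-- families whose averages vary slowly along the coordinate directions -/
structure Fam (θ : ℝ) (F : Fin 4 → V4 → ℝ≥0∞) : Prop where
  meas : ∀ j, Measurable (F j)
  sh : ∀ (j : Fin 4) (z : V4) (r r' s : ℝ), |s| * θ ≤ r' →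
    Av r (F j) (z + s • (Pi.single j 1 : V4)) ≤ Av (r + r') (F j) z

theorem ball_le_Av (g : V4 → ℝ≥0∞) (c : V4) (R : ℝ) :
    ∫⁻ w in closedBall c R, g w ≤ Av R g c := by
  unfold Av
  rw [← lintegral_indicator measurableSet_closedBall, ← lintegral_indicator measurableSet_closedBall,
    ← lintegral_add_left_eq_self (fun w => (closedBall c R).indicator g w) c]
  refine lintegral_mono fun w => ?_
  by_cases hw : c + w ∈ closedBall c R
  · have h2 : w ∈ closedBall (0 : V4) R := by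
      rw [mem_closedBall, dist_eq_norm] at hw ⊢
      simpa using hw
    simp only [indicator_of_mem hw, indicator_of_mem h2, le_refl]
  · simp only [indicator_of_notMem hw, zero_le]

theorem prod_const_mul (a : ℝ≥0∞) (X : Fin 4 → ℝ≥0∞) :
    ∏ j, (a * X j) ^ (1/3 : ℝ) = a ^ (4/3 : ℝ) * ∏ j, X j ^ (1/3 : ℝ) := by
  have e2 : ∀ j, (a * X j) ^ (1/3 : ℝ) = a ^ (1/3 : ℝ) * X j ^ (1/3 : ℝ) := fun j =>
    ENNReal.mul_rpow_of_nonneg _ _ (by norm_num)
  rw [Finset.prod_congr rfl (fun j _ => e2 j), Finset.prod_mul_distrib, Finset.prod_const,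
    Finset.card_univ, Fintype.card_fin]
  congr 1
  rw [← ENNReal.rpow_natCast, ← ENNReal.rpow_mul]
  norm_num

theorem prod_mono {X Y : Fin 4 → ℝ≥0∞} (h : ∀ j, X j ≤ Y j) :
    ∏ j, X j ^ (1/3 : ℝ) ≤ ∏ j, Y j ^ (1/3 : ℝ) :=
  Finset.prod_le_prod' fun j _ => ENNReal.rpow_le_rpow (h j) (by norm_num)

section
variable {θ : ℝ} (hθ : 0 < θ) {F : Fin 4 → V4 → ℝ≥0∞} (hF : Fam θ F)

include hF in
theorem measurable_prodAv (r : ℝ) : Measurable fun z => ∏ j, Av r (F j) z ^ (1/3 : ℝ) :=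
  Finset.measurable_prod _ fun j _ => (measurable_Av (hF.meas j) r).pow_const _

include hθ hF in
/-- one step on one cube -/
theorem local_step (c : V4) {r : ℝ} (hr : 0 < r) :
    ENNReal.ofReal (2 * (r / θ)) ^ (4/3 : ℝ) *
        ∫⁻ z in closedBall c (r / θ), ∏ j, Av r (F j) z ^ (1/3 : ℝ) ≤
      ENNReal.ofReal ((2 * (3 * r)) ^ 4) ^ (4/3 : ℝ) *
        ∏ j, Av (r / θ + 3 * r) (F j) c ^ (1/3 : ℝ) := by
  have hL : 0 < r / θ := div_pos hr hθ
  set L : ℝ := r / θ with hLdef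
  have hLθ : L * θ = r := by rw [hLdef]; field_simp
  set G : Fin 4 → V4 → ℝ≥0∞ := fun j z => Av (2 * r) (F j) (Function.update z j (c j)) with hGdef
  have hG : ∀ j, Measurable (G j) := fun j =>
    (measurable_Av (hF.meas j) (2 * r)).comp measurable_update_left
  have hi : ∀ j x y, G j (Function.update x j y) = G j x := by
    intro j x y
    simp only [hGdef, Function.update_idem]
  have hz : ∀ z ∈ closedBall c L, ∀ j, |z j - c j| * θ ≤ r := by
    intro z hz j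
    rw [mem_closedBall, dist_eq_norm] at hz
    have h1 : |z j - c j| ≤ L := by
      have := norm_le_pi_norm (z - c) j
      rw [Pi.sub_apply, Real.norm_eq_abs] at this
      exact this.trans hz
    rw [← hLθ]
    exact mul_le_mul_of_nonneg_right h1 hθ.le
  have e1 : ∀ (z : V4) (j : Fin 4), z = Function.update z j (c j) + (z j - c j) • (Pi.single j 1 : V4) := by
    intro z j
    funext i
    by_cases hij : i = j
    · subst hij
      simp
    · simp [hij]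
  have e2 : ∀ (z : V4) (j : Fin 4), Function.update z j (c j) = z + (c j - z j) • (Pi.single j 1 : V4) := by
    intro z j
    funext i
    by_cases hij : i = j
    · subst hij
      simp
    · simp [hij]
  have h1 : ∀ z ∈ closedBall c L, ∀ j, Av r (F j) z ≤ G j z := by
    intro z hzc j
    have h := hF.sh j (Function.update z j (c j)) r r (z j - c j) (hz z hzc j)
    rw [← e1 z j] at h
    rw [show r + r = 2 * r by ring] at h
    exact h
  have h2 : ∀ z ∈ closedBall c L, ∀ j, G j z ≤ Av (3 * r) (F j) z := by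
    intro z hzc j
    have h := hF.sh j z (2 * r) r (c j - z j) (by rw [abs_sub_comm]; exact hz z hzc j)
    rw [← e2 z j] at h
    rw [show 2 * r + r = 3 * r by ring] at h
    exact h
  calc ENNReal.ofReal (2 * L) ^ (4/3 : ℝ) * ∫⁻ z in closedBall c L, ∏ j, Av r (F j) z ^ (1/3 : ℝ)
      ≤ ENNReal.ofReal (2 * L) ^ (4/3 : ℝ) * ∫⁻ z in closedBall c L, ∏ j, G j z ^ (1/3 : ℝ) := by
        refine mul_le_mul_right ?_ _
        exact setLIntegral_mono' measurableSet_closedBall fun z hzc => prod_mono (h1 z hzc)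
    _ ≤ ∏ j, (∫⁻ z in closedBall c L, G j z) ^ (1/3 : ℝ) := lw_ball c hL G hG hi
    _ ≤ ∏ j, (ENNReal.ofReal ((2 * (3 * r)) ^ 4) * Av (L + 3 * r) (F j) c) ^ (1/3 : ℝ) := by
        refine prod_mono fun j => ?_
        calc ∫⁻ z in closedBall c L, G j z ≤ ∫⁻ z in closedBall c L, Av (3 * r) (F j) z :=
              setLIntegral_mono' measurableSet_closedBall fun z hzc => h2 z hzc j
          _ ≤ ENNReal.ofReal ((2 * (3 * r)) ^ 4) * ∫⁻ z in closedBall c (L + 3 * r), F j z :=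
              int_Av_le (hF.meas j) c (by linarith)
          _ ≤ _ := mul_le_mul_right (ball_le_Av _ _ _) _
    _ = _ := prod_const_mul _ _

include hθ hF in
/-- one step -/
theorem step (z0 : V4) (R : ℝ) {r : ℝ} (hr : 0 < r) :
    ∫⁻ z in closedBall z0 R, ∏ j, Av r (F j) z ^ (1/3 : ℝ) ≤
      ENNReal.ofReal ((3 * θ) ^ (16/3 : ℝ)) *
        ∫⁻ z in closedBall z0 (R + r / θ), ∏ j, Av (r / θ + 3 * r) (F j) z ^ (1/3 : ℝ) := by
  have hL : 0 < r / θ := div_pos hr hθ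
  set L : ℝ := r / θ with hLdef
  have hLθ : L * θ = r := by rw [hLdef]; field_simp
  set g : V4 → ℝ≥0∞ := fun z => ∏ j, Av r (F j) z ^ (1/3 : ℝ) with hg
  have mg : Measurable g := measurable_prodAv hF r
  set g' : V4 → ℝ≥0∞ := fun z => ∏ j, Av (L + 3 * r) (F j) z ^ (1/3 : ℝ) with hg'
  have mg' : Measurable g' := measurable_prodAv hF _
  have h1 := le_int_Av mg z0 (R := R) hL.le
  have h2 : ENNReal.ofReal (2 * L) ^ (4/3 : ℝ) * ∫⁻ z in closedBall z0 (R + L), Av L g z ≤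
      ENNReal.ofReal ((2 * (3 * r)) ^ 4) ^ (4/3 : ℝ) * ∫⁻ z in closedBall z0 (R + L), g' z := by
    rw [← lintegral_const_mul _ (measurable_Av mg L), ← lintegral_const_mul _ mg']
    refine lintegral_mono fun c => ?_
    refine le_trans ?_ (local_step hθ hF c hr)
    refine mul_le_mul_right ?_ _
    have h3 := Av_le_ball g (z0 := c) (z := c) (R := 0) (r := L) (mem_closedBall_self le_rfl)
    rwa [zero_add] at h3
  have h4 : ENNReal.ofReal (2 * L) ^ (4/3 : ℝ) *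
      (ENNReal.ofReal ((2 * L) ^ 4) * ∫⁻ z in closedBall z0 R, g z) ≤
      ENNReal.ofReal ((2 * (3 * r)) ^ 4) ^ (4/3 : ℝ) * ∫⁻ z in closedBall z0 (R + L), g' z :=
    (mul_le_mul_right h1 _).trans h2
  have hx : 0 < 2 * L := by linarith
  have e1 : 2 * (3 * r) = 3 * θ * (2 * L) := by rw [← hLθ]; ring
  have e2 : ENNReal.ofReal ((2 * (3 * r)) ^ 4) ^ (4/3 : ℝ) =
      ENNReal.ofReal ((2 * L) ^ (16/3 : ℝ)) * ENNReal.ofReal ((3 * θ) ^ (16/3 : ℝ)) := by
    rw [ENNReal.ofReal_rpow_of_nonneg (by positivity) (by norm_num),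
      ← ENNReal.ofReal_mul (by positivity), e1]
    congr 1
    rw [← Real.rpow_natCast, ← Real.rpow_mul (by positivity),
      Real.mul_rpow (by positivity) hx.le]
    norm_num
    ring
  have e3 : ENNReal.ofReal (2 * L) ^ (4/3 : ℝ) *
      (ENNReal.ofReal ((2 * L) ^ 4) * ∫⁻ z in closedBall z0 R, g z) =
      ENNReal.ofReal ((2 * L) ^ (16/3 : ℝ)) * ∫⁻ z in closedBall z0 R, g z := by
    rw [← mul_assoc, ENNReal.ofReal_rpow_of_nonneg hx.le (by norm_num),
      ← ENNReal.ofReal_mul (by positivity)]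
    congr 2
    rw [← Real.rpow_natCast, ← Real.rpow_add hx]
    norm_num
  rw [e2, e3, mul_assoc] at h4
  refine (ENNReal.mul_le_mul_iff_right ?_ ENNReal.ofReal_ne_top).1 h4
  simp only [ne_eq, ENNReal.ofReal_eq_zero, not_le]
  positivity

include hθ hF in
/-- the iteration -/
theorem iter (z0 : V4) (R : ℝ) (M : ℕ) :
    ∫⁻ z in closedBall z0 (R + 1), ∏ j, Av 1 (F j) z ^ (1/3 : ℝ) ≤
      ENNReal.ofReal (((3 * θ) ^ (16/3 : ℝ)) ^ M) *
        ∫⁻ z in closedBall z0 (R + (1 / θ + 3) ^ M),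
          ∏ j, Av ((1 / θ + 3) ^ M) (F j) z ^ (1/3 : ℝ) := by
  induction M with
  | zero => simp
  | succ M ih =>
    have hκ : 0 < (1 / θ + 3) ^ M := by positivity
    refine ih.trans ?_
    have h := step hθ hF z0 (R + (1 / θ + 3) ^ M) hκ
    have e1 : (1 / θ + 3) ^ M / θ + 3 * (1 / θ + 3) ^ M = (1 / θ + 3) ^ (M + 1) := by
      rw [pow_succ]; ring
    rw [e1] at h
    calc _ ≤ ENNReal.ofReal (((3 * θ) ^ (16/3 : ℝ)) ^ M) * (ENNReal.ofReal ((3 * θ) ^ (16/3 : ℝ)) *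
          ∫⁻ z in closedBall z0 (R + (1 / θ + 3) ^ M + (1 / θ + 3) ^ M / θ),
            ∏ j, Av ((1 / θ + 3) ^ (M + 1)) (F j) z ^ (1/3 : ℝ)) := mul_le_mul_right h _
      _ ≤ ENNReal.ofReal (((3 * θ) ^ (16/3 : ℝ)) ^ M) * (ENNReal.ofReal ((3 * θ) ^ (16/3 : ℝ)) *
          ∫⁻ z in closedBall z0 (R + (1 / θ + 3) ^ (M + 1)),
            ∏ j, Av ((1 / θ + 3) ^ (M + 1)) (F j) z ^ (1/3 : ℝ)) := by
          refine mul_le_mul_right (mul_le_mul_right ?_ _) _
          refine lintegral_mono_set (closedBall_subset_closedBall ?_)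
          rw [← e1]
          generalize (1 / θ + 3) ^ M / θ = y
          linarith
      _ = _ := by
          rw [← mul_assoc, ← ENNReal.ofReal_mul (by positivity), ← pow_succ]

include hθ hF in
/-- result of the iteration -/
theorem iter_end (z0 : V4) {ρ : ℝ} (M : ℕ) (hM : (1 / θ + 3) ^ M ≤ ρ) :
    ∫⁻ z in closedBall z0 ρ, ∏ j, Av 1 (F j) z ^ (1/3 : ℝ) ≤
      ENNReal.ofReal (((3 * θ) ^ (16/3 : ℝ)) ^ M * (4 * ρ) ^ 4) *
        ∏ j, (∫⁻ z in closedBall z0 (10 * ρ), F j z) ^ (1/3 : ℝ) := by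
  have hκ : 0 < (1 / θ + 3) ^ M := by positivity
  have hρ : 0 < ρ := hκ.trans_le hM
  calc ∫⁻ z in closedBall z0 ρ, ∏ j, Av 1 (F j) z ^ (1/3 : ℝ)
      ≤ ∫⁻ z in closedBall z0 (ρ + 1), ∏ j, Av 1 (F j) z ^ (1/3 : ℝ) :=
        lintegral_mono_set (closedBall_subset_closedBall (by linarith))
    _ ≤ ENNReal.ofReal (((3 * θ) ^ (16/3 : ℝ)) ^ M) *
        ∫⁻ z in closedBall z0 (ρ + (1 / θ + 3) ^ M),
          ∏ j, Av ((1 / θ + 3) ^ M) (F j) z ^ (1/3 : ℝ) := iter hθ hF z0 ρ M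
    _ ≤ ENNReal.ofReal (((3 * θ) ^ (16/3 : ℝ)) ^ M) *
        ∫⁻ z in closedBall z0 (2 * ρ),
          ∏ j, Av ((1 / θ + 3) ^ M) (F j) z ^ (1/3 : ℝ) := by
        refine mul_le_mul_right ?_ _
        exact lintegral_mono_set (closedBall_subset_closedBall (by linarith))
    _ ≤ ENNReal.ofReal (((3 * θ) ^ (16/3 : ℝ)) ^ M) *
        ∫⁻ z in closedBall z0 (2 * ρ),
          ∏ j, (∫⁻ z in closedBall z0 (10 * ρ), F j z) ^ (1/3 : ℝ) := by
        refine mul_le_mul_right ?_ _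
        refine setLIntegral_mono' measurableSet_closedBall fun z hz => prod_mono fun j => ?_
        refine (Av_le_ball (F j) hz).trans ?_
        exact lintegral_mono_set (closedBall_subset_closedBall (by linarith))
    _ = _ := by
        rw [setLIntegral_const, vol_ball z0 (by linarith), ENNReal.ofReal_mul (by positivity)]
        rw [show (2 * (2 * ρ)) ^ 4 = (4 * ρ) ^ 4 by ring]
        ring

end

/-- the numerical estimate -/
theorem num {ε θ ρ : ℝ} (hε : 0 < ε) (hθ : 0 < θ) (hθ3 : θ ≤ 1 / 3)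
    (h6 : (6 : ℝ) ^ (16/3 : ℝ) ≤ (1 / θ + 3) ^ ε) (hρ : 1 ≤ ρ) {M : ℕ}
    (hM : (1 / θ + 3) ^ M ≤ ρ) (hM2 : ρ < (1 / θ + 3) ^ (M + 1)) :
    ((3 * θ) ^ (16/3 : ℝ)) ^ M ≤ (1 / θ + 3) ^ (16/3 : ℝ) * ρ ^ (ε - 16/3) := by
  set κ : ℝ := 1 / θ + 3 with hκdef
  have hκ : 0 < κ := by positivity
  have hρ0 : 0 < ρ := by linarith
  have hq : (3 * θ) ^ (16/3 : ℝ) ≤ κ ^ (ε - 16/3) := by
    rw [Real.rpow_sub hκ, le_div_iff₀ (by positivity), ← Real.mul_rpow (by positivity) hκ.le]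
    refine le_trans (Real.rpow_le_rpow (by positivity) ?_ (by norm_num)) h6
    have : 3 * θ * κ = 3 + 9 * θ := by
      rw [hκdef]
      field_simp
      ring
    rw [this]
    linarith
  have h1 : ((3 * θ) ^ (16/3 : ℝ)) ^ M ≤ (κ ^ (ε - 16/3)) ^ M :=
    pow_le_pow_left₀ (by positivity) hq M
  have h2 : (κ ^ (ε - 16/3)) ^ M = (κ ^ M) ^ ε / (κ ^ M) ^ (16/3 : ℝ) := by
    rw [← Real.rpow_natCast, ← Real.rpow_mul hκ.le, ← Real.rpow_natCast, ← Real.rpow_mul hκ.le,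
      ← Real.rpow_mul hκ.le, ← Real.rpow_sub hκ]
    congr 1
    ring
  have h3 : (κ ^ M) ^ ε ≤ ρ ^ ε := Real.rpow_le_rpow (by positivity) hM hε.le
  have h4 : ρ ^ (16/3 : ℝ) ≤ κ ^ (16/3 : ℝ) * (κ ^ M) ^ (16/3 : ℝ) := by
    rw [← Real.mul_rpow hκ.le (by positivity)]
    refine Real.rpow_le_rpow hρ0.le ?_ (by norm_num)
    rw [pow_succ] at hM2
    linarith
  rw [h2] at h1
  refine h1.trans ?_
  rw [Real.rpow_sub hρ0, div_le_iff₀ (by positivity)]
  have h5 : 0 < ρ ^ (16/3 : ℝ) := by positivity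
  have h6' : 0 < (κ ^ M) ^ (16/3 : ℝ) := by positivity
  have h7 : ρ ^ ε ≤ κ ^ (16/3 : ℝ) * (ρ ^ ε / ρ ^ (16/3 : ℝ)) * (κ ^ M) ^ (16/3 : ℝ) := by
    have e : κ ^ (16/3 : ℝ) * (ρ ^ ε / ρ ^ (16/3 : ℝ)) * (κ ^ M) ^ (16/3 : ℝ) =
        ρ ^ ε * ((κ ^ (16/3 : ℝ) * (κ ^ M) ^ (16/3 : ℝ)) / ρ ^ (16/3 : ℝ)) := by ring
    rw [e]
    have : 1 ≤ (κ ^ (16/3 : ℝ) * (κ ^ M) ^ (16/3 : ℝ)) / ρ ^ (16/3 : ℝ) := by
      rw [one_le_div h5]
      exact h4
    exact le_mul_of_one_le_right (by positivity) this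
  exact h3.trans h7

/-- sums of invariant functions -/
theorem fam_of {θ : ℝ} (A : Fin 4 → Finset (ℤ × ℤ)) (u : Fin 4 → ℤ × ℤ → V4)
    (f : Fin 4 → ℤ × ℤ → V4 → ℝ≥0∞) (hm : ∀ j a, Measurable (f j a))
    (hu : ∀ j, ∀ a ∈ A j, ‖u j a - Pi.single j 1‖ ≤ θ)
    (hinv : ∀ j, ∀ a ∈ A j, ∀ (z : V4) (t : ℝ), f j a (z + t • u j a) = f j a z) :
    Fam θ (fun j z => ∑ a ∈ A j, f j a z) where
  meas j := Finset.measurable_sum _ fun a _ => hm j a
  sh j z r r' s hs := by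
    rw [Av_sum _ _ (hm j), Av_sum _ _ (hm j)]
    exact Finset.sum_le_sum fun a ha => Av_shift (hu j a ha) (hinv j a ha) z hs

theorem slow_Av {g : V4 → ℝ≥0∞} {K : ℝ≥0∞} (hm : Measurable g)
    (h : ∀ z z', ‖z - z'‖ ≤ 1 → g z ≤ K * g z') (z : V4) : g z ≤ K * Av 1 g z := by
  unfold Av
  have hm' : Measurable fun w => g (z + w) := hm.comp (by fun_prop)
  rw [← lintegral_const_mul K hm']
  calc g z ≤ ∫⁻ w in closedBall (0 : V4) 1, g z := by
        rw [setLIntegral_const, vol_ball _ zero_le_one]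
        have : (1 : ℝ≥0∞) ≤ ENNReal.ofReal ((2 * 1) ^ 4) := by
          rw [← ENNReal.ofReal_one]
          exact ENNReal.ofReal_le_ofReal (by norm_num)
        calc g z = g z * 1 := (mul_one _).symm
          _ ≤ _ := mul_le_mul_right this _
    _ ≤ _ := by
        refine setLIntegral_mono' measurableSet_closedBall fun w hw => h _ _ ?_
        rw [mem_closedBall, dist_zero_right] at hw
        rwa [sub_add_cancel_left, norm_neg]

end MLK

open MLK in
/-- [MLK] -/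
theorem stMLK : StMLK := by
  intro ε hε
  -- choice of `θ`
  set l : ℝ := max 3 (((6 : ℝ) ^ (16/3 : ℝ)) ^ (1 / ε)) with hl
  have l3 : 3 ≤ l := le_max_left _ _
  have l0 : 0 < l := by linarith
  refine ⟨1 / l, by positivity, fun C0 hC0 => ?_⟩
  have hθ : 0 < 1 / l := by positivity
  have hθ3 : 1 / l ≤ 1 / 3 := one_div_le_one_div_of_le (by norm_num) l3
  have e0 : 1 / (1 / l) + 3 = l + 3 := by rw [one_div_one_div]
  have h6 : (6 : ℝ) ^ (16/3 : ℝ) ≤ (1 / (1 / l) + 3) ^ ε := by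
    rw [e0]
    have h1 : ((6 : ℝ) ^ (16/3 : ℝ)) ^ (1 / ε) ≤ l + 3 := 
      (le_max_right _ _).trans (le_add_of_nonneg_right (by norm_num))
    have h2 := Real.rpow_le_rpow (by positivity) h1 hε.le
    rwa [← Real.rpow_mul (by positivity), one_div_mul_cancel hε.ne', Real.rpow_one] at h2
  refine ⟨C0 ^ (4/3 : ℝ) * ((1 / (1 / l) + 3) ^ (16/3 : ℝ) * 4 ^ 4), by positivity, ?_⟩
  intro A u f hm hu hinv hslow z0 ρ hρ
  have hρ0 : 0 < ρ := by linarith
  have hF := fam_of A u f hm hu hinv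
  have hsl : ∀ j z, ∑ a ∈ A j, f j a z ≤
      ENNReal.ofReal C0 * Av 1 (fun z => ∑ a ∈ A j, f j a z) z := by
    intro j z
    refine slow_Av (hF.meas j) (fun z z' hz => ?_) z
    rw [Finset.mul_sum]
    exact Finset.sum_le_sum fun a _ => hslow j a z z' hz
  -- the number of steps
  have hκ1 : 1 < 1 / (1 / l) + 3 := by rw [e0]; linarith
  obtain ⟨M, hM1, hM2⟩ := exists_nat_pow_near hρ hκ1
  have hnum := num hε hθ hθ3 h6 hρ hM1 hM2
  calc ∫⁻ z in closedBall z0 ρ, ∏ j, (∑ a ∈ A j, f j a z) ^ (1/3 : ℝ)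
      ≤ ∫⁻ z in closedBall z0 ρ, ENNReal.ofReal C0 ^ (4/3 : ℝ) *
          ∏ j, Av 1 (fun z => ∑ a ∈ A j, f j a z) z ^ (1/3 : ℝ) := by
        refine lintegral_mono fun z => ?_
        rw [← prod_const_mul]
        exact prod_mono fun j => hsl j z
    _ = ENNReal.ofReal (C0 ^ (4/3 : ℝ)) * ∫⁻ z in closedBall z0 ρ,
          ∏ j, Av 1 (fun z => ∑ a ∈ A j, f j a z) z ^ (1/3 : ℝ) := by
        rw [lintegral_const_mul _ (measurable_prodAv hF 1),
          ENNReal.ofReal_rpow_of_nonneg (by linarith) (by norm_num)]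
    _ ≤ ENNReal.ofReal (C0 ^ (4/3 : ℝ)) * (ENNReal.ofReal (((3 * (1 / l)) ^ (16/3 : ℝ)) ^ M *
          (4 * ρ) ^ 4) *
        ∏ j, (∫⁻ z in closedBall z0 (10 * ρ), ∑ a ∈ A j, f j a z) ^ (1/3 : ℝ)) :=
        mul_le_mul_right (iter_end hθ hF z0 M hM1) _
    _ ≤ _ := by
        rw [← mul_assoc, ← ENNReal.ofReal_mul (by positivity)]
        refine mul_le_mul_left (ENNReal.ofReal_le_ofReal ?_) _
        have e1 : C0 ^ (4/3 : ℝ) * ((1 / (1 / l) + 3) ^ (16/3 : ℝ) * 4 ^ 4) * ρ ^ (ε - 4/3) =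
            C0 ^ (4/3 : ℝ) * ((1 / (1 / l) + 3) ^ (16/3 : ℝ) * ρ ^ (ε - 16/3) * (4 * ρ) ^ 4) := by
          have : ρ ^ (ε - 4/3) = ρ ^ (ε - 16/3) * ρ ^ 4 := by
            rw [← Real.rpow_natCast, ← Real.rpow_add hρ0]
            congr 1
            norm_num
            ring
          rw [this]
          ring
        rw [e1]
        gcongr

end Vale.Agent.P106.Q
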