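import Vale.Agent.P106.Q.Defs

/-! # P106 / Q / MLK : Loomis–Whitney in four dimensions and averages over cubes -/

open MeasureTheory Set Metric
open scoped ENNReal NNReal

set_option linter.all false

namespace Vale.Agent.P106.Q.MLK

/-- the space of the four coordinates -/
abbrev V4 := Fin 4 → ℝ

/-! ## Loomis–Whitney -/

/-- Loomis–Whitney for iterated integrals: `G j` does not depend on the `j`-th variable. -/
theorem lw_marginal (μ : Fin 4 → Measure ℝ) [∀ i, SigmaFinite (μ i)] (G : Fin 4 → V4 → ℝ≥0∞)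
    (hG : ∀ j, Measurable (G j)) (hi : ∀ j x y, G j (Function.update x j y) = G j x)
    (S : Finset (Fin 4)) (x : V4) :
    (∫⋯∫⁻_S, (fun z => ∏ j, G j z ^ (1/3 : ℝ)) ∂μ) x ≤
      ∏ j, ((∫⋯∫⁻_(S.erase j), G j ∂μ) x) ^ (1/3 : ℝ) := by
  have hP : Measurable (fun z => ∏ j, G j z ^ (1/3 : ℝ)) :=
    Finset.measurable_prod _ fun j _ => (hG j).pow_const _
  induction S using Finset.induction_on generalizing x with
  | empty => simp
  | insert i S hS ih =>
    rw [lmarginal_insert _ hP hS]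
    -- the term `j = i` does not depend on the variable
    have hconst : ∀ y, (∫⋯∫⁻_(S.erase i), G i ∂μ) (Function.update x i y) =
        (∫⋯∫⁻_((insert i S).erase i), G i ∂μ) x := by
      intro y
      rw [Finset.erase_eq_of_notMem hS, Finset.erase_insert hS,
        lmarginal_update_of_notMem (hG i) hS]
      have e : G i ∘ (Function.update · i y) = G i := by
        funext z
        exact hi i z y
      rw [e]
    have hm : ∀ j, Measurable fun y => (∫⋯∫⁻_(S.erase j), G j ∂μ) (Function.update x i y) :=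
      fun j => ((hG j).lmarginal μ).comp (measurable_update x)
    calc ∫⁻ y, (∫⋯∫⁻_S, (fun z => ∏ j, G j z ^ (1/3 : ℝ)) ∂μ) (Function.update x i y) ∂μ i
        ≤ ∫⁻ y, ∏ j, ((∫⋯∫⁻_(S.erase j), G j ∂μ) (Function.update x i y)) ^ (1/3 : ℝ) ∂μ i :=
          lintegral_mono fun y => ih _
      _ = ∫⁻ y, ((∫⋯∫⁻_((insert i S).erase i), G i ∂μ) x) ^ (1/3 : ℝ) *
            ∏ j ∈ Finset.univ.erase i,
              ((∫⋯∫⁻_(S.erase j), G j ∂μ) (Function.update x i y)) ^ (1/3 : ℝ) ∂μ i := by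
          refine lintegral_congr fun y => ?_
          rw [← Finset.mul_prod_erase Finset.univ _ (Finset.mem_univ i), hconst]
      _ = ((∫⋯∫⁻_((insert i S).erase i), G i ∂μ) x) ^ (1/3 : ℝ) *
            ∫⁻ y, ∏ j ∈ Finset.univ.erase i,
              ((∫⋯∫⁻_(S.erase j), G j ∂μ) (Function.update x i y)) ^ (1/3 : ℝ) ∂μ i := by
          rw [lintegral_const_mul]
          exact Finset.measurable_prod _ fun j _ => (hm j).pow_const _
      _ ≤ ((∫⋯∫⁻_((insert i S).erase i), G i ∂μ) x) ^ (1/3 : ℝ) *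
            ∏ j ∈ Finset.univ.erase i,
              (∫⁻ y, (∫⋯∫⁻_(S.erase j), G j ∂μ) (Function.update x i y) ∂μ i) ^ (1/3 : ℝ) := by
          gcongr
          refine ENNReal.lintegral_prod_norm_pow_le (Finset.univ.erase i)
            (p := fun _ => (1/3 : ℝ)) (fun j _ => (hm j).aemeasurable) ?_ (fun _ _ => by norm_num)
          rw [Finset.sum_const, Finset.card_erase_of_mem (Finset.mem_univ i)]
          simp
      _ = ((∫⋯∫⁻_((insert i S).erase i), G i ∂μ) x) ^ (1/3 : ℝ) *
            ∏ j ∈ Finset.univ.erase i,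
              ((∫⋯∫⁻_((insert i S).erase j), G j ∂μ) x) ^ (1/3 : ℝ) := by
          congr 1
          refine Finset.prod_congr rfl fun j hj => ?_
          have hji : i ≠ j := fun e => (Finset.mem_erase.1 hj).1 e.symm
          rw [Finset.erase_insert_of_ne hji, lmarginal_insert _ (hG j)
            (fun h => hS (Finset.mem_of_mem_erase h))]
      _ = _ := by rw [Finset.mul_prod_erase Finset.univ
            (fun j => ((∫⋯∫⁻_((insert i S).erase j), G j ∂μ) x) ^ (1/3 : ℝ)) (Finset.mem_univ i)]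

/-- Loomis–Whitney on a product of finite measures of equal mass. -/
theorem lw_pi (μ : Fin 4 → Measure ℝ) [∀ i, SigmaFinite (μ i)] (m : ℝ≥0∞) (hm0 : m ≠ 0)
    (hmt : m ≠ ⊤) (hm : ∀ i, μ i univ = m) (G : Fin 4 → V4 → ℝ≥0∞)
    (hG : ∀ j, Measurable (G j)) (hi : ∀ j x y, G j (Function.update x j y) = G j x) :
    m ^ (4/3 : ℝ) * ∫⁻ z, ∏ j, G j z ^ (1/3 : ℝ) ∂(Measure.pi μ) ≤
      ∏ j, (∫⁻ z, G j z ∂(Measure.pi μ)) ^ (1/3 : ℝ) := by
  have h := lw_marginal μ G hG hi Finset.univ 0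
  rw [lmarginal_univ] at h
  have e : ∀ j, ∫⁻ z, G j z ∂(Measure.pi μ) = m * (∫⋯∫⁻_(Finset.univ.erase j), G j ∂μ) 0 := by
    intro j
    have h1 := lmarginal_erase (μ := μ) (G j) (hG j) (Finset.mem_univ j) 0
    rw [lmarginal_univ] at h1
    simp only at h1
    rw [h1]
    have h2 : ∀ y, (∫⋯∫⁻_(Finset.univ.erase j), G j ∂μ) (Function.update 0 j y) =
        (∫⋯∫⁻_(Finset.univ.erase j), G j ∂μ) 0 := by
      intro y
      rw [lmarginal_update_of_notMem (hG j) (Finset.notMem_erase j _)]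
      have e : G j ∘ (Function.update · j y) = G j := by
        funext z
        exact hi j z y
      rw [e]
    simp_rw [h2]
    rw [lintegral_const, hm j, mul_comm]
  calc m ^ (4/3 : ℝ) * ∫⁻ z, ∏ j, G j z ^ (1/3 : ℝ) ∂(Measure.pi μ)
      ≤ m ^ (4/3 : ℝ) * ∏ j, ((∫⋯∫⁻_(Finset.univ.erase j), G j ∂μ) 0) ^ (1/3 : ℝ) := by gcongr
    _ = ∏ j, (∫⁻ z, G j z ∂(Measure.pi μ)) ^ (1/3 : ℝ) := by
        have e2 : ∀ j, (∫⁻ z, G j z ∂(Measure.pi μ)) ^ (1/3 : ℝ) =
            m ^ (1/3 : ℝ) * ((∫⋯∫⁻_(Finset.univ.erase j), G j ∂μ) 0) ^ (1/3 : ℝ) := by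
          intro j
          rw [e j, ENNReal.mul_rpow_of_nonneg _ _ (by norm_num)]
        rw [Finset.prod_congr rfl (fun j _ => e2 j), Finset.prod_mul_distrib, Finset.prod_const,
          Finset.card_univ, Fintype.card_fin]
        congr 1
        rw [← ENNReal.rpow_natCast, ← ENNReal.rpow_mul]
        norm_num

theorem restrict_ball (c : V4) {L : ℝ} (hL : 0 ≤ L) :
    (volume : Measure V4).restrict (closedBall c L) =
      Measure.pi (fun i => (volume : Measure ℝ).restrict (closedBall (c i) L)) := by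
  rw [closedBall_pi c hL, volume_pi, Measure.restrict_pi_pi]

/-- Loomis–Whitney on a cube. -/
theorem lw_ball (c : V4) {L : ℝ} (hL : 0 < L) (G : Fin 4 → V4 → ℝ≥0∞)
    (hG : ∀ j, Measurable (G j)) (hi : ∀ j x y, G j (Function.update x j y) = G j x) :
    ENNReal.ofReal (2 * L) ^ (4/3 : ℝ) * ∫⁻ z in closedBall c L, ∏ j, G j z ^ (1/3 : ℝ) ≤
      ∏ j, (∫⁻ z in closedBall c L, G j z) ^ (1/3 : ℝ) := by
  rw [restrict_ball c hL.le]
  refine lw_pi _ (ENNReal.ofReal (2 * L)) ?_ ENNReal.ofReal_ne_top ?_ G hG hi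
  · simp; linarith
  · intro i
    rw [Measure.restrict_apply_univ, Real.volume_closedBall]

/-! ## Averages over cubes -/

/-- integral over the cube of radius `r` centered at `z` -/
noncomputable def Av (r : ℝ) (g : V4 → ℝ≥0∞) (z : V4) : ℝ≥0∞ :=
  ∫⁻ w in closedBall (0 : V4) r, g (z + w)

theorem vol_ball (c : V4) {r : ℝ} (hr : 0 ≤ r) :
    volume (closedBall c r) = ENNReal.ofReal ((2 * r) ^ 4) := by
  rw [Real.volume_pi_closedBall c hr]
  simp

theorem measurable_Av {g : V4 → ℝ≥0∞} (hg : Measurable g) (r : ℝ) : Measurable (Av r g) := by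
  unfold Av
  have : Measurable (fun p : V4 × V4 => g (p.1 + p.2)) := hg.comp (by fun_prop)
  exact this.lintegral_prod_right'

theorem shift_le (g : V4 → ℝ≥0∞) (x v : V4) {r s : ℝ} (hv : ‖v‖ ≤ s) :
    ∫⁻ w in closedBall x r, g (w + v) ≤ ∫⁻ w in closedBall x (r + s), g w := by
  rw [← lintegral_indicator measurableSet_closedBall, ← lintegral_indicator measurableSet_closedBall,
    ← lintegral_add_right_eq_self (fun w => (closedBall x (r + s)).indicator g w) v]
  refine lintegral_mono fun w => ?_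
  by_cases hw : w ∈ closedBall x r
  · have h2 : w + v ∈ closedBall x (r + s) := by
      rw [mem_closedBall, dist_eq_norm] at hw ⊢
      calc ‖w + v - x‖ = ‖(w - x) + v‖ := by congr 1; abel
        _ ≤ ‖w - x‖ + ‖v‖ := norm_add_le _ _
        _ ≤ r + s := add_le_add hw hv
    simp only [indicator_of_mem hw, indicator_of_mem h2, le_refl]
  · simp only [indicator_of_notMem hw, zero_le]

theorem le_shift (g : V4 → ℝ≥0∞) (x v : V4) {r s : ℝ} (hv : ‖v‖ ≤ s) :
    ∫⁻ w in closedBall x r, g w ≤ ∫⁻ w in closedBall x (r + s), g (w + v) := by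
  have h := shift_le (fun w => g (w + v)) x (-v) (r := r) (s := s) (by rwa [norm_neg])
  simpa using h

/-- averages are controlled by the integral over a bigger ball -/
theorem Av_le_ball (g : V4 → ℝ≥0∞) {z0 z : V4} {R r : ℝ} (hz : z ∈ closedBall z0 R) :
    Av r g z ≤ ∫⁻ w in closedBall z0 (R + r), g w := by
  unfold Av
  rw [← lintegral_indicator measurableSet_closedBall, ← lintegral_indicator measurableSet_closedBall,
    ← lintegral_add_left_eq_self (fun w => (closedBall z0 (R + r)).indicator g w) z]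
  refine lintegral_mono fun w => ?_
  by_cases hw : w ∈ closedBall (0 : V4) r
  · have h2 : z + w ∈ closedBall z0 (R + r) := by
      rw [mem_closedBall, dist_eq_norm] at hw hz ⊢
      rw [sub_zero] at hw
      calc ‖z + w - z0‖ = ‖(z - z0) + w‖ := by congr 1; abel
        _ ≤ ‖z - z0‖ + ‖w‖ := norm_add_le _ _
        _ ≤ R + r := add_le_add hz hw
    simp only [indicator_of_mem hw, indicator_of_mem h2, le_refl]
  · simp only [indicator_of_notMem hw, zero_le]

theorem swap_Av {g : V4 → ℝ≥0∞} (hg : Measurable g) (x : V4) (R s : ℝ) :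
    ∫⁻ z in closedBall x R, Av s g z =
      ∫⁻ w in closedBall (0 : V4) s, ∫⁻ z in closedBall x R, g (z + w) := by
  unfold Av
  rw [lintegral_lintegral_swap]
  exact (hg.comp (by fun_prop)).aemeasurable

theorem int_Av_le {g : V4 → ℝ≥0∞} (hg : Measurable g) (x : V4) {R s : ℝ} (hs : 0 ≤ s) :
    ∫⁻ z in closedBall x R, Av s g z ≤
      ENNReal.ofReal ((2 * s) ^ 4) * ∫⁻ z in closedBall x (R + s), g z := by
  rw [swap_Av hg, ← vol_ball (0 : V4) hs, mul_comm, ← setLIntegral_const]
  refine setLIntegral_mono' measurableSet_closedBall fun w hw => ?_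
  refine shift_le g x w ?_
  rwa [mem_closedBall, dist_zero_right] at hw

theorem le_int_Av {g : V4 → ℝ≥0∞} (hg : Measurable g) (x : V4) {R s : ℝ} (hs : 0 ≤ s) :
    ENNReal.ofReal ((2 * s) ^ 4) * ∫⁻ z in closedBall x R, g z ≤
      ∫⁻ z in closedBall x (R + s), Av s g z := by
  rw [swap_Av hg, ← vol_ball (0 : V4) hs, mul_comm, ← setLIntegral_const]
  refine setLIntegral_mono' measurableSet_closedBall fun w hw => ?_
  refine le_shift g x w ?_
  rwa [mem_closedBall, dist_zero_right] at hw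

/-- the average of a function invariant in a direction close to `e` varies slowly along `e` -/
theorem Av_shift {g : V4 → ℝ≥0∞} {u e : V4} {θ : ℝ} (hu : ‖u - e‖ ≤ θ)
    (hinv : ∀ (z : V4) (t : ℝ), g (z + t • u) = g z) (z : V4) {r r' s : ℝ}
    (hs : |s| * θ ≤ r') : Av r g (z + s • e) ≤ Av (r + r') g z := by
  unfold Av
  have h1 : ∀ w, g (z + s • e + w) = (fun y => g (z + y)) (w + s • (e - u)) := by
    intro w
    simp only
    rw [← hinv (z + (w + s • (e - u))) s]
    congr 1
    rw [smul_sub]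
    abel
  simp_rw [h1]
  refine shift_le (fun y => g (z + y)) 0 (s • (e - u)) ?_
  rw [norm_smul, Real.norm_eq_abs, norm_sub_rev]
  exact (mul_le_mul_of_nonneg_left hu (abs_nonneg s)).trans hs

theorem Av_mono {g g' : V4 → ℝ≥0∞} {r : ℝ} (h : ∀ z, g z ≤ g' z) (z : V4) : Av r g z ≤ Av r g' z :=
  lintegral_mono fun w => h _

theorem Av_sum {ι : Type*} (A : Finset ι) (g : ι → V4 → ℝ≥0∞) (hg : ∀ a, Measurable (g a)) (r : ℝ)
    (z : V4) : Av r (fun z => ∑ a ∈ A, g a z) z = ∑ a ∈ A, Av r (g a) z := by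
  unfold Av
  rw [lintegral_finset_sum]
  intro a _
  exact (hg a).comp (by fun_prop)

end Vale.Agent.P106.Q.MLK
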