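import Vale.Agent.P106.Q.NK3Cd

/-! # P106 / Q : block NK3C, main theorem (helper377) -/

open MeasureTheory Complex Set
open scoped ENNReal NNReal

set_option linter.all false

namespace Vale.Agent.P106.Q.NKC

open Vale.Agent.P117.K (pos hits inP KTf StKTc)
open Vale.Agent.P106.G (grd)

variable {L N : ℕ} {μ : ℤ × ℤ → ℝ × ℝ → ℝ≥0∞}

lemma sum_le_blocks (hN : 1 ≤ N) (Q : Z2) {τ : ℕ} :
    ∑ k ∈ grd N, μ k (pnt L (fun i => Q i - (τ : ℤ) * yk L N k i / 2 ^ L)) ≤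
      ∑' m : Z2, Gm L N μ m (fun i => Q i - 2 ^ L * m i) τ := by
  classical
  set f : ℤ × ℤ → ℝ≥0∞ := fun k => μ k (pnt L (fun i => Q i - (τ : ℤ) * yk L N k i / 2 ^ L)) with hf
  set mk : ℤ × ℤ → Z2 := fun k i => (Q i - (τ : ℤ) * yk L N k i / 2 ^ L) / 2 ^ L with hmk
  have h1 : ∑ k ∈ grd N, f k = ∑' m : Z2, ∑ k ∈ grd N, (if m = mk k then f k else 0) := by
    rw [Summable.tsum_finsetSum fun _ _ => ENNReal.summable]
    refine Finset.sum_congr rfl fun k _ => ?_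
    rw [tsum_ite_eq]
  rw [h1]
  refine ENNReal.tsum_le_tsum fun m => ?_
  have h2 : Gm L N μ m (fun i => Q i - 2 ^ L * m i) τ =
      ∑ k ∈ grd N, ∑ l ∈ (Bx L).filter (fun l => pos L l τ = fun i => Q i - 2 ^ L * m i),
        (if yk L N k = l.2 then μ k (pnt L (fun i => 2 ^ L * m i + l.1 i)) else 0) := by
    unfold Gm Wm
    simp only [Finset.sum_filter]
    rw [Finset.sum_comm]
    refine Finset.sum_congr rfl fun l _ => ?_
    split_ifs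
    · rfl
    · simp
  rw [h2]
  refine Finset.sum_le_sum fun k hk => ?_
  split_ifs with hm
  · have hl : ((fun i => Q i - (τ : ℤ) * yk L N k i / 2 ^ L - 2 ^ L * m i, yk L N k) : LI) ∈
        (Bx L).filter (fun l => pos L l τ = fun i => Q i - 2 ^ L * m i) := by
      rw [Finset.mem_filter, mem_Bx]
      refine ⟨fun i => ⟨?_, yk_bds hN hk i⟩, ?_⟩
      · have h2L : (0:ℤ) < 2 ^ L := by positivity
        have e1 : m i = (Q i - (τ : ℤ) * yk L N k i / 2 ^ L) / 2 ^ L := by rw [hm]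
        have e2 := Int.emod_add_mul_ediv (Q i - (τ : ℤ) * yk L N k i / 2 ^ L) (2 ^ L)
        have e3 := Int.emod_nonneg (Q i - (τ : ℤ) * yk L N k i / 2 ^ L) h2L.ne'
        have e4 := Int.emod_lt_of_pos (Q i - (τ : ℤ) * yk L N k i / 2 ^ L) h2L
        rw [← e1] at e2
        dsimp only
        constructor <;> linarith
      · funext i
        simp only [pos]
        ring
    have h3 := Finset.single_le_sum (f := fun l : LI => (if yk L N k = l.2 then μ k (pnt L (fun i => 2 ^ L * m i + l.1 i)) else 0))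
      (fun _ _ => bot_le) hl
    refine le_trans (le_of_eq ?_) h3
    simp only [if_true, hf]
    congr 2
    funext i
    ring
  · exact bot_le

lemma pnt_fst (Q : Z2) (τ : ℕ) (k : ℤ × ℤ) : (pnt L (fun i => Q i - (τ : ℤ) * yk L N k i / 2 ^ L)).1 =
    4 / ((2 ^ L : ℕ) : ℝ) * ((Q 0 : ℝ) - (((τ : ℤ) * ⌊((2 ^ L : ℕ) : ℝ) * ((k.1 : ℝ) / N)⌋ / ((2 ^ L : ℕ) : ℤ) : ℤ) : ℝ)) := by
  simp only [pnt, yk, Matrix.cons_val_zero]
  push_cast
  rfl

lemma pnt_snd (Q : Z2) (τ : ℕ) (k : ℤ × ℤ) : (pnt L (fun i => Q i - (τ : ℤ) * yk L N k i / 2 ^ L)).2 =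
    4 / ((2 ^ L : ℕ) : ℝ) * ((Q 1 : ℝ) - (((τ : ℤ) * ⌊((2 ^ L : ℕ) : ℝ) * ((k.2 : ℝ) / N)⌋ / ((2 ^ L : ℕ) : ℤ) : ℤ) : ℝ)) := by
  simp only [pnt, yk, Matrix.cons_val_one]
  push_cast
  rfl

lemma Wf_le (hN : 1 ≤ N) (hL : 12 * N ≤ 2 ^ L) {C0 : ℝ}
    (hslow : ∀ k s s', |s.1 - s'.1| ≤ 1 / (N:ℝ) → |s.2 - s'.2| ≤ 1 / (N:ℝ) → μ k s ≤ ENNReal.ofReal C0 * μ k s')
    {t : ℝ} {s : ℝ × ℝ} {τ : ℕ} (hτ : τ < 2 ^ L) (ht : ⌊((2 ^ L : ℕ) : ℝ) * t / 4⌋ = (τ : ℤ)) :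
    Wf N μ t s ≤ ENNReal.ofReal C0 * ∑' m : Z2, Gm L N μ m (fun i => fl2 ((2 ^ L : ℕ) : ℝ) s i - 2 ^ L * m i) τ := by
  have hD : 0 < 2 ^ L := by positivity
  have hN0 : (0:ℝ) < N := by exact_mod_cast hN
  have hc : (12:ℝ) / ((2 ^ L : ℕ) : ℝ) ≤ 1 / N := by
    rw [div_le_div_iff₀ (by positivity) hN0]
    have : ((12 * N : ℕ) : ℝ) ≤ ((2 ^ L : ℕ) : ℝ) := by exact_mod_cast hL
    push_cast at this ⊢; linarith
  calc Wf N μ t s ≤ ∑ k ∈ grd N, ENNReal.ofReal C0 * μ k (pnt L (fun i => fl2 ((2 ^ L : ℕ) : ℝ) s i - (τ : ℤ) * yk L N k i / 2 ^ L)) := by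
        unfold Wf
        refine Finset.sum_le_sum fun k hk => hslow k _ _ ?_ ?_
        · obtain ⟨⟨h1, h2⟩, _, _⟩ := grd_bds hN hk
          refine le_trans ?_ hc
          have := pos_close hD (s := s.1) (Q := fl2 ((2 ^ L : ℕ) : ℝ) s 0) (Int.natCast_nonneg τ)
            (by exact_mod_cast hτ) h1 h2 ht rfl
          rw [pnt_fst]; exact this
        · obtain ⟨_, h1, h2⟩ := grd_bds hN hk
          refine le_trans ?_ hc
          have := pos_close hD (s := s.2) (Q := fl2 ((2 ^ L : ℕ) : ℝ) s 1) (Int.natCast_nonneg τ)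
            (by exact_mod_cast hτ) h1 h2 ht rfl
          rw [pnt_snd]; exact this
    _ = ENNReal.ofReal C0 * ∑ k ∈ grd N, μ k (pnt L (fun i => fl2 ((2 ^ L : ℕ) : ℝ) s i - (τ : ℤ) * yk L N k i / 2 ^ L)) := by
        rw [Finset.mul_sum]
    _ ≤ _ := by gcongr; exact sum_le_blocks hN _

lemma Gm_supp {m P : Z2} {τ : ℕ} (hτ : τ < 2 ^ L) (h : Gm L N μ m P τ ≠ 0) (i : Fin 2) : 0 ≤ P i ∧ P i < 2 * 2 ^ L := by
  classical
  unfold Gm at h
  obtain ⟨l, hl, _⟩ := Finset.exists_ne_zero_of_sum_ne_zero h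
  rw [Finset.mem_filter, mem_Bx] at hl
  obtain ⟨⟨a1, a2⟩, b1, b2⟩ := hl.1 i
  have h1 : P i = l.1 i + (τ : ℤ) * l.2 i / 2 ^ L := by rw [← hl.2]; rfl
  have h2L : (0:ℤ) < 2 ^ L := by positivity
  have h2 : 0 ≤ (τ : ℤ) * l.2 i / 2 ^ L := Int.ediv_nonneg (by positivity) h2L.le
  have h3 : (τ : ℤ) * l.2 i / 2 ^ L < 2 ^ L := by
    apply Int.ediv_lt_of_lt_mul h2L
    have hτ' : (τ : ℤ) < 2 ^ L := by exact_mod_cast hτ
    have : (τ : ℤ) * l.2 i ≤ τ * 2 ^ L := by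
      apply mul_le_mul_of_nonneg_left b2.le (by positivity)
    rcases eq_or_lt_of_le (show (0:ℤ) ≤ l.2 i from b1) with hb | hb
    · rw [← hb]; simp
    · calc (τ : ℤ) * l.2 i < 2 ^ L * l.2 i := by
            apply mul_lt_mul_of_pos_right hτ' hb
        _ ≤ 2 ^ L * 2 ^ L := mul_le_mul_of_nonneg_left b2.le h2L.le
  rw [h1]
  constructor
  · linarith
  · linarith

lemma pow_blocks {r : ℝ} (hr1 : 1 < r) (Q : Z2) {τ : ℕ} (hτ : τ < 2 ^ L) :
    (∑' m : Z2, Gm L N μ m (fun i => Q i - 2 ^ L * m i) τ) ^ r ≤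
      (4 : ℝ≥0∞) ^ (r - 1) * ∑' m : Z2, Gm L N μ m (fun i => Q i - 2 ^ L * m i) τ ^ r := by
  classical
  set S : Finset Z2 := Fintype.piFinset fun i => Finset.Icc (Q i / 2 ^ L - 1) (Q i / 2 ^ L) with hS
  have h0 : ∀ m ∉ S, Gm L N μ m (fun i => Q i - 2 ^ L * m i) τ = 0 := by
    intro m hm
    by_contra hne
    apply hm
    rw [hS, Fintype.mem_piFinset]
    intro i
    obtain ⟨h1, h2⟩ := Gm_supp hτ hne i
    have h2L : (0:ℤ) < 2 ^ L := by positivity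
    have e2 := Int.emod_add_mul_ediv (Q i) (2 ^ L)
    have e3 := Int.emod_nonneg (Q i) h2L.ne'
    have e4 := Int.emod_lt_of_pos (Q i) h2L
    rw [Finset.mem_Icc]
    constructor
    · by_contra hc
      push Not at hc
      have : m i ≤ Q i / 2 ^ L - 2 := by omega
      nlinarith
    · by_contra hc
      push Not at hc
      have : Q i / 2 ^ L + 1 ≤ m i := by omega
      nlinarith
  rw [tsum_eq_sum h0]
  have hc : (S.card : ℝ≥0∞) = 4 := by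
    rw [hS, Fintype.card_piFinset]
    simp only [Fin.prod_univ_two, Int.card_Icc]
    have : ∀ a : ℤ, (a + 1 - (a - 1)).toNat = 2 := fun a => by
      rw [show a + 1 - (a - 1) = 2 by ring]; rfl
    rw [this, this]; norm_num
  have h1 := ENNReal.rpow_sum_le_const_mul_sum_rpow S (fun m => Gm L N μ m (fun i => Q i - 2 ^ L * m i) τ) hr1.le
  rw [hc] at h1
  refine h1.trans ?_
  gcongr
  exact ENNReal.sum_le_tsum S

/-- the integral over the space at a fixed time -/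
lemma slice_le {r C0 : ℝ} (hr1 : 1 < r) (hN : 1 ≤ N) (hL : 12 * N ≤ 2 ^ L)
    (hslow : ∀ k s s', |s.1 - s'.1| ≤ 1 / (N:ℝ) → |s.2 - s'.2| ≤ 1 / (N:ℝ) → μ k s ≤ ENNReal.ofReal C0 * μ k s')
    {t : ℝ} {τ : ℕ} (hτ : τ < 2 ^ L) (ht : ⌊((2 ^ L : ℕ) : ℝ) * t / 4⌋ = (τ : ℤ)) :
    ∫⁻ s, Wf N μ t s ^ r ≤ (ENNReal.ofReal C0 ^ r * (4 : ℝ≥0∞) ^ (r - 1) *
      (ENNReal.ofReal (4 / ((2 ^ L : ℕ) : ℝ)) * ENNReal.ofReal (4 / ((2 ^ L : ℕ) : ℝ)))) *
      ∑' m : Z2, ∑ P ∈ Fintype.piFinset (fun _ : Fin 2 => Finset.Ico (0:ℤ) (2 * 2 ^ L)), Gm L N μ m P τ ^ r := by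
  classical
  have hr0 : 0 < r := by linarith
  have hD : (0:ℝ) < ((2 ^ L : ℕ) : ℝ) := by positivity
  set h : Z2 → ℝ≥0∞ := fun Q => ∑' m : Z2, Gm L N μ m (fun i => Q i - 2 ^ L * m i) τ ^ r with hh
  calc ∫⁻ s, Wf N μ t s ^ r ≤ ∫⁻ s, ENNReal.ofReal C0 ^ r * (4 : ℝ≥0∞) ^ (r - 1) * h (fl2 ((2 ^ L : ℕ) : ℝ) s) := by
        refine lintegral_mono fun s => ?_
        refine (ENNReal.rpow_le_rpow (Wf_le hN hL hslow hτ ht) hr0.le).trans ?_
        rw [ENNReal.mul_rpow_of_nonneg _ _ hr0.le, mul_assoc]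
        gcongr
        exact pow_blocks hr1 _ hτ
    _ = ENNReal.ofReal C0 ^ r * (4 : ℝ≥0∞) ^ (r - 1) * ∫⁻ s, h (fl2 ((2 ^ L : ℕ) : ℝ) s) :=
        lintegral_const_mul _ ((measurable_of_countable h).comp (meas_fl2 _))
    _ = (ENNReal.ofReal C0 ^ r * (4 : ℝ≥0∞) ^ (r - 1) *
      (ENNReal.ofReal (4 / ((2 ^ L : ℕ) : ℝ)) * ENNReal.ofReal (4 / ((2 ^ L : ℕ) : ℝ)))) * ∑' Q, h Q := by
        rw [int2 hD]; ring
    _ = _ := by
        congr 1
        rw [hh, ENNReal.tsum_comm]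
        refine tsum_congr fun m => ?_
        have e1 : ∑' Q : Z2, Gm L N μ m (fun i => Q i - 2 ^ L * m i) τ ^ r = ∑' P : Z2, Gm L N μ m P τ ^ r :=
          (Equiv.subRight (fun i => 2 ^ L * m i : Z2)).tsum_eq (fun P => Gm L N μ m P τ ^ r)
        rw [e1]
        refine tsum_eq_sum fun P hP => ?_
        by_contra hne
        apply hP
        rw [Fintype.mem_piFinset]
        intro i
        rw [Finset.mem_Ico]
        refine Gm_supp (N := N) (μ := μ) (m := m) hτ (fun h0 => hne ?_) i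
        rw [h0, ENNReal.zero_rpow_of_pos hr0]

lemma mass_blocks (hN : 1 ≤ N) :
    ∑' m : Z2, ∑ l ∈ Bx L, Wm L N μ m l ≤ ∑' x : Z2, ∑ k ∈ grd N, μ k (pnt L x) := by
  classical
  set B : Finset Z2 := Fintype.piFinset fun _ => Finset.Ico (0:ℤ) (2 ^ L) with hB
  set F : Z2 → ℝ≥0∞ := fun x => ∑ k ∈ grd N, μ k (pnt L x) with hF
  have h1 : ∀ m : Z2, ∑ l ∈ Bx L, Wm L N μ m l ≤ ∑' x : B, F (fun i => 2 ^ L * m i + (x : Z2) i) := by
    intro m
    rw [Finset.tsum_subtype B (fun x => F (fun i => 2 ^ L * m i + x i))]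
    rw [← Finset.sum_fiberwise_of_maps_to (g := Prod.fst) (t := B) (fun l hl => ?_)]
    · exact Finset.sum_le_sum fun x _ => Wm_base' m x
    · rw [Bx, Finset.mem_product] at hl
      exact hl.1
  refine (ENNReal.tsum_le_tsum h1).trans ?_
  rw [← ENNReal.tsum_prod (f := fun (m : Z2) (x : B) => F (fun i => 2 ^ L * m i + (x : Z2) i))]
  refine ENNReal.tsum_comp_le_tsum_of_injective (f := fun p : Z2 × B => (fun i => 2 ^ L * p.1 i + (p.2 : Z2) i : Z2)) ?_ F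
  rintro ⟨m, x, hx⟩ ⟨m', x', hx'⟩ e
  rw [hB, Fintype.mem_piFinset] at hx hx'
  have key : ∀ i, m i = m' i ∧ x i = x' i := by
    intro i
    have e1 := congrFun e i
    dsimp only at e1
    have a := Finset.mem_Ico.1 (hx i); have b := Finset.mem_Ico.1 (hx' i)
    have h2L : (0:ℤ) < 2 ^ L := by positivity
    have e2 : m i = m' i := by
      rcases lt_trichotomy (m i) (m' i) with h | h | h
      · have : m i + 1 ≤ m' i := h
        nlinarith [a.1, a.2, b.1, b.2]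
      · exact h
      · have : m' i + 1 ≤ m i := h
        nlinarith [a.1, a.2, b.1, b.2]
    refine ⟨e2, ?_⟩
    rw [e2] at e1
    linarith
  have hm : m = m' := funext fun i => (key i).1
  have hx2 : x = x' := funext fun i => (key i).2
  subst hm; subst hx2; rfl

lemma mass_le {C0 : ℝ} (hN : 1 ≤ N) (hL : 12 * N ≤ 2 ^ L) (hm : ∀ k, Measurable (μ k))
    (hslow : ∀ k s s', |s.1 - s'.1| ≤ 1 / (N:ℝ) → |s.2 - s'.2| ≤ 1 / (N:ℝ) → μ k s ≤ ENNReal.ofReal C0 * μ k s') :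
    ENNReal.ofReal (4 / ((2 ^ L : ℕ) : ℝ)) * ENNReal.ofReal (4 / ((2 ^ L : ℕ) : ℝ)) *
      ∑' x : Z2, ∑ k ∈ grd N, μ k (pnt L x) ≤ ENNReal.ofReal C0 * ∑ k ∈ grd N, ∫⁻ s, μ k s := by
  have hD : (0:ℝ) < ((2 ^ L : ℕ) : ℝ) := by positivity
  have hN0 : (0:ℝ) < N := by exact_mod_cast hN
  have hc : (4:ℝ) / ((2 ^ L : ℕ) : ℝ) ≤ 1 / N := by
    rw [div_le_div_iff₀ hD hN0]
    have : ((12 * N : ℕ) : ℝ) ≤ ((2 ^ L : ℕ) : ℝ) := by exact_mod_cast hL
    push_cast at this ⊢; linarith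
  rw [← int2 hD (fun x => ∑ k ∈ grd N, μ k (pnt L x))]
  calc ∫⁻ s, ∑ k ∈ grd N, μ k (pnt L (fl2 ((2 ^ L : ℕ) : ℝ) s)) ≤ ∫⁻ s, ∑ k ∈ grd N, ENNReal.ofReal C0 * μ k s := by
        refine lintegral_mono fun s => Finset.sum_le_sum fun k _ => hslow k _ _ ?_ ?_
        · refine le_trans ?_ hc
          simp only [pnt, fl2, Matrix.cons_val_zero]
          have h1 := Int.floor_le (((2 ^ L : ℕ) : ℝ) * s.1 / 4)
          have h2 := Int.lt_floor_add_one (((2 ^ L : ℕ) : ℝ) * s.1 / 4)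
          set q : ℤ := ⌊((2 ^ L : ℕ) : ℝ) * s.1 / 4⌋
          have e : (4:ℝ) / 2 ^ L * q - s.1 = 4 / ((2 ^ L : ℕ) : ℝ) * (q - ((2 ^ L : ℕ) : ℝ) * s.1 / 4) := by
            push_cast; field_simp
          rw [e, abs_mul, abs_of_pos (by positivity)]
          have : |(q:ℝ) - ((2 ^ L : ℕ) : ℝ) * s.1 / 4| ≤ 1 := by rw [abs_le]; constructor <;> linarith
          calc _ ≤ 4 / ((2 ^ L : ℕ) : ℝ) * 1 := by gcongr
            _ = _ := mul_one _
        · refine le_trans ?_ hc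
          simp only [pnt, fl2, Matrix.cons_val_one, Matrix.cons_val_zero]
          have h1 := Int.floor_le (((2 ^ L : ℕ) : ℝ) * s.2 / 4)
          have h2 := Int.lt_floor_add_one (((2 ^ L : ℕ) : ℝ) * s.2 / 4)
          set q : ℤ := ⌊((2 ^ L : ℕ) : ℝ) * s.2 / 4⌋
          have e : (4:ℝ) / 2 ^ L * q - s.2 = 4 / ((2 ^ L : ℕ) : ℝ) * (q - ((2 ^ L : ℕ) : ℝ) * s.2 / 4) := by
            push_cast; field_simp
          rw [e, abs_mul, abs_of_pos (by positivity)]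
          have : |(q:ℝ) - ((2 ^ L : ℕ) : ℝ) * s.2 / 4| ≤ 1 := by rw [abs_le]; constructor <;> linarith
          calc _ ≤ 4 / ((2 ^ L : ℕ) : ℝ) * 1 := by gcongr
            _ = _ := mul_one _
    _ = ∑ k ∈ grd N, ∫⁻ s, ENNReal.ofReal C0 * μ k s :=
        lintegral_finset_sum _ fun k _ => (hm k).const_mul _
    _ = _ := by
        rw [Finset.mul_sum]
        exact Finset.sum_congr rfl fun k _ => lintegral_const_mul _ (hm k)

end Vale.Agent.P106.Q.NKC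

namespace Vale.Agent.P106.Q

open Vale.Agent.P106.G NKC

/-- **NK3C** -/
theorem nk3_of_KTc {κ Np r : ℝ} (hκ : 0 ≤ κ) (hNp : 0 ≤ Np) (h : Vale.Agent.P117.K.StKTc κ Np) (hr1 : 1 < r)
    (hr : Np * (r - 1) ≤ 1) : StNK3 (2 * κ) r := by
  classical
  intro ε C0 hε hC0
  have hr0 : 0 < r := by linarith
  obtain ⟨C, hC, hd⟩ := discE hκ hNp h hr1 hr hε
  obtain ⟨e, he⟩ : ∃ e : ℝ, e = 2 * κ * (r - 1) + ε := ⟨_, rfl⟩
  have he0 : 0 ≤ e := by
    rw [he]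
    have : 0 ≤ 2 * κ * (r - 1) := by
      have : 0 ≤ r - 1 := by linarith
      positivity
    linarith
  rw [← he] at hd
  refine ⟨C0 ^ r * 4 ^ (r - 1) * (4 * (C * 24 ^ e) * C0), by positivity, ?_⟩
  intro N μ hN hm hslow hsum hfin
  rw [← he]
  set L := Nat.clog 2 (12 * N) with hLdef
  have hL : 12 * N ≤ 2 ^ L := Nat.le_pow_clog (by norm_num) _
  have hL2 : 2 ^ L ≤ 24 * N := by
    have h1 : 2 ^ (L - 1) < 12 * N := Nat.pow_pred_clog_lt_self (by norm_num) (by omega)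
    have h2 : 1 ≤ L := by
      by_contra hc
      have : L = 0 := by omega
      rw [this] at hL; omega
    have h3 : 2 ^ L = 2 * 2 ^ (L - 1) := by
      rw [← pow_succ']; congr 1; omega
    omega
  have hN0 : (0:ℝ) < N := by exact_mod_cast hN
  set D : ℝ := ((2 ^ L : ℕ) : ℝ) with hD
  have hD0 : 0 < D := by rw [hD]; positivity
  set A : ℝ≥0∞ := ENNReal.ofReal C0 ^ r * (4 : ℝ≥0∞) ^ (r - 1) with hA
  set q : ℝ≥0∞ := ENNReal.ofReal (4 / D) with hq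
  set ZL : Finset Z2 := Fintype.piFinset (fun _ : Fin 2 => Finset.Ico (0:ℤ) (2 * 2 ^ L)) with hZL
  set V : ℕ → ℝ≥0∞ := fun τ => (A * (q * q)) * ∑' m : Z2, ∑ P ∈ ZL, Gm L N μ m P τ ^ r with hV
  set V' : ℤ → ℝ≥0∞ := fun j => if 0 ≤ j ∧ j < 2 ^ L then V j.toNat else 0 with hV'
  -- time integral
  have h1 : ∫⁻ t in Icc (1/2 : ℝ) 4, ∫⁻ s, Wf N μ t s ^ r ≤ ∫⁻ t : ℝ, V' ⌊D * t / 4⌋ := by
    have e1 : ∫⁻ t in Icc (1/2 : ℝ) 4, ∫⁻ s, Wf N μ t s ^ r = ∫⁻ t in Ico (1/2 : ℝ) 4, ∫⁻ s, Wf N μ t s ^ r := by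
      rw [Measure.restrict_congr_set Ico_ae_eq_Icc]
    rw [e1, ← lintegral_indicator measurableSet_Ico]
    refine lintegral_mono fun t => ?_
    by_cases ht : t ∈ Ico (1/2 : ℝ) 4
    · rw [indicator_of_mem ht]
      have h0 : 0 ≤ ⌊D * t / 4⌋ := by
        refine Int.floor_nonneg.2 ?_
        have : 0 ≤ t := by linarith [ht.1]
        positivity
      have h2 : ⌊D * t / 4⌋ < 2 ^ L := by
        refine Int.floor_lt.2 ?_
        have : t < 4 := ht.2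
        have h3 : D * t / 4 < D := by nlinarith
        rw [hD] at h3; exact_mod_cast h3
      have e2 : V' ⌊D * t / 4⌋ = V (⌊D * t / 4⌋).toNat := by
        simp only [hV']; rw [if_pos ⟨h0, h2⟩]
      rw [e2]
      have e3 : (((⌊D * t / 4⌋).toNat : ℕ) : ℤ) = ⌊D * t / 4⌋ := Int.toNat_of_nonneg h0
      refine slice_le hr1 hN hL hslow ?_ e3.symm
      zify; rw [e3]; exact h2
    · rw [indicator_of_notMem ht]; exact bot_le
  have h2 : ∫⁻ t : ℝ, V' ⌊D * t / 4⌋ = q * ∑ τ ∈ Finset.range (2 ^ L), V τ := by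
    rw [int1 hD0]
    congr 1
    rw [tsum_eq_sum (s := (Finset.range (2 ^ L)).image (fun τ : ℕ => (τ : ℤ)))]
    · rw [Finset.sum_image fun a _ b _ hab => by exact_mod_cast hab]
      refine Finset.sum_congr rfl fun τ hτ => ?_
      simp only [hV']
      rw [if_pos ⟨Int.natCast_nonneg τ, by exact_mod_cast Finset.mem_range.1 hτ⟩, Int.toNat_natCast]
    · intro j hj
      simp only [hV']
      rw [if_neg]
      rintro ⟨a, b⟩
      apply hj
      rw [Finset.mem_image]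
      refine ⟨j.toNat, Finset.mem_range.2 ?_, Int.toNat_of_nonneg a⟩
      zify; rw [Int.toNat_of_nonneg a]; exact b
  -- sum over the blocks
  have h3 : ∑ τ ∈ Finset.range (2 ^ L), V τ = (A * (q * q)) * ∑' m : Z2, ∑ z ∈ ZL ×ˢ Finset.range (2 ^ L), Gm L N μ m z.1 z.2 ^ r := by
    simp only [hV]
    rw [← Finset.mul_sum]
    congr 1
    rw [← Summable.tsum_finsetSum fun _ _ => ENNReal.summable]
    refine tsum_congr fun m => ?_
    rw [Finset.sum_product, Finset.sum_comm]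
  have h4 : ∀ m : Z2, ∑ z ∈ ZL ×ˢ Finset.range (2 ^ L), Gm L N μ m z.1 z.2 ^ r ≤
      ENNReal.ofReal (C * (2:ℝ) ^ (e * L) * 2 ^ L) * ∑ l ∈ Bx L, Wm L N μ m l := by
    intro m
    have := hd L (Wm L N μ m) (fun x => Wm_base hsum m x) (ZL ×ˢ Finset.range (2 ^ L))
      (fun z hz => Finset.mem_range.1 (Finset.mem_product.1 hz).2)
    convert this using 2
    unfold Gm
    congr!
  have h5 : ∑' m : Z2, ∑ z ∈ ZL ×ˢ Finset.range (2 ^ L), Gm L N μ m z.1 z.2 ^ r ≤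
      ENNReal.ofReal (C * (2:ℝ) ^ (e * L) * 2 ^ L) * ∑' x : Z2, ∑ k ∈ grd N, μ k (pnt L x) := by
    refine (ENNReal.tsum_le_tsum h4).trans ?_
    rw [ENNReal.tsum_mul_left]
    exact mul_le_mul_right (mass_blocks hN) _
  have h6 := mass_le hN hL hm hslow
  rw [← hD, ← hq] at h6
  have h7 : q * ENNReal.ofReal (C * (2:ℝ) ^ (e * L) * 2 ^ L) ≤ ENNReal.ofReal (4 * (C * 24 ^ e) * (N:ℝ) ^ e) := by
    rw [hq, ← ENNReal.ofReal_mul (by positivity)]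
    refine ENNReal.ofReal_le_ofReal ?_
    have e1 : (2:ℝ) ^ (e * L) ≤ 24 ^ e * (N:ℝ) ^ e := by
      rw [← Real.mul_rpow (by norm_num) hN0.le, mul_comm e, Real.rpow_mul (by norm_num), Real.rpow_natCast]
      refine Real.rpow_le_rpow (by positivity) ?_ he0
      exact_mod_cast hL2
    have e2 : 4 / D * (C * (2:ℝ) ^ (e * L) * 2 ^ L) = 4 * (C * (2:ℝ) ^ (e * L)) := by
      rw [hD]; push_cast; field_simp
    rw [e2]
    calc 4 * (C * (2:ℝ) ^ (e * L)) ≤ 4 * (C * (24 ^ e * (N:ℝ) ^ e)) := by gcongr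
      _ = _ := by ring
  have hA' : A = ENNReal.ofReal (C0 ^ r * 4 ^ (r - 1)) := by
    rw [hA, ENNReal.ofReal_mul (by positivity), ENNReal.ofReal_rpow_of_nonneg (by linarith) hr0.le,
      ← ENNReal.ofReal_rpow_of_nonneg (by norm_num : (0:ℝ) ≤ 4) (by linarith)]
    congr 2
    norm_num
  calc ∫⁻ t in Icc (1/2 : ℝ) 4, ∫⁻ s, Wf N μ t s ^ r ≤ q * ((A * (q * q)) *
        ∑' m : Z2, ∑ z ∈ ZL ×ˢ Finset.range (2 ^ L), Gm L N μ m z.1 z.2 ^ r) := by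
        rw [← h3, ← h2]; exact h1
    _ ≤ q * ((A * (q * q)) * (ENNReal.ofReal (C * (2:ℝ) ^ (e * L) * 2 ^ L) * ∑' x : Z2, ∑ k ∈ grd N, μ k (pnt L x))) := by
        gcongr
    _ = A * (q * ENNReal.ofReal (C * (2:ℝ) ^ (e * L) * 2 ^ L)) * (q * q * ∑' x : Z2, ∑ k ∈ grd N, μ k (pnt L x)) := by
        ring
    _ ≤ A * ENNReal.ofReal (4 * (C * 24 ^ e) * (N:ℝ) ^ e) * (ENNReal.ofReal C0 * ∑ k ∈ grd N, ∫⁻ s, μ k s) := by
        gcongr
    _ = _ := by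
        rw [hA', ← mul_assoc, ← ENNReal.ofReal_mul (by positivity), ← ENNReal.ofReal_mul (by positivity)]
        congr 2
        ring

end Vale.Agent.P106.Q
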