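import Vale.Agent.P106.Q.Defs
import Vale.Agent.P117.K.Defs

/-! # P106 / Q : block NK3C, discrete part (helper377) -/

open MeasureTheory Complex Set
open scoped ENNReal NNReal

set_option linter.all false

namespace Vale.Agent.P106.Q.NKC

open Vale.Agent.P117.K (pos hits inP KTf StKTc)

/-- discrete lines -/
abbrev LI := (Fin 2 → ℤ) × (Fin 2 → ℤ)

lemma card_int (S : Finset ℤ) (D : ℝ) (hD : 0 ≤ D) (h : ∀ x ∈ S, ∀ y ∈ S, (x:ℝ) - y ≤ D) :
    (S.card : ℝ) ≤ D + 1 := by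
  rcases S.eq_empty_or_nonempty with rfl | hne
  · simp; linarith
  · have hsub : S ⊆ Finset.Icc (S.min' hne) (S.max' hne) := fun x hx =>
      Finset.mem_Icc.2 ⟨S.min'_le x hx, S.le_max' x hx⟩
    have h1 := Finset.card_le_card hsub
    rw [Int.card_Icc] at h1
    have h2 : S.min' hne ≤ S.max' hne := S.min'_le _ (S.max'_mem hne)
    have h3 := h _ (S.max'_mem hne) _ (S.min'_mem hne)
    have h4 : ((S.card : ℤ)) ≤ S.max' hne + 1 - S.min' hne := by
      have : (((S.max' hne + 1 - S.min' hne).toNat : ℕ) : ℤ) = S.max' hne + 1 - S.min' hne :=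
        Int.toNat_of_nonneg (by omega)
      rw [← this]; exact_mod_cast h1
    have h5 : (S.card : ℝ) ≤ (S.max' hne : ℝ) + 1 - S.min' hne := by exact_mod_cast h4
    linarith

lemma card_two {α : Type*} [DecidableEq α] (S : Finset α) (f g : α → ℤ) (A B : ℝ) (hA : 0 ≤ A) (hB : 0 ≤ B)
    (hinj : ∀ x ∈ S, ∀ y ∈ S, f x = f y → g x = g y → x = y)
    (hf : ∀ x ∈ S, ∀ y ∈ S, (f x:ℝ) - f y ≤ A)
    (hg : ∀ x ∈ S, ∀ y ∈ S, f x = f y → (g x:ℝ) - g y ≤ B) :
    (S.card : ℝ) ≤ (A + 1) * (B + 1) := by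
  classical
  rw [Finset.card_eq_sum_card_image f S]
  push_cast
  have h1 : ∀ b ∈ S.image f, ((S.filter (fun x => f x = b)).card : ℝ) ≤ B + 1 := by
    intro b _
    have : (S.filter (fun x => f x = b)).card = ((S.filter (fun x => f x = b)).image g).card := by
      rw [Finset.card_image_of_injOn]
      intro x hx y hy hxy
      rw [Finset.mem_coe, Finset.mem_filter] at hx hy
      exact hinj x hx.1 y hy.1 (hx.2.trans hy.2.symm) hxy
    rw [this]
    refine card_int _ B hB ?_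
    intro x hx y hy
    obtain ⟨x', hx', rfl⟩ := Finset.mem_image.1 hx
    obtain ⟨y', hy', rfl⟩ := Finset.mem_image.1 hy
    rw [Finset.mem_filter] at hx' hy'
    exact hg _ hx'.1 _ hy'.1 (hx'.2.trans hy'.2.symm)
  have h2 : ((S.image f).card : ℝ) ≤ A + 1 := by
    refine card_int _ A hA ?_
    intro x hx y hy
    obtain ⟨x', hx', rfl⟩ := Finset.mem_image.1 hx
    obtain ⟨y', hy', rfl⟩ := Finset.mem_image.1 hy
    exact hf _ hx' _ hy'
  calc ∑ b ∈ S.image f, ((S.filter (fun x => f x = b)).card : ℝ) ≤ ∑ b ∈ S.image f, (B + 1) := Finset.sum_le_sum h1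
    _ = (S.image f).card * (B + 1) := by rw [Finset.sum_const, nsmul_eq_mul]
    _ ≤ (A + 1) * (B + 1) := by gcongr

/-- lattice points in a rotated rectangle -/
lemma card_rect (S : Finset (Fin 2 → ℤ)) (a b w1 w2 : ℝ) (x0 : Fin 2 → ℝ) (hab : a ^ 2 + b ^ 2 = 1)
    (h1 : 1 ≤ w1) (h2 : w1 ≤ w2)
    (h : ∀ x ∈ S, |a * (x 0 - x0 0) + b * (x 1 - x0 1)| ≤ w1 ∧ |-b * (x 0 - x0 0) + a * (x 1 - x0 1)| ≤ w2) :
    (S.card:ℝ) ≤ 20 * (w1 * w2) := by
  classical
  have ha1 : |a| ≤ 1 := abs_le_one_iff_mul_self_le_one.2 (by nlinarith)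
  have hb1 : |b| ≤ 1 := abs_le_one_iff_mul_self_le_one.2 (by nlinarith)
  have key : ∀ x ∈ S, |(x 1:ℝ) - x0 1| ≤ 2 * w2 ∧ |(x 0:ℝ) - x0 0| ≤ 2 * w2 := by
    intro x hx
    obtain ⟨e1, e2⟩ := h x hx
    set u := a * ((x 0:ℝ) - x0 0) + b * (x 1 - x0 1) with hu
    set v := -b * ((x 0:ℝ) - x0 0) + a * (x 1 - x0 1) with hv
    have e3 : (x 1:ℝ) - x0 1 = b * u + a * v := by
      rw [hu, hv]; linear_combination (-(((x 1:ℝ) - x0 1))) * hab
    have e4 : (x 0:ℝ) - x0 0 = a * u - b * v := by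
      rw [hu, hv]; linear_combination (-(((x 0:ℝ) - x0 0))) * hab
    have m1 : |b * u| ≤ w2 := by
      rw [abs_mul]; calc |b| * |u| ≤ 1 * w1 := by gcongr
        _ ≤ w2 := by linarith
    have m2 : |a * v| ≤ w2 := by
      rw [abs_mul]; calc |a| * |v| ≤ 1 * w2 := by gcongr
        _ = w2 := by ring
    have m3 : |a * u| ≤ w2 := by
      rw [abs_mul]; calc |a| * |u| ≤ 1 * w1 := by gcongr
        _ ≤ w2 := by linarith
    have m4 : |b * v| ≤ w2 := by
      rw [abs_mul]; calc |b| * |v| ≤ 1 * w2 := by gcongr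
        _ = w2 := by ring
    rw [abs_le] at m1 m2 m3 m4
    constructor
    · rw [e3, abs_le]; constructor <;> linarith [m1.1, m1.2, m2.1, m2.2]
    · rw [e4, abs_le]; constructor <;> linarith [m3.1, m3.2, m4.1, m4.2]
  have fin : (S.card:ℝ) ≤ (4 * w2 + 1) * (3 * w1 + 1) → (S.card:ℝ) ≤ 20 * (w1 * w2) := by
    intro hh
    have : (4 * w2 + 1) * (3 * w1 + 1) ≤ (5 * w2) * (4 * w1) := by
      apply mul_le_mul <;> linarith
    linarith
  apply fin
  have div : ∀ c z : ℝ, 1 / 2 ≤ c ^ 2 → |c * z| ≤ 2 * w1 → z ≤ 3 * w1 := by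
    intro c z hc hz
    by_contra hn
    push Not at hn
    have h3 : (c * z) ^ 2 ≤ (2 * w1) ^ 2 := by
      rw [← sq_abs (c * z)]; gcongr
    have h5 : (3 * w1) ^ 2 < z ^ 2 := pow_lt_pow_left₀ hn (by linarith) two_ne_zero
    have h6 : 1 / 2 * z ^ 2 ≤ c ^ 2 * z ^ 2 := mul_le_mul_of_nonneg_right hc (sq_nonneg z)
    have h7 : (c * z) ^ 2 = c ^ 2 * z ^ 2 := by ring
    have h8 : 0 ≤ w1 ^ 2 := sq_nonneg w1
    nlinarith
  rcases le_total (1/2) (a ^ 2) with hc | hc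
  · refine card_two S (fun x => x 1) (fun x => x 0) (4 * w2) (3 * w1) (by linarith) (by linarith) ?_ ?_ ?_
    · intro x _ y _ e1 e2; funext i; fin_cases i
      · exact e2
      · exact e1
    · intro x hx y hy
      have := (key x hx).1; have h' := (key y hy).1
      rw [abs_le] at this h'
      linarith [this.2, h'.1]
    · intro x hx y hy e
      refine div a _ hc ?_
      have k1 := (h x hx).1; have k2 := (h y hy).1
      have e' : (x 1:ℝ) = y 1 := by exact_mod_cast e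
      have : a * ((x 0:ℝ) - y 0) = (a * (x 0 - x0 0) + b * (x 1 - x0 1)) - (a * (y 0 - x0 0) + b * (y 1 - x0 1)) := by
        rw [e']; ring
      rw [this]
      rw [abs_le] at k1 k2 ⊢
      constructor <;> linarith [k1.1, k1.2, k2.1, k2.2]
  · have hc' : 1/2 ≤ b ^ 2 := by linarith
    refine card_two S (fun x => x 0) (fun x => x 1) (4 * w2) (3 * w1) (by linarith) (by linarith) ?_ ?_ ?_
    · intro x _ y _ e1 e2; funext i; fin_cases i
      · exact e1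
      · exact e2
    · intro x hx y hy
      have := (key x hx).2; have h' := (key y hy).2
      rw [abs_le] at this h'
      linarith [this.2, h'.1]
    · intro x hx y hy e
      refine div b _ hc' ?_
      have k1 := (h x hx).1; have k2 := (h y hy).1
      have e' : (x 0:ℝ) = y 0 := by exact_mod_cast e
      have : b * ((x 1:ℝ) - y 1) = (a * (x 0 - x0 0) + b * (x 1 - x0 1)) - (a * (y 0 - x0 0) + b * (y 1 - x0 1)) := by
        rw [e']; ring
      rw [this]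
      rw [abs_le] at k1 k2 ⊢
      constructor <;> linarith [k1.1, k1.2, k2.1, k2.2]

/-- the Katz-Tao condition is trivial for bounded multiplicity over the base -/
lemma ktf_of_base {m : ℝ} (hm : 0 ≤ m) (T : Finset LI)
    (hT : ∀ x, ((T.filter (fun l => l.1 = x)).card : ℝ) ≤ m) : KTf (20 * m) T := by
  classical
  intro a b w1 w2 x0 y0 hab h1 h2
  set F := T.filter (fun l => inP a b w1 w2 x0 y0 l) with hF
  have h3 : ((F.image Prod.fst).card : ℝ) ≤ 20 * (w1 * w2) := by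
    refine card_rect _ a b w1 w2 x0 hab h1 h2 ?_
    intro x hx
    obtain ⟨l, hl, rfl⟩ := Finset.mem_image.1 hx
    rw [hF, Finset.mem_filter] at hl
    exact ⟨hl.2.1, hl.2.2.1⟩
  have h4 : (F.card : ℝ) ≤ (F.image Prod.fst).card * m := by
    rw [Finset.card_eq_sum_card_image Prod.fst F]
    push_cast
    calc ∑ b ∈ F.image Prod.fst, ((F.filter (fun x => x.1 = b)).card : ℝ) ≤ ∑ b ∈ F.image Prod.fst, m := by
          refine Finset.sum_le_sum fun x _ => ?_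
          refine le_trans ?_ (hT x)
          have : F.filter (fun l => l.1 = x) ⊆ T.filter (fun l => l.1 = x) := by
            rw [hF]
            intro l hl
            rw [Finset.mem_filter, Finset.mem_filter] at hl
            exact Finset.mem_filter.2 ⟨hl.1.1, hl.2⟩
          exact_mod_cast Finset.card_le_card this
      _ = _ := by rw [Finset.sum_const, nsmul_eq_mul]
  have h5 : (F.card : ℝ) ≤ 20 * m * (w1 * w2) := by
    calc (F.card : ℝ) ≤ (F.image Prod.fst).card * m := h4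
      _ ≤ 20 * (w1 * w2) * m := by gcongr
      _ = _ := by ring
  convert h5 using 3

/-- number of lines of `T` through the cell `z` -/
noncomputable def Nz (L : ℕ) (T : Finset LI) (z : (Fin 2 → ℤ) × ℕ) : ℕ := by
  classical exact (T.filter (fun l => pos L l z.2 = z.1)).card

lemma hits_eq (L : ℕ) (l : LI) (E : Finset ((Fin 2 → ℤ) × ℕ)) (hE : ∀ z ∈ E, z.2 < 2 ^ L) :
    hits L l E = (E.filter (fun z => pos L l z.2 = z.1)).card := by
  classical
  unfold hits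
  refine Finset.card_bij (fun t _ => (pos L l t, t)) ?_ ?_ ?_
  · intro t ht
    rw [Finset.mem_filter] at ht
    exact Finset.mem_filter.2 ⟨ht.2, rfl⟩
  · intro t _ t' _ h
    exact congrArg Prod.snd h
  · intro z hz
    rw [Finset.mem_filter] at hz
    refine ⟨z.2, Finset.mem_filter.2 ⟨Finset.mem_range.2 (hE z hz.1), ?_⟩, ?_⟩
    · rw [hz.2]; exact hz.1
    · rw [hz.2]

lemma hits_le (L : ℕ) (l : LI) (E : Finset ((Fin 2 → ℤ) × ℕ)) : hits L l E ≤ 2 ^ L := by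
  unfold hits
  refine (Finset.card_filter_le _ _).trans ?_
  simp

lemma sum_hits (L : ℕ) (T : Finset LI) (E : Finset ((Fin 2 → ℤ) × ℕ)) (hE : ∀ z ∈ E, z.2 < 2 ^ L) :
    ∑ l ∈ T, hits L l E = ∑ z ∈ E, Nz L T z := by
  classical
  simp only [hits_eq L _ E hE, Nz, Finset.card_filter]
  exact Finset.sum_comm

/-- the level estimate -/
lemma level {κ Np ε C : ℝ} (hNp : 0 ≤ Np) (hC : 0 ≤ C)
    (h : ∀ (L : ℕ) (T : Finset LI) (K : ℝ) (E : Finset ((Fin 2 → ℤ) × ℕ)) (k : ℕ), 1 ≤ K →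
      (∀ l ∈ T, ∀ i, (0 ≤ l.1 i ∧ l.1 i < 2 ^ L) ∧ (0 ≤ l.2 i ∧ l.2 i < 2 ^ L)) → KTf K T → 1 ≤ k →
      (∀ l ∈ T, k ≤ hits L l E) →
      (k:ℝ) * T.card ≤ C * K * (2:ℝ) ^ ((2 * κ + ε) * L) * ((2:ℝ) ^ L / k) ^ Np * E.card)
    (L : ℕ) (T : Finset LI) (K : ℝ) (E : Finset ((Fin 2 → ℤ) × ℕ)) (hK : 1 ≤ K)
    (hT : ∀ l ∈ T, ∀ i, (0 ≤ l.1 i ∧ l.1 i < 2 ^ L) ∧ (0 ≤ l.2 i ∧ l.2 i < 2 ^ L)) (hKT : KTf K T)
    (n : ℕ) (hn : ∀ z ∈ E, 2 ^ n ≤ Nz L T z) (hE : ∀ z ∈ E, z.2 < 2 ^ L) (hne : 0 < ∑ z ∈ E, Nz L T z) :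
    (2:ℝ) ^ n * (((∑ z ∈ E, Nz L T z : ℕ) : ℝ) / (2 ^ L * T.card)) ^ Np ≤
      4 * (L + 1) * (C * K * (2:ℝ) ^ ((2 * κ + ε) * L)) * 2 ^ Np := by
  classical
  obtain ⟨I, hI⟩ : ∃ I : ℕ, I = ∑ z ∈ E, Nz L T z := ⟨_, rfl⟩
  rw [← hI] at hne ⊢
  have hTne : 0 < T.card := by
    by_contra h0
    have h0' : T = ∅ := Finset.card_eq_zero.1 (by omega)
    have : I = 0 := by
      rw [hI]; refine Finset.sum_eq_zero fun z _ => ?_
      simp [Nz, h0']
    omega
  have hIr : (0:ℝ) < I := by exact_mod_cast hne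
  have hTr : (0:ℝ) < T.card := by exact_mod_cast hTne
  have h2L : (0:ℝ) < 2 ^ L := by positivity
  obtain ⟨lam, hlam⟩ : ∃ x : ℝ, x = (I:ℝ) / (2 ^ L * T.card) := ⟨_, rfl⟩
  rw [← hlam]
  have hlam0 : 0 < lam := by rw [hlam]; positivity
  have hIlam : (I:ℝ) = lam * (2 ^ L * T.card) := by
    rw [hlam]; field_simp
  have hsum : ∑ l ∈ T, hits L l E = I := (sum_hits L T E hE).trans hI.symm
  have hsumr : ∑ l ∈ T, (hits L l E : ℝ) = I := by
    rw [← hsum]; push_cast; rfl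
  -- lines with many hits
  obtain ⟨k0, hk0⟩ : ∃ k0 : ℕ, k0 = ⌈lam * 2 ^ L / 2⌉₊ := ⟨_, rfl⟩
  have hlL : 0 < lam * 2 ^ L / 2 := by positivity
  have hk0pos : 1 ≤ k0 := by rw [hk0]; exact Nat.one_le_iff_ne_zero.2 (Nat.ceil_pos.2 hlL).ne'
  have hk0le : lam * 2 ^ L / 2 ≤ k0 := by rw [hk0]; exact Nat.le_ceil _
  set T1 := T.filter (fun l => k0 ≤ hits L l E) with hT1
  have hsm : ∑ l ∈ T.filter (fun l => ¬ k0 ≤ hits L l E), (hits L l E : ℝ) ≤ I / 2 := by
    calc ∑ l ∈ T.filter (fun l => ¬ k0 ≤ hits L l E), (hits L l E : ℝ)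
        ≤ ∑ l ∈ T.filter (fun l => ¬ k0 ≤ hits L l E), lam * 2 ^ L / 2 := by
          refine Finset.sum_le_sum fun l hl => ?_
          rw [Finset.mem_filter, hk0] at hl
          exact (Nat.lt_ceil.1 (not_le.1 hl.2)).le
      _ ≤ ∑ l ∈ T, lam * 2 ^ L / 2 := by
          refine Finset.sum_le_sum_of_subset_of_nonneg (Finset.filter_subset _ _) fun _ _ _ => hlL.le
      _ = I / 2 := by rw [Finset.sum_const, nsmul_eq_mul, hIlam]; ring
  have hbig : (I:ℝ) / 2 ≤ ∑ l ∈ T1, (hits L l E : ℝ) := by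
    have := Finset.sum_filter_add_sum_filter_not T (fun l => k0 ≤ hits L l E) (fun l => (hits L l E : ℝ))
    rw [hsumr] at this
    rw [hT1]; linarith
  -- dyadic pigeonhole
  set Tj : ℕ → Finset LI := fun j => T1.filter (fun l => Nat.log 2 (hits L l E) = j) with hTj
  have hpart : ∑ l ∈ T1, (hits L l E : ℝ) = ∑ j ∈ Finset.range (L + 1), ∑ l ∈ Tj j, (hits L l E : ℝ) := by
    rw [hTj]
    refine (Finset.sum_fiberwise_of_maps_to (fun l _ => ?_) _).symm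
    rw [Finset.mem_range]
    have h1 := Nat.log_mono_right (b := 2) (hits_le L l E)
    rw [Nat.log_pow (by norm_num)] at h1
    omega
  obtain ⟨j, hj, hj2⟩ : ∃ j ∈ Finset.range (L + 1), (I:ℝ) / 2 / (L + 1) ≤ ∑ l ∈ Tj j, (hits L l E : ℝ) := by
    by_contra hcon
    push Not at hcon
    have : ∑ j ∈ Finset.range (L + 1), ∑ l ∈ Tj j, (hits L l E : ℝ) <
        ∑ j ∈ Finset.range (L + 1), (I:ℝ) / 2 / (L + 1) :=
      Finset.sum_lt_sum_of_nonempty ⟨0, by simp⟩ hcon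
    rw [Finset.sum_const, Finset.card_range, nsmul_eq_mul] at this
    push_cast at this
    have h3 : ((L:ℝ) + 1) * ((I:ℝ) / 2 / (L + 1)) = I / 2 := by field_simp
    rw [h3, ← hpart] at this
    linarith
  set k : ℕ := max (2 ^ j) k0 with hk
  have hk1 : 1 ≤ k := le_trans hk0pos (le_max_right _ _)
  have hkh : ∀ l ∈ Tj j, k ≤ hits L l E := by
    intro l hl
    rw [hTj, Finset.mem_filter, hT1, Finset.mem_filter] at hl
    obtain ⟨⟨_, h1⟩, h2⟩ := hl
    have h3 : 2 ^ j ≤ hits L l E := by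
      rw [← h2]; exact Nat.pow_log_le_self 2 (by omega)
    exact max_le h3 h1
  have hhk : ∀ l ∈ Tj j, (hits L l E : ℝ) ≤ 2 * k := by
    intro l hl
    rw [hTj, Finset.mem_filter] at hl
    have h3 : hits L l E < 2 ^ (j + 1) := by
      rw [← hl.2]; exact Nat.lt_pow_succ_log_self (by norm_num) _
    have h4 : 2 ^ j ≤ k := le_max_left _ _
    have h5 : hits L l E ≤ 2 * k := by rw [pow_succ] at h3; omega
    exact_mod_cast h5
  have hc1 : (I:ℝ) / 2 / (L + 1) ≤ 2 * (k * (Tj j).card) := by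
    calc (I:ℝ) / 2 / (L + 1) ≤ ∑ l ∈ Tj j, (hits L l E : ℝ) := hj2
      _ ≤ ∑ l ∈ Tj j, 2 * (k:ℝ) := Finset.sum_le_sum hhk
      _ = _ := by rw [Finset.sum_const, nsmul_eq_mul]; ring
  have hsub : Tj j ⊆ T := (Finset.filter_subset _ _).trans (Finset.filter_subset _ _)
  have hKTj : KTf K (Tj j) := by
    intro a b w1 w2 x0 y0 hab h1 h2
    refine le_trans ?_ (hKT a b w1 w2 x0 y0 hab h1 h2)
    exact_mod_cast Finset.card_le_card (Finset.filter_subset_filter _ hsub)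
  have hmain := h L (Tj j) K E k hK (fun l hl => hT l (hsub hl)) hKTj hk1 hkh
  have hEc : (2:ℝ) ^ n * E.card ≤ I := by
    rw [hI]; push_cast
    calc (2:ℝ) ^ n * E.card = ∑ z ∈ E, (2:ℝ) ^ n := by rw [Finset.sum_const, nsmul_eq_mul]; ring
      _ ≤ ∑ z ∈ E, (Nz L T z : ℝ) := Finset.sum_le_sum fun z hz => by exact_mod_cast hn z hz
  have hk0r : (0:ℝ) < k := by exact_mod_cast hk1
  have hklam : (2:ℝ) ^ L / k ≤ 2 / lam := by
    rw [div_le_div_iff₀ hk0r hlam0]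
    have : (k0:ℝ) ≤ k := by exact_mod_cast le_max_right _ _
    nlinarith
  have hpw : ((2:ℝ) ^ L / k) ^ Np ≤ 2 ^ Np / lam ^ Np := by
    rw [← Real.div_rpow (by norm_num) hlam0.le]
    exact Real.rpow_le_rpow (by positivity) hklam hNp
  have hX : 0 ≤ C * K * (2:ℝ) ^ ((2 * κ + ε) * L) := by positivity
  have hlN : 0 < lam ^ Np := Real.rpow_pos_of_pos hlam0 _
  have h5 : (I:ℝ) / 2 / (L + 1) ≤ 2 * (C * K * (2:ℝ) ^ ((2 * κ + ε) * L) * (2 ^ Np / lam ^ Np) * E.card) := by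
    refine hc1.trans (mul_le_mul_of_nonneg_left ?_ (by norm_num : (0:ℝ) ≤ 2))
    refine hmain.trans ?_
    exact mul_le_mul_of_nonneg_right (mul_le_mul_of_nonneg_left hpw hX) (Nat.cast_nonneg _)
  have h6 : (2:ℝ) ^ n * lam ^ Np * I ≤ 4 * (L + 1) * (C * K * (2:ℝ) ^ ((2 * κ + ε) * L)) * 2 ^ Np * I := by
    have e1 : (I:ℝ) ≤ 4 * (L + 1) * (C * K * (2:ℝ) ^ ((2 * κ + ε) * L) * (2 ^ Np / lam ^ Np) * E.card) := by
      have hL1 : (0:ℝ) < L + 1 := by positivity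
      have : (I:ℝ) = 2 * (L + 1) * (I / 2 / (L + 1)) := by field_simp
      rw [this]
      calc 2 * ((L:ℝ) + 1) * (I / 2 / (L + 1)) ≤ 2 * (L + 1) * (2 * (C * K * (2:ℝ) ^ ((2 * κ + ε) * L) * (2 ^ Np / lam ^ Np) * E.card)) := by
            gcongr
        _ = _ := by ring
    calc (2:ℝ) ^ n * lam ^ Np * I ≤ (2:ℝ) ^ n * lam ^ Np * (4 * (L + 1) * (C * K * (2:ℝ) ^ ((2 * κ + ε) * L) * (2 ^ Np / lam ^ Np) * E.card)) := by
          gcongr
      _ = 4 * (L + 1) * (C * K * (2:ℝ) ^ ((2 * κ + ε) * L)) * ((2 ^ Np / lam ^ Np) * lam ^ Np) * ((2:ℝ) ^ n * E.card) := by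
          ring
      _ = 4 * (L + 1) * (C * K * (2:ℝ) ^ ((2 * κ + ε) * L)) * 2 ^ Np * ((2:ℝ) ^ n * E.card) := by
          rw [div_mul_cancel₀ _ hlN.ne']
      _ ≤ _ := by gcongr
  exact le_of_mul_le_mul_right h6 hIr

end Vale.Agent.P106.Q.NKC
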