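import Vale.Agent.P106.Q.NK3Ca

/-! # P106 / Q : block NK3C, discrete estimate with exponent `r` (helper377) -/

open MeasureTheory Complex Set
open scoped ENNReal NNReal

set_option linter.all false

namespace Vale.Agent.P106.Q.NKC

open Vale.Agent.P117.K (pos hits inP KTf StKTc)

/-- the box of all lines -/
noncomputable def Bx (L : ℕ) : Finset LI :=
  (Fintype.piFinset fun _ => Finset.Ico (0:ℤ) (2 ^ L)) ×ˢ (Fintype.piFinset fun _ => Finset.Ico (0:ℤ) (2 ^ L))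

lemma mem_Bx {L : ℕ} {l : LI} : l ∈ Bx L ↔ ∀ i, (0 ≤ l.1 i ∧ l.1 i < 2 ^ L) ∧ (0 ≤ l.2 i ∧ l.2 i < 2 ^ L) := by
  simp only [Bx, Finset.mem_product, Fintype.mem_piFinset, Finset.mem_Ico]
  exact ⟨fun h i => ⟨h.1 i, h.2 i⟩, fun h => ⟨fun i => (h i).1, fun i => (h i).2⟩⟩

lemma card_through (L : ℕ) {T : Finset LI} (hT : T ⊆ Bx L) (z : (Fin 2 → ℤ) × ℕ) :
    (T.filter (fun l => pos L l z.2 = z.1)).card ≤ 4 ^ L := by
  classical
  have h1 : (T.filter (fun l => pos L l z.2 = z.1)).card ≤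
      (Fintype.piFinset fun _ : Fin 2 => Finset.Ico (0:ℤ) (2 ^ L)).card := by
    refine Finset.card_le_card_of_injOn Prod.snd ?_ ?_
    · intro l hl
      rw [Finset.mem_coe, Finset.mem_filter] at hl
      have := hT hl.1
      rw [Bx, Finset.mem_product] at this
      exact this.2
    · intro l hl l' hl' e
      rw [Finset.mem_coe, Finset.mem_filter] at hl hl'
      have h2 := hl.2.trans hl'.2.symm
      refine Prod.ext ?_ e
      funext i
      have h3 := congrFun h2 i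
      simp only [pos] at h3
      rw [show l.2 = l'.2 from e] at h3
      linarith
  refine h1.trans ?_
  rw [Fintype.card_piFinset]
  simp only [Int.card_Ico, Finset.prod_const, Finset.card_univ, Fintype.card_fin]
  have : ((2:ℤ) ^ L - 0).toNat = 2 ^ L := by
    rw [sub_zero]; exact_mod_cast Int.toNat_natCast (2 ^ L)
  rw [this, ← pow_mul, mul_comm, pow_mul]; norm_num

lemma Nz_le (L : ℕ) {T : Finset LI} (hT : T ⊆ Bx L) (z : (Fin 2 → ℤ) × ℕ) : Nz L T z ≤ 4 ^ L := by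
  classical
  have := card_through L hT z
  unfold Nz; convert this

/-- one level of weights -/
lemma lev1 {κ Np ε C r : ℝ} (hNp : 0 ≤ Np) (hC : 0 ≤ C) (hr1 : 1 < r) (hr : Np * (r - 1) ≤ 1)
    (h : ∀ (L : ℕ) (T : Finset LI) (K : ℝ) (E : Finset ((Fin 2 → ℤ) × ℕ)) (k : ℕ), 1 ≤ K →
      (∀ l ∈ T, ∀ i, (0 ≤ l.1 i ∧ l.1 i < 2 ^ L) ∧ (0 ≤ l.2 i ∧ l.2 i < 2 ^ L)) → KTf K T → 1 ≤ k →
      (∀ l ∈ T, k ≤ hits L l E) →
      (k:ℝ) * T.card ≤ C * K * (2:ℝ) ^ ((2 * κ + ε) * L) * ((2:ℝ) ^ L / k) ^ Np * E.card)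
    (L : ℕ) (T : Finset LI) (hT : T ⊆ Bx L) (m : ℝ) (hm : 1 ≤ m)
    (hbase : ∀ x, ((T.filter (fun l => l.1 = x)).card : ℝ) ≤ m) (Z : Finset ((Fin 2 → ℤ) × ℕ))
    (hZ : ∀ z ∈ Z, z.2 < 2 ^ L) :
    ∑ z ∈ Z, ((Nz L T z : ℝ) / m) ^ r ≤
      (2 * L + 1) * (160 * (L + 1) * C * (2:ℝ) ^ ((2 * κ + ε) * L) * 2 ^ Np) ^ (r - 1) * (2 ^ L * (T.card / m)) := by
  classical
  have hm0 : 0 < m := by linarith
  have h2L : (0:ℝ) < 2 ^ L := by positivity
  obtain ⟨X, hX⟩ : ∃ X : ℝ, X = 160 * (L + 1) * C * (2:ℝ) ^ ((2 * κ + ε) * L) * 2 ^ Np := ⟨_, rfl⟩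
  have hX0 : 0 ≤ X := by rw [hX]; positivity
  rw [← hX]
  set Zp := Z.filter (fun z => Nz L T z ≠ 0) with hZp
  have h1 : ∑ z ∈ Z, ((Nz L T z : ℝ) / m) ^ r = ∑ z ∈ Zp, ((Nz L T z : ℝ) / m) ^ r := by
    rw [hZp, Finset.sum_filter]
    refine Finset.sum_congr rfl fun z _ => ?_
    by_cases hz : Nz L T z = 0
    · rw [if_neg (not_not.2 hz), hz]; simp [Real.zero_rpow (by linarith : r ≠ 0)]
    · rw [if_pos hz]
  rw [h1]
  have h2 : ∑ z ∈ Zp, ((Nz L T z : ℝ) / m) ^ r =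
      ∑ n ∈ Finset.range (2 * L + 1), ∑ z ∈ Zp.filter (fun z => Nat.log 2 (Nz L T z) = n), ((Nz L T z : ℝ) / m) ^ r := by
    refine (Finset.sum_fiberwise_of_maps_to (fun z _ => ?_) _).symm
    rw [Finset.mem_range]
    have h3 := Nat.log_mono_right (b := 2) (Nz_le L hT z)
    rw [show (4:ℕ) = 2 ^ 2 from rfl, ← pow_mul, Nat.log_pow (by norm_num)] at h3
    omega
  rw [h2]
  have key : ∀ n ∈ Finset.range (2 * L + 1),
      ∑ z ∈ Zp.filter (fun z => Nat.log 2 (Nz L T z) = n), ((Nz L T z : ℝ) / m) ^ r ≤ X ^ (r - 1) * (2 ^ L * (T.card / m)) := by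
    intro n _
    set E := Zp.filter (fun z => Nat.log 2 (Nz L T z) = n) with hE
    have hEz : ∀ z ∈ E, z ∈ Z ∧ Nz L T z ≠ 0 ∧ Nat.log 2 (Nz L T z) = n := by
      intro z hz
      rw [hE, Finset.mem_filter, hZp, Finset.mem_filter] at hz
      exact ⟨hz.1.1, hz.1.2, hz.2⟩
    rcases E.eq_empty_or_nonempty with h0 | hne
    · rw [h0, Finset.sum_empty]; positivity
    obtain ⟨I, hI⟩ : ∃ I : ℕ, I = ∑ z ∈ E, Nz L T z := ⟨_, rfl⟩
    have hIpos : 0 < ∑ z ∈ E, Nz L T z :=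
      Finset.sum_pos (fun z hz => Nat.pos_of_ne_zero (hEz z hz).2.1) hne
    have hlv := level hNp hC h L T (20 * m) E (by linarith) (fun l hl => mem_Bx.1 (hT hl)) (ktf_of_base hm0.le T hbase) n
      (fun z hz => by
        rw [← (hEz z hz).2.2]; exact Nat.pow_log_le_self 2 (hEz z hz).2.1)
      (fun z hz => hZ z (hEz z hz).1) hIpos
    rw [← hI] at hlv hIpos
    have hIr : (0:ℝ) < I := by exact_mod_cast hIpos
    have hIle : I ≤ T.card * 2 ^ L := by
      rw [hI, ← sum_hits L T E (fun z hz => hZ z (hEz z hz).1)]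
      calc ∑ l ∈ T, hits L l E ≤ ∑ l ∈ T, 2 ^ L := Finset.sum_le_sum fun l _ => hits_le L l E
        _ = _ := by rw [Finset.sum_const, smul_eq_mul]
    have hTc : (0:ℝ) < T.card := by
      have : 0 < T.card := by
        by_contra hc
        have : T.card = 0 := by omega
        rw [this] at hIle; omega
      exact_mod_cast this
    obtain ⟨lam, hlam⟩ : ∃ x : ℝ, x = (I:ℝ) / (2 ^ L * T.card) := ⟨_, rfl⟩
    rw [← hlam] at hlv
    have hl0 : 0 < lam := by rw [hlam]; positivity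
    have hl1 : lam ≤ 1 := by
      rw [hlam, div_le_one (by positivity)]
      have : (I:ℝ) ≤ T.card * 2 ^ L := by exact_mod_cast hIle
      linarith
    have hIlam : (I:ℝ) = lam * (2 ^ L * T.card) := by rw [hlam]; field_simp
    have hlN : 0 < lam ^ Np := Real.rpow_pos_of_pos hl0 _
    -- bound of the top value
    have hv : (2:ℝ) ^ (n + 1) / m ≤ X / lam ^ Np := by
      rw [div_le_div_iff₀ hm0 hlN, pow_succ]
      have e1 : (2:ℝ) ^ n * 2 * lam ^ Np = 2 * (2 ^ n * lam ^ Np) := by ring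
      rw [e1]
      calc 2 * (2 ^ n * lam ^ Np) ≤ 2 * (4 * (L + 1) * (C * (20 * m) * (2:ℝ) ^ ((2 * κ + ε) * L)) * 2 ^ Np) := by
            linarith
        _ = X * m := by rw [hX]; ring
    have hterm : ∀ z ∈ E, ((Nz L T z : ℝ) / m) ^ r ≤ (X / lam ^ Np) ^ (r - 1) * (Nz L T z / m) := by
      intro z hz
      have hp : (0:ℝ) < Nz L T z / m := by
        have : (0:ℝ) < Nz L T z := by exact_mod_cast Nat.pos_of_ne_zero (hEz z hz).2.1
        positivity
      have hle : (Nz L T z : ℝ) / m ≤ X / lam ^ Np := by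
        refine le_trans ?_ hv
        have h3 : Nz L T z < 2 ^ (n + 1) := by
          rw [← (hEz z hz).2.2]; exact Nat.lt_pow_succ_log_self (by norm_num) _
        have h4 : (Nz L T z : ℝ) ≤ 2 ^ (n + 1) := by exact_mod_cast h3.le
        exact div_le_div_of_nonneg_right h4 hm0.le
      calc ((Nz L T z : ℝ) / m) ^ r = ((Nz L T z : ℝ) / m) ^ (r - 1) * (Nz L T z / m) := by
            rw [← Real.rpow_add_one hp.ne']; congr 1; ring
        _ ≤ _ := by
            refine mul_le_mul_of_nonneg_right ?_ hp.le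
            exact Real.rpow_le_rpow hp.le hle (by linarith)
    calc ∑ z ∈ E, ((Nz L T z : ℝ) / m) ^ r ≤ ∑ z ∈ E, (X / lam ^ Np) ^ (r - 1) * (Nz L T z / m) :=
          Finset.sum_le_sum hterm
      _ = (X / lam ^ Np) ^ (r - 1) * (I / m) := by
          rw [← Finset.mul_sum, ← Finset.sum_div, hI]; push_cast; rfl
      _ = X ^ (r - 1) * (lam ^ (1 - Np * (r - 1))) * (2 ^ L * (T.card / m)) := by
          rw [Real.div_rpow hX0 hlN.le, ← Real.rpow_mul hl0.le, hIlam, Real.rpow_sub hl0, Real.rpow_one]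
          ring
      _ ≤ X ^ (r - 1) * 1 * (2 ^ L * (T.card / m)) := by
          have : lam ^ (1 - Np * (r - 1)) ≤ 1 := Real.rpow_le_one hl0.le hl1 (by linarith)
          exact mul_le_mul_of_nonneg_right (mul_le_mul_of_nonneg_left this (Real.rpow_nonneg hX0 _))
            (mul_nonneg h2L.le (div_nonneg hTc.le hm0.le))
      _ = _ := by ring
  calc _ ≤ ∑ n ∈ Finset.range (2 * L + 1), X ^ (r - 1) * (2 ^ L * (T.card / m)) := Finset.sum_le_sum key
    _ = _ := by rw [Finset.sum_const, Finset.card_range, nsmul_eq_mul]; push_cast; ring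

lemma dyadic_cases (A : ℕ) (x : ℝ) (hx : x ≤ 1) :
    x ≤ (1/2:ℝ) ^ A ∨ ∃ a < A, (1/2:ℝ) ^ (a + 1) < x ∧ x ≤ (1/2:ℝ) ^ a := by
  induction A with
  | zero => left; simpa using hx
  | succ A ih =>
    rcases ih with h | ⟨a, ha, h⟩
    · rcases le_or_gt x ((1/2:ℝ) ^ (A + 1)) with h1 | h1
      · exact Or.inl h1
      · exact Or.inr ⟨A, by omega, h1, h⟩
    · exact Or.inr ⟨a, by omega, h⟩

/-- sum of the weights through `z` -/
noncomputable def Sz (L : ℕ) (w : LI → ℝ) (T : Finset LI) (z : (Fin 2 → ℤ) × ℕ) : ℝ := by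
  classical exact ∑ l ∈ T.filter (fun l => pos L l z.2 = z.1), w l

lemma sum_Sz (L : ℕ) (w : LI → ℝ) (T : Finset LI) (hw : ∀ l ∈ T, 0 ≤ w l) (Z : Finset ((Fin 2 → ℤ) × ℕ))
    (hZ : ∀ z ∈ Z, z.2 < 2 ^ L) : ∑ z ∈ Z, Sz L w T z ≤ 2 ^ L * ∑ l ∈ T, w l := by
  classical
  have h1 : ∑ z ∈ Z, Sz L w T z = ∑ l ∈ T, (hits L l Z : ℝ) * w l := by
    simp only [Sz, Finset.sum_filter]
    rw [Finset.sum_comm]
    refine Finset.sum_congr rfl fun l _ => ?_
    rw [hits_eq L l Z hZ, Finset.card_filter]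
    push_cast
    rw [Finset.sum_mul]
    refine Finset.sum_congr rfl fun z _ => ?_
    split_ifs <;> simp
  rw [h1, Finset.mul_sum]
  refine Finset.sum_le_sum fun l hl => ?_
  refine mul_le_mul_of_nonneg_right ?_ (hw l hl)
  exact_mod_cast hits_le L l Z

/-- all weights -/
lemma lev0 {κ Np ε C r : ℝ} (hNp : 0 ≤ Np) (hC : 0 ≤ C) (hr1 : 1 < r) (hr : Np * (r - 1) ≤ 1)
    (h : ∀ (L : ℕ) (T : Finset LI) (K : ℝ) (E : Finset ((Fin 2 → ℤ) × ℕ)) (k : ℕ), 1 ≤ K →
      (∀ l ∈ T, ∀ i, (0 ≤ l.1 i ∧ l.1 i < 2 ^ L) ∧ (0 ≤ l.2 i ∧ l.2 i < 2 ^ L)) → KTf K T → 1 ≤ k →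
      (∀ l ∈ T, k ≤ hits L l E) →
      (k:ℝ) * T.card ≤ C * K * (2:ℝ) ^ ((2 * κ + ε) * L) * ((2:ℝ) ^ L / k) ^ Np * E.card)
    (L : ℕ) (w : LI → ℝ) (hw0 : ∀ l, 0 ≤ w l)
    (hw : ∀ x, ∑ l ∈ (Bx L).filter (fun l => l.1 = x), w l ≤ 1) (Z : Finset ((Fin 2 → ℤ) × ℕ))
    (hZ : ∀ z ∈ Z, z.2 < 2 ^ L) :
    ∑ z ∈ Z, Sz L w (Bx L) z ^ r ≤
      (2 * L + 2) ^ (r - 1) * ((2 * L + 1) * (2 ^ r * ((2 * L + 1) *
        (160 * (L + 1) * C * (2:ℝ) ^ ((2 * κ + ε) * L) * 2 ^ Np) ^ (r - 1))) + 1) * (2 ^ L * ∑ l ∈ Bx L, w l) := by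
  classical
  have hr0 : 0 < r := by linarith
  set A := 2 * L + 1 with hA
  obtain ⟨X, hX⟩ : ∃ X : ℝ, X = 160 * (L + 1) * C * (2:ℝ) ^ ((2 * κ + ε) * L) * 2 ^ Np := ⟨_, rfl⟩
  have hX0 : 0 ≤ X := by rw [hX]; positivity
  rw [← hX]
  have hw1 : ∀ l ∈ Bx L, w l ≤ 1 := by
    intro l hl
    refine le_trans ?_ (hw l.1)
    exact Finset.single_le_sum (f := w) (fun l _ => hw0 l) (Finset.mem_filter.2 ⟨hl, rfl⟩)
  obtain ⟨M, hM⟩ : ∃ M : ℝ, M = ∑ l ∈ Bx L, w l := ⟨_, rfl⟩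
  have hM0 : 0 ≤ M := by rw [hM]; exact Finset.sum_nonneg fun l _ => hw0 l
  rw [← hM]
  set T : ℕ → Finset LI := fun a => (Bx L).filter (fun l => (1/2:ℝ) ^ (a + 1) < w l ∧ w l ≤ (1/2:ℝ) ^ a) with hT
  set T' : Finset LI := (Bx L).filter (fun l => w l ≤ (1/2:ℝ) ^ A) with hT'
  have hTs : ∀ a, T a ⊆ Bx L := fun a => Finset.filter_subset _ _
  -- decomposition
  set f : (Fin 2 → ℤ) × ℕ → ℕ → ℝ := fun z a => if a < A then 2 * ((Nz L (T a) z : ℝ) / 2 ^ (a + 1)) else Sz L w T' z with hf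
  have hSz0 : ∀ z, 0 ≤ Sz L w T' z := fun z => Finset.sum_nonneg fun l _ => hw0 l
  have hf0 : ∀ z a, 0 ≤ f z a := by
    intro z a
    simp only [hf]
    split_ifs
    · positivity
    · exact hSz0 z
  have hdec : ∀ z, Sz L w (Bx L) z ≤ ∑ a ∈ Finset.range (A + 1), f z a := by
    intro z
    have e1 : ∑ a ∈ Finset.range (A + 1), f z a =
        ∑ a ∈ Finset.range A, (2 * ((Nz L (T a) z : ℝ) / 2 ^ (a + 1))) + Sz L w T' z := by
      rw [Finset.sum_range_succ]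
      congr 1
      · refine Finset.sum_congr rfl fun a ha => ?_
        simp only [hf]; rw [if_pos (Finset.mem_range.1 ha)]
      · simp only [hf]; rw [if_neg (lt_irrefl _)]
    rw [e1]
    have e2 : ∀ a, (2 * ((Nz L (T a) z : ℝ) / 2 ^ (a + 1))) =
        ∑ l ∈ (Bx L).filter (fun l => pos L l z.2 = z.1), if l ∈ T a then (1/2:ℝ) ^ a else 0 := by
      intro a
      have e3 : Nz L (T a) z = (((Bx L).filter (fun l => pos L l z.2 = z.1)).filter (fun l => l ∈ T a)).card := by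
        unfold Nz
        congr 1
        ext l
        simp only [Finset.mem_filter, hT]
        tauto
      rw [e3, ← Finset.sum_filter, Finset.sum_const, nsmul_eq_mul, pow_succ, one_div, inv_pow]
      field_simp
    have e4 : Sz L w T' z = ∑ l ∈ (Bx L).filter (fun l => pos L l z.2 = z.1), if l ∈ T' then w l else 0 := by
      unfold Sz
      rw [← Finset.sum_filter]
      refine Finset.sum_congr ?_ fun _ _ => rfl
      ext l
      simp only [Finset.mem_filter, hT']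
      tauto
    simp only [e2]
    rw [Finset.sum_comm, e4, ← Finset.sum_add_distrib]
    unfold Sz
    refine Finset.sum_le_sum fun l hl => ?_
    have hlB : l ∈ Bx L := (Finset.mem_filter.1 hl).1
    have hs0 : 0 ≤ ∑ a ∈ Finset.range A, (if l ∈ T a then (1/2:ℝ) ^ a else 0) :=
      Finset.sum_nonneg fun a _ => by split_ifs <;> positivity
    rcases dyadic_cases A (w l) (hw1 l hlB) with h1 | ⟨a, ha, h1⟩
    · have : l ∈ T' := Finset.mem_filter.2 ⟨hlB, h1⟩
      rw [if_pos this]; linarith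
    · have hla : l ∈ T a := Finset.mem_filter.2 ⟨hlB, h1⟩
      have h5 : (1/2:ℝ) ^ a ≤ ∑ a ∈ Finset.range A, (if l ∈ T a then (1/2:ℝ) ^ a else 0) := by
        have := Finset.single_le_sum (f := fun a => (if l ∈ T a then (1/2:ℝ) ^ a else 0))
          (fun a _ => by split_ifs <;> positivity) (Finset.mem_range.2 ha)
        simpa [hla] using this
      have h6 : 0 ≤ (if l ∈ T' then w l else 0) := by split_ifs; exacts [hw0 l, le_rfl]
      linarith [h1.2]
  have hpow : ∀ z, Sz L w (Bx L) z ^ r ≤ (2 * L + 2) ^ (r - 1) * ∑ a ∈ Finset.range (A + 1), f z a ^ r := by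
    intro z
    have h1 : Sz L w (Bx L) z ^ r ≤ (∑ a ∈ Finset.range (A + 1), f z a) ^ r :=
      Real.rpow_le_rpow (Finset.sum_nonneg fun l _ => hw0 l) (hdec z) hr0.le
    refine h1.trans ?_
    have h2 := Real.rpow_sum_le_const_mul_sum_rpow_of_nonneg (s := Finset.range (A + 1)) (f := f z) hr1.le (fun a _ => hf0 z a)
    rw [Finset.card_range] at h2
    have h3 : ((A + 1 : ℕ) : ℝ) = 2 * L + 2 := by rw [hA]; push_cast; ring
    rwa [h3] at h2
  -- the levels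
  have hlev : ∀ a ∈ Finset.range A, ∑ z ∈ Z, f z a ^ r ≤ 2 ^ r * ((2 * L + 1) * X ^ (r - 1)) * (2 ^ L * M) := by
    intro a ha
    have hb : ∀ x, (((T a).filter (fun l => l.1 = x)).card : ℝ) ≤ 2 ^ (a + 1) := by
      intro x
      have h1 : (1/2:ℝ) ^ (a + 1) * ((T a).filter (fun l => l.1 = x)).card ≤ 1 := by
        calc (1/2:ℝ) ^ (a + 1) * ((T a).filter (fun l => l.1 = x)).card =
              ∑ l ∈ (T a).filter (fun l => l.1 = x), (1/2:ℝ) ^ (a + 1) := by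
              rw [Finset.sum_const, nsmul_eq_mul]; ring
          _ ≤ ∑ l ∈ (T a).filter (fun l => l.1 = x), w l := by
              refine Finset.sum_le_sum fun l hl => ?_
              rw [Finset.mem_filter, hT, Finset.mem_filter] at hl
              exact hl.1.2.1.le
          _ ≤ ∑ l ∈ (Bx L).filter (fun l => l.1 = x), w l :=
              Finset.sum_le_sum_of_subset_of_nonneg (Finset.filter_subset_filter _ (hTs a)) fun l _ _ => hw0 l
          _ ≤ 1 := hw x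
      have h2 : (0:ℝ) < 2 ^ (a + 1) := by positivity
      have h3 : (1/2:ℝ) ^ (a + 1) = (2 ^ (a + 1))⁻¹ := by rw [one_div, inv_pow]
      rw [h3, inv_mul_le_iff₀ h2, mul_one] at h1
      exact h1
    have h1 := lev1 hNp hC hr1 hr h L (T a) (hTs a) (2 ^ (a + 1)) (one_le_pow₀ (by norm_num)) hb Z hZ
    rw [← hX] at h1
    have h2 : ∑ z ∈ Z, f z a ^ r = 2 ^ r * ∑ z ∈ Z, ((Nz L (T a) z : ℝ) / 2 ^ (a + 1)) ^ r := by
      rw [Finset.mul_sum]
      refine Finset.sum_congr rfl fun z _ => ?_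
      simp only [hf]
      rw [if_pos (Finset.mem_range.1 ha), Real.mul_rpow (by norm_num) (by positivity)]
    have h3 : ((T a).card : ℝ) / 2 ^ (a + 1) ≤ M := by
      rw [hM]
      calc ((T a).card : ℝ) / 2 ^ (a + 1) = ∑ l ∈ T a, (1/2:ℝ) ^ (a + 1) := by
            rw [Finset.sum_const, nsmul_eq_mul, one_div, inv_pow]; rfl
        _ ≤ ∑ l ∈ T a, w l := by
            refine Finset.sum_le_sum fun l hl => ?_
            rw [hT, Finset.mem_filter] at hl
            exact hl.2.1.le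
        _ ≤ _ := Finset.sum_le_sum_of_subset_of_nonneg (hTs a) fun l _ _ => hw0 l
    rw [h2]
    calc 2 ^ r * ∑ z ∈ Z, ((Nz L (T a) z : ℝ) / 2 ^ (a + 1)) ^ r
        ≤ 2 ^ r * ((2 * L + 1) * X ^ (r - 1) * (2 ^ L * ((T a).card / 2 ^ (a + 1)))) := by gcongr
      _ ≤ 2 ^ r * ((2 * L + 1) * X ^ (r - 1) * (2 ^ L * M)) := by gcongr
      _ = _ := by ring
  have hrest : ∑ z ∈ Z, f z A ^ r ≤ 2 ^ L * M := by
    have h1 : ∀ z ∈ Z, f z A ^ r ≤ Sz L w T' z := by
      intro z _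
      simp only [hf]
      rw [if_neg (lt_irrefl _)]
      have hle : Sz L w T' z ≤ 1 := by
        unfold Sz
        calc ∑ l ∈ T'.filter (fun l => pos L l z.2 = z.1), w l
            ≤ ∑ l ∈ T'.filter (fun l => pos L l z.2 = z.1), (1/2:ℝ) ^ A := by
              refine Finset.sum_le_sum fun l hl => ?_
              rw [Finset.mem_filter, hT', Finset.mem_filter] at hl
              exact hl.1.2
          _ = (T'.filter (fun l => pos L l z.2 = z.1)).card * (1/2:ℝ) ^ A := by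
              rw [Finset.sum_const, nsmul_eq_mul]
          _ ≤ (4:ℝ) ^ L * (1/2:ℝ) ^ A := by
              refine mul_le_mul_of_nonneg_right ?_ (by positivity)
              exact_mod_cast card_through L (Finset.filter_subset _ _) z
          _ ≤ 1 := by
              rw [hA, pow_succ, one_div, inv_pow, pow_mul]
              have : (0:ℝ) < 4 ^ L := by positivity
              have h4 : (4:ℝ) ^ L * (((2:ℝ) ^ 2) ^ L)⁻¹ = 1 := by
                rw [show ((2:ℝ) ^ 2) = 4 by norm_num, mul_inv_cancel₀ this.ne']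
              rw [← mul_assoc, h4]; norm_num
      calc Sz L w T' z ^ r ≤ Sz L w T' z ^ (1:ℝ) := by
            rcases (hSz0 z).eq_or_lt with h0 | h0
            · rw [← h0, Real.zero_rpow hr0.ne', Real.zero_rpow one_ne_zero]
            · exact Real.rpow_le_rpow_of_exponent_ge h0 hle hr1.le
        _ = Sz L w T' z := Real.rpow_one _
    calc ∑ z ∈ Z, f z A ^ r ≤ ∑ z ∈ Z, Sz L w T' z := Finset.sum_le_sum h1
      _ ≤ 2 ^ L * ∑ l ∈ T', w l := sum_Sz L w T' (fun l _ => hw0 l) Z hZ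
      _ ≤ 2 ^ L * M := by
          rw [hM]
          have := Finset.sum_le_sum_of_subset_of_nonneg (Finset.filter_subset (fun l => w l ≤ (1/2:ℝ) ^ A) (Bx L))
            (f := w) fun l _ _ => hw0 l
          gcongr
  calc ∑ z ∈ Z, Sz L w (Bx L) z ^ r ≤ ∑ z ∈ Z, (2 * L + 2) ^ (r - 1) * ∑ a ∈ Finset.range (A + 1), f z a ^ r :=
        Finset.sum_le_sum fun z _ => hpow z
    _ = (2 * L + 2) ^ (r - 1) * (∑ a ∈ Finset.range A, ∑ z ∈ Z, f z a ^ r + ∑ z ∈ Z, f z A ^ r) := by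
        rw [← Finset.mul_sum, Finset.sum_comm, Finset.sum_range_succ]
    _ ≤ (2 * L + 2) ^ (r - 1) * (∑ a ∈ Finset.range A, 2 ^ r * ((2 * L + 1) * X ^ (r - 1)) * (2 ^ L * M) + 2 ^ L * M) := by
        have := Finset.sum_le_sum hlev
        gcongr
    _ = _ := by
        rw [Finset.sum_const, Finset.card_range, nsmul_eq_mul, hA]; push_cast; ring

end Vale.Agent.P106.Q.NKC
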