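import Vale.Agent.P106.Q.NK3Cb

/-! # P106 / Q : block NK3C, discrete estimate, final form (helper377) -/

open MeasureTheory Complex Set
open scoped ENNReal NNReal

set_option linter.all false

namespace Vale.Agent.P106.Q.NKC

open Vale.Agent.P117.K (pos hits inP KTf StKTc)

lemma poly_exp (k : ℕ) (δ : ℝ) (hδ : 0 < δ) : ∃ B : ℝ, 0 ≤ B ∧ ∀ L : ℕ, ((L:ℝ) + 1) ^ k ≤ B * (2:ℝ) ^ (δ * L) := by
  set ρ : ℝ := (2:ℝ) ^ (-δ) with hρ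
  have hρ0 : 0 < ρ := Real.rpow_pos_of_pos (by norm_num) _
  have hρ1 : ρ < 1 := Real.rpow_lt_one_of_one_lt_of_neg (by norm_num) (by linarith)
  have h1 : Filter.Tendsto (fun L : ℕ => (L:ℝ) ^ k * ρ ^ L) Filter.atTop (nhds 0) :=
    tendsto_pow_const_mul_const_pow_of_abs_lt_one k (by rw [abs_of_pos hρ0]; exact hρ1)
  obtain ⟨B, hB⟩ := h1.bddAbove_range
  have hB' : ∀ L : ℕ, (L:ℝ) ^ k * ρ ^ L ≤ B := fun L => hB ⟨L, rfl⟩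
  have hB0 : 0 ≤ B := le_trans (by positivity) (hB' 0)
  refine ⟨B / ρ, by positivity, fun L => ?_⟩
  have h2 := hB' (L + 1)
  push_cast at h2
  have h3 : (2:ℝ) ^ (δ * L) = (ρ ^ L)⁻¹ := by
    rw [hρ, ← Real.rpow_natCast, ← Real.rpow_mul (by norm_num), ← Real.rpow_neg (by norm_num)]
    congr 1; ring
  rw [h3]
  have h4 : (0:ℝ) < ρ ^ (L + 1) := by positivity
  have h5 : ((L:ℝ) + 1) ^ k ≤ B / ρ ^ (L + 1) := by rwa [le_div_iff₀ h4]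
  refine h5.trans (le_of_eq ?_)
  rw [pow_succ]; field_simp

lemma disc {κ Np r : ℝ} (hκ : 0 ≤ κ) (hNp : 0 ≤ Np) (hK : StKTc κ Np) (hr1 : 1 < r) (hr : Np * (r - 1) ≤ 1)
    {ε : ℝ} (hε : 0 < ε) : ∃ C : ℝ, 0 ≤ C ∧ ∀ (L : ℕ) (w : LI → ℝ), (∀ l, 0 ≤ w l) →
      (∀ x, ∑ l ∈ (Bx L).filter (fun l => l.1 = x), w l ≤ 1) → ∀ Z : Finset ((Fin 2 → ℤ) × ℕ),
      (∀ z ∈ Z, z.2 < 2 ^ L) →
      ∑ z ∈ Z, Sz L w (Bx L) z ^ r ≤ C * (2:ℝ) ^ ((2 * κ * (r - 1) + ε) * L) * (2 ^ L * ∑ l ∈ Bx L, w l) := by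
  have hr2 : 0 < r - 1 := by linarith
  obtain ⟨C1, hC1, h⟩ := hK (ε / (2 * (r - 1))) (by positivity)
  obtain ⟨k, hk⟩ := exists_nat_ge (r - 1)
  obtain ⟨B, hB0, hB⟩ := poly_exp (2 * k + 2) (ε / 2) (by positivity)
  obtain ⟨D, hD⟩ : ∃ D : ℝ, D = (160 * C1 * 2 ^ Np) ^ (r - 1) := ⟨_, rfl⟩
  have hD0 : 0 ≤ D := by rw [hD]; positivity
  refine ⟨2 ^ k * (4 * 2 ^ r * D + 1) * B, by positivity, fun L w hw0 hw Z hZ => ?_⟩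
  have h0 := lev0 hNp hC1 hr1 hr h L w hw0 hw Z hZ
  refine h0.trans ?_
  have hM0 : 0 ≤ ∑ l ∈ Bx L, w l := Finset.sum_nonneg fun l _ => hw0 l
  have h2M : 0 ≤ (2:ℝ) ^ L * ∑ l ∈ Bx L, w l := mul_nonneg (by positivity) hM0
  refine mul_le_mul_of_nonneg_right ?_ h2M
  obtain ⟨q, hq⟩ : ∃ q : ℝ, q = (2:ℝ) ^ ((2 * κ * (r - 1) + ε / 2) * L) := ⟨_, rfl⟩
  have hq1 : 1 ≤ q := by
    rw [hq]; refine Real.one_le_rpow (by norm_num) ?_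
    positivity
  have hL1 : (1:ℝ) ≤ (L:ℝ) + 1 := by
    have : (0:ℝ) ≤ L := Nat.cast_nonneg L
    linarith
  have hY : (160 * ((L:ℝ) + 1) * C1 * (2:ℝ) ^ ((2 * κ + ε / (2 * (r - 1))) * L) * 2 ^ Np) ^ (r - 1) =
      D * ((L:ℝ) + 1) ^ (r - 1) * q := by
    rw [show 160 * ((L:ℝ) + 1) * C1 * (2:ℝ) ^ ((2 * κ + ε / (2 * (r - 1))) * L) * 2 ^ Np =
      (160 * C1 * 2 ^ Np) * ((L:ℝ) + 1) * (2:ℝ) ^ ((2 * κ + ε / (2 * (r - 1))) * L) by ring]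
    rw [Real.mul_rpow (by positivity) (by positivity), Real.mul_rpow (by positivity) (by positivity),
      ← Real.rpow_mul (by norm_num), ← hD, hq]
    congr 2
    field_simp
  rw [hY]
  have hp1 : ((L:ℝ) + 1) ^ (r - 1) ≤ ((L:ℝ) + 1) ^ k := by
    rw [← Real.rpow_natCast]; exact Real.rpow_le_rpow_of_exponent_le hL1 hk
  have hp2 : (2 * (L:ℝ) + 2) ^ (r - 1) ≤ 2 ^ k * ((L:ℝ) + 1) ^ k := by
    rw [← mul_pow, ← Real.rpow_natCast]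
    rw [show 2 * (L:ℝ) + 2 = 2 * ((L:ℝ) + 1) by ring]
    exact Real.rpow_le_rpow_of_exponent_le (by linarith) hk
  have hsplit : (2:ℝ) ^ ((2 * κ * (r - 1) + ε) * L) = q * (2:ℝ) ^ (ε / 2 * L) := by
    rw [hq, ← Real.rpow_add (by norm_num)]; congr 1; ring
  have hkk : 1 ≤ ((L:ℝ) + 1) ^ k := one_le_pow₀ hL1
  have h6 : (2 * (L:ℝ) + 1) * (2 ^ r * ((2 * L + 1) * (D * ((L:ℝ) + 1) ^ (r - 1) * q))) + 1 ≤
      (4 * 2 ^ r * D + 1) * (((L:ℝ) + 1) ^ 2 * ((L:ℝ) + 1) ^ k) * q := by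
    have a1 : (2 * (L:ℝ) + 1) * (2 ^ r * ((2 * L + 1) * (D * ((L:ℝ) + 1) ^ (r - 1) * q))) ≤
        (2 * ((L:ℝ) + 1)) * (2 ^ r * ((2 * ((L:ℝ) + 1)) * (D * ((L:ℝ) + 1) ^ k * q))) := by
      gcongr <;> linarith
    have a2 : (1:ℝ) ≤ 1 * (((L:ℝ) + 1) ^ 2 * ((L:ℝ) + 1) ^ k) * q := by
      have : (1:ℝ) ≤ ((L:ℝ) + 1) ^ 2 := one_le_pow₀ hL1
      have h7 : (1:ℝ) ≤ ((L:ℝ) + 1) ^ 2 * ((L:ℝ) + 1) ^ k := one_le_mul_of_one_le_of_one_le this hkk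
      rw [one_mul]
      exact one_le_mul_of_one_le_of_one_le h7 hq1
    calc _ ≤ (2 * ((L:ℝ) + 1)) * (2 ^ r * ((2 * ((L:ℝ) + 1)) * (D * ((L:ℝ) + 1) ^ k * q))) +
          1 * (((L:ℝ) + 1) ^ 2 * ((L:ℝ) + 1) ^ k) * q := add_le_add a1 a2
      _ = _ := by ring
  have hq0 : 0 ≤ q := by linarith
  have hBL := hB L
  calc (2 * (L:ℝ) + 2) ^ (r - 1) * ((2 * (L:ℝ) + 1) * (2 ^ r * ((2 * L + 1) * (D * ((L:ℝ) + 1) ^ (r - 1) * q))) + 1)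
      ≤ (2 ^ k * ((L:ℝ) + 1) ^ k) * ((4 * 2 ^ r * D + 1) * (((L:ℝ) + 1) ^ 2 * ((L:ℝ) + 1) ^ k) * q) := by
        refine mul_le_mul hp2 h6 ?_ (by positivity)
        positivity
    _ = 2 ^ k * (4 * 2 ^ r * D + 1) * (((L:ℝ) + 1) ^ (2 * k + 2)) * q := by ring
    _ ≤ 2 ^ k * (4 * 2 ^ r * D + 1) * (B * (2:ℝ) ^ (ε / 2 * L)) * q := by gcongr
    _ = _ := by rw [hsplit]; ring

lemma discE {κ Np r : ℝ} (hκ : 0 ≤ κ) (hNp : 0 ≤ Np) (hK : StKTc κ Np) (hr1 : 1 < r) (hr : Np * (r - 1) ≤ 1)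
    {ε : ℝ} (hε : 0 < ε) : ∃ C : ℝ, 0 ≤ C ∧ ∀ (L : ℕ) (W : LI → ℝ≥0∞),
      (∀ x, ∑ l ∈ (Bx L).filter (fun l => l.1 = x), W l ≤ 1) → ∀ Z : Finset ((Fin 2 → ℤ) × ℕ),
      (∀ z ∈ Z, z.2 < 2 ^ L) →
      ∑ z ∈ Z, (∑ l ∈ (Bx L).filter (fun l => pos L l z.2 = z.1), W l) ^ r ≤
        ENNReal.ofReal (C * (2:ℝ) ^ ((2 * κ * (r - 1) + ε) * L) * 2 ^ L) * ∑ l ∈ Bx L, W l := by
  classical
  obtain ⟨C, hC, h⟩ := disc hκ hNp hK hr1 hr hε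
  refine ⟨C, hC, fun L W hW Z hZ => ?_⟩
  have hr0 : 0 < r := by linarith
  have hfin : ∀ l ∈ Bx L, W l ≠ ⊤ := by
    intro l hl
    have h1 : W l ≤ ∑ l' ∈ (Bx L).filter (fun l' => l'.1 = l.1), W l' :=
      Finset.single_le_sum (f := W) (fun _ _ => bot_le) (Finset.mem_filter.2 ⟨hl, rfl⟩)
    exact ne_top_of_le_ne_top ENNReal.one_ne_top (h1.trans (hW l.1))
  set w : LI → ℝ := fun l => (W l).toReal with hw
  have hw0 : ∀ l, 0 ≤ w l := fun l => ENNReal.toReal_nonneg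
  have hsum : ∀ T : Finset LI, T ⊆ Bx L → ∑ l ∈ T, W l = ENNReal.ofReal (∑ l ∈ T, w l) := by
    intro T hT
    rw [ENNReal.ofReal_sum_of_nonneg fun l _ => hw0 l]
    exact Finset.sum_congr rfl fun l hl => (ENNReal.ofReal_toReal (hfin l (hT hl))).symm
  have hb : ∀ x, ∑ l ∈ (Bx L).filter (fun l => l.1 = x), w l ≤ 1 := by
    intro x
    have h1 := hW x
    rw [hsum _ (Finset.filter_subset _ _), ← ENNReal.ofReal_one] at h1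
    exact (ENNReal.ofReal_le_ofReal_iff (by norm_num)).1 h1
  have h1 := h L w hw0 hb Z hZ
  have h2 : ∑ z ∈ Z, (∑ l ∈ (Bx L).filter (fun l => pos L l z.2 = z.1), W l) ^ r =
      ENNReal.ofReal (∑ z ∈ Z, Sz L w (Bx L) z ^ r) := by
    have hS0 : ∀ z, 0 ≤ Sz L w (Bx L) z := fun z => by unfold Sz; exact Finset.sum_nonneg fun l _ => hw0 l
    rw [ENNReal.ofReal_sum_of_nonneg (fun z _ => Real.rpow_nonneg (hS0 z) r)]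
    refine Finset.sum_congr rfl fun z _ => ?_
    rw [hsum _ (Finset.filter_subset _ _), ENNReal.ofReal_rpow_of_nonneg (Finset.sum_nonneg fun l _ => hw0 l) hr0.le]
    unfold Sz
    congr!
  rw [h2, hsum _ (Finset.Subset.refl _), ← ENNReal.ofReal_mul (by positivity)]
  refine ENNReal.ofReal_le_ofReal (h1.trans (le_of_eq (by ring)))

end Vale.Agent.P106.Q.NKC
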