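import Vale.Agent.P106.Q.NK3Cc

/-! # P106 / Q : block NK3C (helper377) -/

open MeasureTheory Complex Set
open scoped ENNReal NNReal

set_option linter.all false

namespace Vale.Agent.P106.Q.NKC

open Vale.Agent.P117.K (pos hits inP KTf StKTc)
open Vale.Agent.P106.G (grd)

abbrev Z2 := Fin 2 → ℤ

/-- the cell of `s` -/
noncomputable def fl2 (D : ℝ) (s : ℝ × ℝ) : Z2 := ![⌊D * s.1 / 4⌋, ⌊D * s.2 / 4⌋]

lemma meas_fl1 (D : ℝ) : Measurable fun t : ℝ => ⌊D * t / 4⌋ :=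
  Int.measurable_floor.comp ((measurable_const.mul measurable_id).div_const 4)

lemma meas_fl2 (D : ℝ) : Measurable (fl2 D) := by
  refine measurable_pi_lambda _ fun i => ?_
  fin_cases i
  · exact (meas_fl1 D).comp measurable_fst
  · exact (meas_fl1 D).comp measurable_snd

lemma pre1 {D : ℝ} (hD : 0 < D) (j : ℤ) : (fun t : ℝ => ⌊D * t / 4⌋) ⁻¹' {j} = Ico (4 * j / D) (4 * (j + 1) / D) := by
  ext t
  simp only [mem_preimage, mem_singleton_iff, mem_Ico, Int.floor_eq_iff]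
  rw [div_le_iff₀ hD, lt_div_iff₀ hD]
  constructor
  · rintro ⟨h1, h2⟩; constructor <;> linarith
  · rintro ⟨h1, h2⟩; constructor <;> linarith

lemma vol1 {D : ℝ} (hD : 0 < D) (j : ℤ) : volume ((fun t : ℝ => ⌊D * t / 4⌋) ⁻¹' {j}) = ENNReal.ofReal (4 / D) := by
  rw [pre1 hD, Real.volume_Ico]; congr 1; ring

lemma vol2 {D : ℝ} (hD : 0 < D) (Q : Z2) : volume (fl2 D ⁻¹' {Q}) = ENNReal.ofReal (4 / D) * ENNReal.ofReal (4 / D) := by
  have h1 : fl2 D ⁻¹' {Q} = ((fun t : ℝ => ⌊D * t / 4⌋) ⁻¹' {Q 0}) ×ˢ ((fun t : ℝ => ⌊D * t / 4⌋) ⁻¹' {Q 1}) := by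
    ext s
    simp only [mem_preimage, mem_singleton_iff, mem_prod]
    constructor
    · intro h; rw [← h]; exact ⟨rfl, rfl⟩
    · rintro ⟨h1, h2⟩
      funext i; fin_cases i
      · exact h1
      · exact h2
  rw [h1, Measure.volume_eq_prod, Measure.prod_prod, vol1 hD, vol1 hD]

lemma int1 {D : ℝ} (hD : 0 < D) (g : ℤ → ℝ≥0∞) : ∫⁻ t : ℝ, g ⌊D * t / 4⌋ = ENNReal.ofReal (4 / D) * ∑' j, g j := by
  have h1 : ∫⁻ t : ℝ, g ⌊D * t / 4⌋ = ∫⁻ j, g j ∂(Measure.map (fun t : ℝ => ⌊D * t / 4⌋) volume) :=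
    (lintegral_map (measurable_of_countable g) (meas_fl1 D)).symm
  rw [h1, lintegral_countable', ← ENNReal.tsum_mul_left]
  refine tsum_congr fun j => ?_
  rw [Measure.map_apply (meas_fl1 D) (measurableSet_singleton j), vol1 hD, mul_comm]

lemma int2 {D : ℝ} (hD : 0 < D) (g : Z2 → ℝ≥0∞) :
    ∫⁻ s : ℝ × ℝ, g (fl2 D s) = ENNReal.ofReal (4 / D) * ENNReal.ofReal (4 / D) * ∑' Q, g Q := by
  have h1 : ∫⁻ s : ℝ × ℝ, g (fl2 D s) = ∫⁻ Q, g Q ∂(Measure.map (fl2 D) volume) :=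
    (lintegral_map (measurable_of_countable g) (meas_fl2 D)).symm
  rw [h1, lintegral_countable', ← ENNReal.tsum_mul_left]
  refine tsum_congr fun Q => ?_
  rw [Measure.map_apply (meas_fl2 D) (measurableSet_singleton Q), vol2 hD, mul_comm]

/-- the discrete slope of `k` -/
noncomputable def yk (L N : ℕ) (k : ℤ × ℤ) : Z2 := ![⌊(2:ℝ) ^ L * (k.1 / N)⌋, ⌊(2:ℝ) ^ L * (k.2 / N)⌋]

lemma grd_bds {N : ℕ} (hN : 1 ≤ N) {k : ℤ × ℤ} (hk : k ∈ grd N) :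
    (0 ≤ (k.1:ℝ) / N ∧ (k.1:ℝ) / N < 1) ∧ (0 ≤ (k.2:ℝ) / N ∧ (k.2:ℝ) / N < 1) := by
  have hN' : (0:ℝ) < N := by exact_mod_cast hN
  have h : (0 ≤ k.1 ∧ k.1 < N) ∧ (0 ≤ k.2 ∧ k.2 < N) := by
    simpa [grd, Finset.mem_product, Finset.mem_Ico] using hk
  have h1 : (0:ℝ) ≤ k.1 := by exact_mod_cast h.1.1
  have h2 : (k.1:ℝ) < N := by exact_mod_cast h.1.2
  have h3 : (0:ℝ) ≤ k.2 := by exact_mod_cast h.2.1
  have h4 : (k.2:ℝ) < N := by exact_mod_cast h.2.2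
  exact ⟨⟨by positivity, by rw [div_lt_one hN']; exact h2⟩, ⟨by positivity, by rw [div_lt_one hN']; exact h4⟩⟩

lemma yk_bds {L N : ℕ} (hN : 1 ≤ N) {k : ℤ × ℤ} (hk : k ∈ grd N) (i : Fin 2) :
    0 ≤ yk L N k i ∧ yk L N k i < 2 ^ L := by
  obtain ⟨⟨h1, h2⟩, h3, h4⟩ := grd_bds hN hk
  have h2L : (0:ℝ) < 2 ^ L := by positivity
  fin_cases i
  · show 0 ≤ ⌊(2:ℝ) ^ L * (k.1 / N)⌋ ∧ ⌊(2:ℝ) ^ L * (k.1 / N)⌋ < 2 ^ L
    refine ⟨Int.floor_nonneg.2 (by positivity), Int.floor_lt.2 ?_⟩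
    push_cast; nlinarith
  · show 0 ≤ ⌊(2:ℝ) ^ L * (k.2 / N)⌋ ∧ ⌊(2:ℝ) ^ L * (k.2 / N)⌋ < 2 ^ L
    refine ⟨Int.floor_nonneg.2 (by positivity), Int.floor_lt.2 ?_⟩
    push_cast; nlinarith

/-- scalar comparison of positions -/
lemma pos_close {D : ℕ} (hD : 0 < D) {t s v : ℝ} {τ : ℤ} (hτ0 : 0 ≤ τ) (hτ : τ < D) (hv0 : 0 ≤ v) (hv1 : v < 1)
    (ht : ⌊(D:ℝ) * t / 4⌋ = τ) {Q : ℤ} (hs : ⌊(D:ℝ) * s / 4⌋ = Q) :
    |(s - t * v) - 4 / D * ((Q:ℝ) - ((τ * ⌊(D:ℝ) * v⌋ / D : ℤ) : ℝ))| ≤ 12 / D := by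
  have hDr : (0:ℝ) < D := by exact_mod_cast hD
  have hDz : (0:ℤ) < D := by exact_mod_cast hD
  obtain ⟨a1, a2⟩ := Int.floor_eq_iff.1 ht
  obtain ⟨b1, b2⟩ := Int.floor_eq_iff.1 hs
  have c1 := Int.floor_le ((D:ℝ) * v)
  have c2 := Int.lt_floor_add_one ((D:ℝ) * v)
  set y : ℤ := ⌊(D:ℝ) * v⌋ with hy
  have d1 : ((τ * y / D : ℤ) : ℝ) * D ≤ τ * y := by
    have := Int.ediv_mul_le (τ * y) hDz.ne'
    exact_mod_cast this
  have d2 : (τ * y : ℝ) < (((τ * y / D : ℤ) : ℝ) + 1) * D := by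
    have := Int.lt_ediv_add_one_mul_self (τ * y) hDz
    exact_mod_cast this
  set q : ℝ := ((τ * y / D : ℤ) : ℝ) with hq
  have hτr0 : (0:ℝ) ≤ τ := by exact_mod_cast hτ0
  have hτr1 : (τ:ℝ) ≤ D := by exact_mod_cast hτ.le
  -- multiply by D/4
  have key : |(D:ℝ) * s / 4 - (D:ℝ) * t / 4 * v - (Q - q)| ≤ 3 := by
    have e1 : (D:ℝ) * t / 4 * v ≤ (τ + 1) * v := by nlinarith
    have e1' : (τ:ℝ) * v ≤ (D:ℝ) * t / 4 * v := by nlinarith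
    have e2 : (τ:ℝ) * v - 1 ≤ q + 1 := by
      -- τ v ≤ τ (y+1)/D ≤ (τ y)/D + 1 ≤ q + 1 + 1
      have f1 : (τ:ℝ) * (D * v) ≤ τ * (y + 1) := by nlinarith
      have f2 : (τ:ℝ) * (y + 1) ≤ (q + 1) * D + D := by nlinarith
      have f3 : ((τ:ℝ) * v) * D ≤ (q + 2) * D := by nlinarith
      have := le_of_mul_le_mul_right f3 hDr
      linarith
    have e3 : q ≤ (τ:ℝ) * v := by
      have f1 : (τ:ℝ) * y ≤ τ * (D * v) := by nlinarith
      have f2 : q * D ≤ ((τ:ℝ) * v) * D := by nlinarith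
      exact le_of_mul_le_mul_right f2 hDr
    rw [abs_le]
    constructor
    · nlinarith
    · nlinarith
  have e : (s - t * v) - 4 / D * ((Q:ℝ) - q) = 4 / D * ((D:ℝ) * s / 4 - (D:ℝ) * t / 4 * v - (Q - q)) := by
    field_simp
  rw [e, abs_mul, abs_of_pos (by positivity)]
  calc 4 / (D:ℝ) * |(D:ℝ) * s / 4 - (D:ℝ) * t / 4 * v - (Q - q)| ≤ 4 / D * 3 := by gcongr
    _ = 12 / D := by ring

/-- the point with index `x` -/
noncomputable def pnt (L : ℕ) (x : Z2) : ℝ × ℝ := (4 / 2 ^ L * (x 0), 4 / 2 ^ L * (x 1))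

/-- weights of the lines of the block `m` -/
noncomputable def Wm (L N : ℕ) (μ : ℤ × ℤ → ℝ × ℝ → ℝ≥0∞) (m : Z2) (l : LI) : ℝ≥0∞ := by
  classical exact ∑ k ∈ (grd N).filter (fun k => yk L N k = l.2), μ k (pnt L (fun i => 2 ^ L * m i + l.1 i))

/-- sum of the weights of the block `m` through `z` -/
noncomputable def Gm (L N : ℕ) (μ : ℤ × ℤ → ℝ × ℝ → ℝ≥0∞) (m : Z2) (P : Z2) (τ : ℕ) : ℝ≥0∞ := by
  classical exact ∑ l ∈ (Bx L).filter (fun l => pos L l τ = P), Wm L N μ m l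

lemma Wm_base' {L N : ℕ} {μ : ℤ × ℤ → ℝ × ℝ → ℝ≥0∞} (m x : Z2) :
    ∑ l ∈ (Bx L).filter (fun l => l.1 = x), Wm L N μ m l ≤ ∑ k ∈ grd N, μ k (pnt L (fun i => 2 ^ L * m i + x i)) := by
  classical
  set B : Finset Z2 := Fintype.piFinset fun _ => Finset.Ico (0:ℤ) (2 ^ L) with hB
  have h1 : ∑ l ∈ (Bx L).filter (fun l => l.1 = x), Wm L N μ m l ≤
      ∑ y ∈ B, ∑ k ∈ (grd N).filter (fun k => yk L N k = y), μ k (pnt L (fun i => 2 ^ L * m i + x i)) := by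
    have h2 : ∑ l ∈ (Bx L).filter (fun l => l.1 = x), Wm L N μ m l =
        ∑ l ∈ (Bx L).filter (fun l => l.1 = x),
          ∑ k ∈ (grd N).filter (fun k => yk L N k = l.2), μ k (pnt L (fun i => 2 ^ L * m i + x i)) := by
      refine Finset.sum_congr rfl fun l hl => ?_
      rw [Finset.mem_filter] at hl
      unfold Wm
      rw [hl.2]
    rw [h2]
    have h3 : ∑ l ∈ (Bx L).filter (fun l => l.1 = x),
          ∑ k ∈ (grd N).filter (fun k => yk L N k = l.2), μ k (pnt L (fun i => 2 ^ L * m i + x i)) =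
        ∑ y ∈ ((Bx L).filter (fun l => l.1 = x)).image Prod.snd,
          ∑ k ∈ (grd N).filter (fun k => yk L N k = y), μ k (pnt L (fun i => 2 ^ L * m i + x i)) := by
      rw [Finset.sum_image]
      intro l hl l' hl' e
      rw [Finset.mem_coe, Finset.mem_filter] at hl hl'
      exact Prod.ext (hl.2.trans hl'.2.symm) e
    rw [h3]
    refine Finset.sum_le_sum_of_subset ?_
    intro y hy
    obtain ⟨l, hl, rfl⟩ := Finset.mem_image.1 hy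
    have := (Finset.mem_filter.1 hl).1
    rw [Bx, Finset.mem_product] at this
    exact this.2
  refine h1.trans ?_
  rw [← Finset.sum_biUnion]
  · refine Finset.sum_le_sum_of_subset ?_
    intro k hk
    obtain ⟨y, _, hy⟩ := Finset.mem_biUnion.1 hk
    exact (Finset.mem_filter.1 hy).1
  · intro y _ y' _ hyy
    refine Finset.disjoint_left.2 fun k hk hk' => hyy ?_
    exact (Finset.mem_filter.1 hk).2.symm.trans (Finset.mem_filter.1 hk').2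

lemma Wm_base {L N : ℕ} {μ : ℤ × ℤ → ℝ × ℝ → ℝ≥0∞} (hμ : ∀ s, ∑ k ∈ grd N, μ k s ≤ 1) (m x : Z2) :
    ∑ l ∈ (Bx L).filter (fun l => l.1 = x), Wm L N μ m l ≤ 1 :=
  (Wm_base' m x).trans (hμ (pnt L (fun i => 2 ^ L * m i + x i)))

end Vale.Agent.P106.Q.NKC
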