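import Vale.Agent.P106.Q.NK3Ec
import Vale.Agent.P106.Q.LevS

/-! # P106 / Q : block NK3E, the flat Nikodym estimate on `L^r`, `1 < r ≤ 5/3` -/

namespace Vale.Agent.P106.Q

/-- [NK3E] the flat Nikodym estimate with loss `1/2` -/
theorem nk3E {r : ℝ} (h1 : 1 < r) (h2 : r ≤ 5/3) : StNK3 (1/2) r :=
  nk3E_of_l h1 (stBILl stBIL3 h1 h2)

end Vale.Agent.P106.Q
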