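import Vale.Agent.P106.Q.NK3ED

/-! # P106 / Q : block NK3E, localisation of the bilinear estimate to unit squares -/

open MeasureTheory Complex Set
open scoped ENNReal NNReal

set_option linter.all false

namespace Vale.Agent.P106.Q

open Vale.Agent.P106.G

theorem nk_measWf {N : ℕ} {μ : ℤ × ℤ → ℝ × ℝ → ℝ≥0∞} (h : ∀ k, Measurable (μ k)) :
    Measurable (fun z : ℝ × (ℝ × ℝ) => Wf N μ z.1 z.2) := by
  unfold Wf
  apply Finset.measurable_sum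
  intro k _
  apply (h k).comp
  exact Measurable.prodMk
    ((measurable_fst.comp measurable_snd).sub (measurable_fst.mul measurable_const))
    ((measurable_snd.comp measurable_snd).sub (measurable_fst.mul measurable_const))

/-- integer vector as a point of the plane -/
noncomputable def zc (m : ℤ × ℤ) : ℝ × ℝ := ((m.1:ℝ), (m.2:ℝ))

/-- the unit square -/
def sq1 : Set (ℝ × ℝ) := {s | (0 ≤ s.1 ∧ s.1 < 1) ∧ (0 ≤ s.2 ∧ s.2 < 1)}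

/-- the box containing the base points -/
def sq5 : Set (ℝ × ℝ) := {s | (-4 ≤ s.1 ∧ s.1 < 1) ∧ (-4 ≤ s.2 ∧ s.2 < 1)}

theorem nk_ms_sq1 : MeasurableSet sq1 := by
  have : sq1 = Ico (0:ℝ) 1 ×ˢ Ico (0:ℝ) 1 := by
    ext s; simp only [sq1, mem_setOf_eq, mem_prod, mem_Ico]
  rw [this]
  exact measurableSet_Ico.prod measurableSet_Ico

theorem nk_ms_sq5 : MeasurableSet sq5 := by
  have : sq5 = Ico (-4:ℝ) 1 ×ˢ Ico (-4:ℝ) 1 := by
    ext s; simp only [sq5, mem_setOf_eq, mem_prod, mem_Ico]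
  rw [this]
  exact measurableSet_Ico.prod measurableSet_Ico

theorem nk_tile_le {f : ℝ × ℝ → ℝ≥0∞} (hf : Measurable f) :
    ∫⁻ s, f s ≤ ∑' m : ℤ × ℤ, ∫⁻ s, sq1.indicator (fun s => f (s + zc m)) s := by
  have h1 : ∀ m : ℤ × ℤ, ∫⁻ s, sq1.indicator (fun s => f (s + zc m)) s =
      ∫⁻ s, sq1.indicator (fun _ => (1:ℝ≥0∞)) (s - zc m) * f s := by
    intro m
    rw [← lintegral_add_right_eq_self (fun s => sq1.indicator (fun _ => (1:ℝ≥0∞)) (s - zc m) * f s) (zc m)]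
    apply lintegral_congr
    intro s
    by_cases hs : s ∈ sq1
    · simp [hs]
    · simp [hs]
  simp only [h1]
  rw [← lintegral_tsum]
  · apply lintegral_mono
    intro s
    show f s ≤ _
    refine le_trans ?_ (ENNReal.le_tsum ((⌊s.1⌋, ⌊s.2⌋) : ℤ × ℤ))
    rw [indicator_of_mem, one_mul]
    simp only [sq1, zc, mem_setOf_eq, Prod.fst_sub, Prod.snd_sub]
    refine ⟨⟨?_, ?_⟩, ⟨?_, ?_⟩⟩
    · linarith [Int.floor_le s.1]
    · linarith [Int.lt_floor_add_one s.1]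
    · linarith [Int.floor_le s.2]
    · linarith [Int.lt_floor_add_one s.2]
  · intro m
    apply Measurable.aemeasurable
    exact ((measurable_const.indicator nk_ms_sq1).comp (measurable_id.sub_const _)).mul hf

theorem nk_tile_ge {f : ℝ × ℝ → ℝ≥0∞} (hf : Measurable f) :
    ∑' m : ℤ × ℤ, ∫⁻ s, sq5.indicator (fun s => f (s + zc m)) s ≤ 25 * ∫⁻ s, f s := by
  have h1 : ∀ m : ℤ × ℤ, ∫⁻ s, sq5.indicator (fun s => f (s + zc m)) s =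
      ∫⁻ s, sq5.indicator (fun _ => (1:ℝ≥0∞)) (s - zc m) * f s := by
    intro m
    rw [← lintegral_add_right_eq_self (fun s => sq5.indicator (fun _ => (1:ℝ≥0∞)) (s - zc m) * f s) (zc m)]
    apply lintegral_congr
    intro s
    by_cases hs : s ∈ sq5
    · simp [hs]
    · simp [hs]
  simp only [h1]
  rw [← lintegral_tsum]
  · rw [← lintegral_const_mul _ hf]
    apply lintegral_mono
    intro s
    show ∑' m : ℤ × ℤ, sq5.indicator (fun _ => (1:ℝ≥0∞)) (s - zc m) * f s ≤ 25 * f s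
    rw [ENNReal.tsum_mul_right]
    gcongr
    rw [tsum_eq_sum (s := Finset.Icc (⌊s.1⌋ : ℤ) (⌊s.1⌋ + 4) ×ˢ Finset.Icc (⌊s.2⌋ : ℤ) (⌊s.2⌋ + 4))]
    · calc ∑ m ∈ Finset.Icc (⌊s.1⌋ : ℤ) (⌊s.1⌋ + 4) ×ˢ Finset.Icc (⌊s.2⌋ : ℤ) (⌊s.2⌋ + 4),
            sq5.indicator (fun _ => (1:ℝ≥0∞)) (s - zc m)
          ≤ ∑ m ∈ Finset.Icc (⌊s.1⌋ : ℤ) (⌊s.1⌋ + 4) ×ˢ Finset.Icc (⌊s.2⌋ : ℤ) (⌊s.2⌋ + 4), (1:ℝ≥0∞) := by
            apply Finset.sum_le_sum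
            intro m _
            exact indicator_le_self' (fun _ _ => zero_le') _
        _ = 25 := by
            rw [Finset.sum_const, Finset.card_product, Int.card_Icc, Int.card_Icc]
            have e1 : (⌊s.1⌋ + 4 + 1 - ⌊s.1⌋).toNat = 5 := by
              have : ⌊s.1⌋ + 4 + 1 - ⌊s.1⌋ = 5 := by ring
              rw [this]; rfl
            have e2 : (⌊s.2⌋ + 4 + 1 - ⌊s.2⌋).toNat = 5 := by
              have : ⌊s.2⌋ + 4 + 1 - ⌊s.2⌋ = 5 := by ring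
              rw [this]; rfl
            rw [e1, e2]
            norm_num
    · intro m hm
      apply indicator_of_notMem
      intro h
      apply hm
      simp only [sq5, zc, mem_setOf_eq, Prod.fst_sub, Prod.snd_sub] at h
      have key : ∀ (x : ℝ) (a : ℤ), -4 ≤ x - a → x - a < 1 → ⌊x⌋ ≤ a ∧ a ≤ ⌊x⌋ + 4 := by
        intro x a h1 h2
        constructor
        · have h3 : (⌊x⌋:ℝ) < a + 1 := by linarith [Int.floor_le x]
          have h4 : ⌊x⌋ < a + 1 := by exact_mod_cast h3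
          omega
        · have h3 : (a:ℝ) < ⌊x⌋ + 1 + 4 := by linarith [Int.lt_floor_add_one x]
          have h4 : a < ⌊x⌋ + 1 + 4 := by exact_mod_cast h3
          omega
      rw [Finset.mem_product, Finset.mem_Icc, Finset.mem_Icc]
      exact ⟨key _ _ h.1.1 h.1.2, key _ _ h.2.1 h.2.2⟩
  · intro m
    apply Measurable.aemeasurable
    exact ((measurable_const.indicator nk_ms_sq5).comp (measurable_id.sub_const _)).mul hf

/-- the localised and translated family -/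
noncomputable def locm (m : ℤ × ℤ) (μ : ℤ × ℤ → ℝ × ℝ → ℝ≥0∞) : ℤ × ℤ → ℝ × ℝ → ℝ≥0∞ :=
  fun k => sq5.indicator (fun s => μ k (s + zc m))

theorem nk_fl_add {N : ℕ} {x y : ℝ} (h : ⌊(N:ℝ) * x⌋ = ⌊(N:ℝ) * y⌋) (a : ℤ) :
    ⌊(N:ℝ) * (x + a)⌋ = ⌊(N:ℝ) * (y + a)⌋ := by
  have e1 : (N:ℝ) * (x + a) = N * x + ((N * a : ℤ) : ℝ) := by push_cast; ring
  have e2 : (N:ℝ) * (y + a) = N * y + ((N * a : ℤ) : ℝ) := by push_cast; ring
  rw [e1, e2, Int.floor_add_intCast, Int.floor_add_intCast, h]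

theorem nk_sq5_fl {N : ℕ} (hN : 1 ≤ N) {s s' : ℝ × ℝ} (h1 : ⌊(N:ℝ) * s.1⌋ = ⌊(N:ℝ) * s'.1⌋)
    (h2 : ⌊(N:ℝ) * s.2⌋ = ⌊(N:ℝ) * s'.2⌋) (hs : s ∈ sq5) : s' ∈ sq5 := by
  have hN' : (0:ℝ) < N := by exact_mod_cast hN
  have key : ∀ (x y : ℝ), ⌊(N:ℝ) * x⌋ = ⌊(N:ℝ) * y⌋ → (-4 ≤ x ∧ x < 1) → (-4 ≤ y ∧ y < 1) := by
    intro x y hxy hx
    constructor
    · have h1 : ((-4 * N : ℤ) : ℝ) ≤ N * x := by push_cast; nlinarith [hx.1]
      have h2 : (-4 * N : ℤ) ≤ ⌊(N:ℝ) * x⌋ := Int.le_floor.2 h1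
      rw [hxy] at h2
      have h3 := Int.le_floor.1 h2
      push_cast at h3
      by_contra hc
      push Not at hc
      nlinarith
    · have h1 : (N:ℝ) * x < ((N:ℤ):ℝ) := by push_cast; nlinarith [hx.2]
      have h2 : ⌊(N:ℝ) * x⌋ < (N:ℤ) := Int.floor_lt.2 h1
      rw [hxy] at h2
      have h3 := Int.floor_lt.1 h2
      push_cast at h3
      by_contra hc
      push Not at hc
      nlinarith
  exact ⟨key _ _ h1 hs.1, key _ _ h2 hs.2⟩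

theorem nk_locm_meas {m : ℤ × ℤ} {μ : ℤ × ℤ → ℝ × ℝ → ℝ≥0∞} (h : ∀ k, Measurable (μ k)) (k : ℤ × ℤ) :
    Measurable (locm m μ k) :=
  ((h k).comp (measurable_id.add_const _)).indicator nk_ms_sq5

theorem nk_locm_int {m : ℤ × ℤ} {μ : ℤ × ℤ → ℝ × ℝ → ℝ≥0∞} (k : ℤ × ℤ) :
    ∫⁻ s, locm m μ k s ≤ ∫⁻ s, μ k s := by
  calc ∫⁻ s, locm m μ k s ≤ ∫⁻ s, μ k (s + zc m) :=
        lintegral_mono fun s => indicator_le_self' (fun _ _ => zero_le') _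
    _ = ∫⁻ s, μ k s := lintegral_add_right_eq_self (μ k) (zc m)

theorem nk_locm_den {C0 : ℝ} {N : ℕ} {μ : ℤ × ℤ → ℝ × ℝ → ℝ≥0∞} (hN : 1 ≤ N) (h : DenF C0 N μ) (m : ℤ × ℤ) :
    DenF C0 N (locm m μ) where
  meas := nk_locm_meas h.meas
  slow := by
    intro k s s' hs1 hs2
    by_cases h1 : s ∈ sq5
    · have h2 := nk_sq5_fl hN hs1 hs2 h1
      simp only [locm, indicator_of_mem h1, indicator_of_mem h2]
      exact h.slow k _ _ (nk_fl_add hs1 m.1) (nk_fl_add hs2 m.2)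
    · simp only [locm, indicator_of_notMem h1]
      exact zero_le'
  sum := by
    intro s
    refine le_trans (Finset.sum_le_sum fun k _ => ?_) (h.sum (s + zc m))
    exact indicator_le_self' (fun _ _ => zero_le') _
  fin := lt_of_le_of_lt (Finset.sum_le_sum fun k _ => nk_locm_int k) h.fin

theorem nk_Wf_loc {N : ℕ} (hN : 1 ≤ N) (μ : ℤ × ℤ → ℝ × ℝ → ℝ≥0∞) (m : ℤ × ℤ) {t : ℝ} (h0 : 0 ≤ t) (h4 : t ≤ 4)
    {s : ℝ × ℝ} (hs : s ∈ sq1) : Wf N μ t (s + zc m) = Wf N (locm m μ) t s := by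
  have hN' : (0:ℝ) < N := by exact_mod_cast hN
  unfold Wf
  apply Finset.sum_congr rfl
  intro k hk
  simp only [grd, Finset.mem_product, Finset.mem_Ico] at hk
  have key : ∀ (x : ℝ) (a : ℤ), 0 ≤ a → a < N → 0 ≤ x → x < 1 → -4 ≤ x - t * (a / N) ∧ x - t * (a / N) < 1 := by
    intro x a ha haN hx hx1
    have h1 : (0:ℝ) ≤ a / N := by
      apply div_nonneg _ hN'.le
      exact_mod_cast ha
    have h2 : (a:ℝ) / N ≤ 1 := by
      rw [div_le_one hN']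
      exact_mod_cast haN.le
    constructor
    · nlinarith
    · nlinarith
  have hmem : (s.1 - t * (k.1 / N), s.2 - t * (k.2 / N)) ∈ sq5 :=
    ⟨key _ _ hk.1.1 hk.1.2 hs.1.1 hs.1.2, key _ _ hk.2.1 hk.2.2 hs.2.1 hs.2.2⟩
  simp only [locm, indicator_of_mem hmem]
  congr 1
  ext
  · simp only [zc, Prod.fst_add]; ring
  · simp only [zc, Prod.snd_add]; ring

theorem nk_sep_loc {c : ℝ} {N : ℕ} {μ1 μ2 : ℤ × ℤ → ℝ × ℝ → ℝ≥0∞} (h : SepG c N μ1 μ2) (m : ℤ × ℤ) :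
    SepG c N (locm m μ1) (locm m μ2) := by
  intro k hk k' hk' h1 h2
  have key : ∀ (μ : ℤ × ℤ → ℝ × ℝ → ℝ≥0∞) (k : ℤ × ℤ), (∃ s, locm m μ k s ≠ 0) → ∃ s, μ k s ≠ 0 := by
    rintro μ k ⟨s, hs⟩
    by_cases h1 : s ∈ sq5
    · simp only [locm, indicator_of_mem h1] at hs
      exact ⟨_, hs⟩
    · simp only [locm, indicator_of_notMem h1] at hs
      exact absurd rfl hs
  exact h k hk k' hk' (key _ _ h1) (key _ _ h2)

theorem nk_supp_loc (m : ℤ × ℤ) (μ : ℤ × ℤ → ℝ × ℝ → ℝ≥0∞) (k : ℤ × ℤ) (s : ℝ × ℝ) (h : locm m μ k s ≠ 0) :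
    |s.1| ≤ 10 ∧ |s.2| ≤ 10 := by
  by_cases h1 : s ∈ sq5
  · simp only [sq5, mem_setOf_eq] at h1
    rw [abs_le, abs_le]
    refine ⟨⟨?_, ?_⟩, ⟨?_, ?_⟩⟩ <;> linarith [h1.1.1, h1.1.2, h1.2.1, h1.2.2]
  · simp only [locm, indicator_of_notMem h1] at h
    exact absurd rfl h

theorem nk_sum_loc {N : ℕ} {μ : ℤ × ℤ → ℝ × ℝ → ℝ≥0∞} (h : ∀ k, Measurable (μ k)) :
    ∑' m : ℤ × ℤ, ∑ k ∈ grd N, ∫⁻ s, locm m μ k s ≤ 25 * ∑ k ∈ grd N, ∫⁻ s, μ k s := by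
  rw [Summable.tsum_finsetSum (fun _ _ => ENNReal.summable), Finset.mul_sum]
  apply Finset.sum_le_sum
  intro k _
  exact nk_tile_ge (h k)

theorem nk_meas_prod {r : ℝ} {N : ℕ} {μ1 μ2 : ℤ × ℤ → ℝ × ℝ → ℝ≥0∞} (h1 : ∀ k, Measurable (μ1 k))
    (h2 : ∀ k, Measurable (μ2 k)) :
    Measurable (fun z : ℝ × (ℝ × ℝ) => (Wf N μ1 z.1 z.2 * Wf N μ2 z.1 z.2) ^ (r / 2)) :=
  ((nk_measWf h1).mul (nk_measWf h2)).pow_const _

theorem nk_measWs {N : ℕ} {μ : ℤ × ℤ → ℝ × ℝ → ℝ≥0∞} (h : ∀ k, Measurable (μ k)) (t : ℝ) :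
    Measurable (Wf N μ t) := by
  unfold Wf
  apply Finset.measurable_sum
  intro k _
  apply (h k).comp
  exact Measurable.prodMk (measurable_fst.sub measurable_const) (measurable_snd.sub measurable_const)

theorem nk_meas_slice {r : ℝ} {N : ℕ} {μ1 μ2 : ℤ × ℤ → ℝ × ℝ → ℝ≥0∞} (h1 : ∀ k, Measurable (μ1 k))
    (h2 : ∀ k, Measurable (μ2 k)) (t : ℝ) :
    Measurable (fun s : ℝ × ℝ => (Wf N μ1 t s * Wf N μ2 t s) ^ (r / 2)) :=
  ((nk_measWs h1 t).mul (nk_measWs h2 t)).pow_const _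

theorem nk_time_le {r : ℝ} {N : ℕ} (hN : 1 ≤ N) {μ1 μ2 : ℤ × ℤ → ℝ × ℝ → ℝ≥0∞} (h1 : ∀ k, Measurable (μ1 k))
    (h2 : ∀ k, Measurable (μ2 k)) {t : ℝ} (h0 : 0 ≤ t) (h4 : t ≤ 4) :
    ∫⁻ s, (Wf N μ1 t s * Wf N μ2 t s) ^ (r / 2) ≤
      ∑' m : ℤ × ℤ, ∫⁻ s, (Wf N (locm m μ1) t s * Wf N (locm m μ2) t s) ^ (r / 2) := by
  refine le_trans (nk_tile_le (nk_meas_slice h1 h2 t)) ?_
  apply ENNReal.tsum_le_tsum
  intro m
  apply lintegral_mono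
  intro s
  show sq1.indicator (fun s => (Wf N μ1 t (s + zc m) * Wf N μ2 t (s + zc m)) ^ (r / 2)) s ≤
    (Wf N (locm m μ1) t s * Wf N (locm m μ2) t s) ^ (r / 2)
  by_cases hs : s ∈ sq1
  · rw [indicator_of_mem hs, nk_Wf_loc hN μ1 m h0 h4 hs, nk_Wf_loc hN μ2 m h0 h4 hs]
  · rw [indicator_of_notMem hs]
    exact zero_le'

theorem nk_step1 {r : ℝ} {N : ℕ} (hN : 1 ≤ N) {μ1 μ2 : ℤ × ℤ → ℝ × ℝ → ℝ≥0∞} (h1 : ∀ k, Measurable (μ1 k))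
    (h2 : ∀ k, Measurable (μ2 k)) :
    ∫⁻ t in Icc (1/2 : ℝ) 4, ∫⁻ s, (Wf N μ1 t s * Wf N μ2 t s) ^ (r / 2) ≤
      ∑' m : ℤ × ℤ, ∫⁻ t in Icc (1/2 : ℝ) 4, ∫⁻ s, (Wf N (locm m μ1) t s * Wf N (locm m μ2) t s) ^ (r / 2) := by
  have hG : ∀ m : ℤ × ℤ, Measurable (fun t : ℝ =>
      ∫⁻ s, (Wf N (locm m μ1) t s * Wf N (locm m μ2) t s) ^ (r / 2)) := fun m =>
    (nk_meas_prod (nk_locm_meas h1) (nk_locm_meas h2)).lintegral_prod_right'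
  rw [← lintegral_tsum (fun m => (hG m).aemeasurable)]
  apply setLIntegral_mono' measurableSet_Icc
  intro t ht
  exact nk_time_le hN h1 h2 (by linarith [ht.1]) ht.2

theorem stBILg {r : ℝ} (h : StBILl r) : StBILg r := by
  intro c C0 ε hc hC0 hε
  obtain ⟨C, hC, H⟩ := h c C0 ε hc hC0 hε
  refine ⟨25 * C, by positivity, ?_⟩
  intro N μ1 μ2 hN h1 h2 hsep
  have h25 : ENNReal.ofReal (25 * C * (N:ℝ) ^ ((r - 1) / 2 + ε)) =
      ENNReal.ofReal (C * (N:ℝ) ^ ((r - 1) / 2 + ε)) * 25 := by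
    have e : (25:ℝ≥0∞) = ENNReal.ofReal 25 := by norm_num
    rw [e, mul_comm (ENNReal.ofReal (C * (N:ℝ) ^ ((r - 1) / 2 + ε))), ← ENNReal.ofReal_mul (by norm_num), mul_assoc]
  rw [h25]
  generalize hA : ENNReal.ofReal (C * (N:ℝ) ^ ((r - 1) / 2 + ε)) = A at *
  have s3 : ∀ m : ℤ × ℤ, ∫⁻ t in Icc (1/2 : ℝ) 4, ∫⁻ s, (Wf N (locm m μ1) t s * Wf N (locm m μ2) t s) ^ (r / 2)
      ≤ A * ((∑ k ∈ grd N, ∫⁻ s, locm m μ1 k s) + (∑ k ∈ grd N, ∫⁻ s, locm m μ2 k s)) := by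
    intro m
    rw [← hA]
    exact H N (locm m μ1) (locm m μ2) hN (nk_locm_den hN h1 m) (nk_locm_den hN h2 m) (nk_sep_loc hsep m)
      (nk_supp_loc m μ1) (nk_supp_loc m μ2)
  refine (nk_step1 hN h1.meas h2.meas).trans ((ENNReal.tsum_le_tsum s3).trans ?_)
  rw [ENNReal.tsum_mul_left, mul_assoc]
  refine mul_le_mul_right ?_ A
  have h5 : ∑' m : ℤ × ℤ, ((∑ k ∈ grd N, ∫⁻ s, locm m μ1 k s) + (∑ k ∈ grd N, ∫⁻ s, locm m μ2 k s)) =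
    (∑' m : ℤ × ℤ, ∑ k ∈ grd N, ∫⁻ s, locm m μ1 k s) + ∑' m : ℤ × ℤ, ∑ k ∈ grd N, ∫⁻ s, locm m μ2 k s := ENNReal.tsum_add
  rw [h5, mul_add]
  exact add_le_add (nk_sum_loc h1.meas) (nk_sum_loc h2.meas)

end Vale.Agent.P106.Q
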