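import Vale.Agent.P106.Q.NK3Ea

/-! # P106 / Q : block NK3E, from two families to two caps -/

open MeasureTheory Complex Set
open scoped ENNReal NNReal

set_option linter.all false

namespace Vale.Agent.P106.Q

open Vale.Agent.P106.G

/-- the part of a family with directions in the cap `b` -/
noncomputable def nkc (K N : ℕ) (b : ℤ × ℤ) (μ : ℤ × ℤ → ℝ × ℝ → ℝ≥0∞) : ℤ × ℤ → ℝ × ℝ → ℝ≥0∞ :=
  fun k s => if capK K N k = b then μ k s else 0

theorem nkc_Wb (K N : ℕ) (μ : ℤ × ℤ → ℝ × ℝ → ℝ≥0∞) (b : ℤ × ℤ) (t : ℝ) (s : ℝ × ℝ) :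
    Wb K N μ b t s = Wf N (nkc K N b μ) t s := by
  unfold Wb Wf grb nkc
  rw [Finset.sum_filter]

theorem nkc_le (K N : ℕ) (μ : ℤ × ℤ → ℝ × ℝ → ℝ≥0∞) (b k : ℤ × ℤ) (s : ℝ × ℝ) : nkc K N b μ k s ≤ μ k s := by
  unfold nkc
  split_ifs
  · exact le_refl _
  · exact zero_le'

theorem nkc_den {C0 : ℝ} {K N : ℕ} {μ : ℤ × ℤ → ℝ × ℝ → ℝ≥0∞} (hN : 1 ≤ N) (h : Den3 C0 N μ) (b : ℤ × ℤ) :
    DenF C0 N (nkc K N b μ) where
  meas := by
    intro k
    unfold nkc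
    split_ifs
    · exact h.meas k
    · exact measurable_const
  slow := by
    have hN' : (0:ℝ) < N := by exact_mod_cast hN
    have key : ∀ x y : ℝ, ⌊(N:ℝ) * x⌋ = ⌊(N:ℝ) * y⌋ → |x - y| ≤ 1 / (N:ℝ) := by
      intro x y hxy
      have h1 := Int.abs_sub_lt_one_of_floor_eq_floor hxy
      rw [← mul_sub, abs_mul, abs_of_pos hN'] at h1
      rw [le_div_iff₀ hN', mul_comm]
      exact h1.le
    intro k s s' h1 h2
    unfold nkc
    split_ifs
    · exact h.slow k s s' (key _ _ h1) (key _ _ h2)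
    · exact zero_le'
  sum := fun s => le_trans (Finset.sum_le_sum fun k _ => nkc_le K N μ b k s) (h.sum s)
  fin := lt_of_le_of_lt (Finset.sum_le_sum fun k _ => lintegral_mono fun s => nkc_le K N μ b k s) h.fin

theorem nkc_sep1 {K N : ℕ} (hK : 1 ≤ K) (hN : 1 ≤ N) {k k' : ℤ} (h : 2 ≤ |k * K / N - k' * K / N|) :
    1 / (K:ℝ) ≤ |((k:ℝ) - k') / N| := by
  have hN' : (0:ℝ) < N := by exact_mod_cast hN
  have hK' : (0:ℝ) < K := by exact_mod_cast hK
  have hNZ : (0:ℤ) < N := by exact_mod_cast hN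
  have key : ∀ a a' : ℤ, 2 ≤ a * K / N - a' * K / N → 1 / (K:ℝ) ≤ ((a:ℝ) - a') / N := by
    intro a a' ha
    have h1 : a * K / N * N ≤ a * K := Int.ediv_mul_le _ hNZ.ne'
    have h2 : a' * K < (a' * K / N + 1) * N := Int.lt_ediv_add_one_mul_self _ hNZ
    have h3 : (N:ℤ) ≤ (a - a') * K := by nlinarith
    have h4 : (N:ℝ) ≤ ((a:ℝ) - a') * K := by exact_mod_cast h3
    rw [div_le_div_iff₀ hK' hN', one_mul]
    exact h4
  rcases le_abs.1 h with h | h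
  · exact (key _ _ h).trans (le_abs_self _)
  · have h5 := key k' k (by linarith)
    have h6 : ((k':ℝ) - k) / N = -(((k:ℝ) - k') / N) := by ring
    rw [h6] at h5
    exact h5.trans (neg_le_abs _)

theorem nkc_sep {K N : ℕ} (hK : 1 ≤ K) (hN : 1 ≤ N) (μ : ℤ × ℤ → ℝ × ℝ → ℝ≥0∞) {b b' : ℤ × ℤ}
    (h : 2 ≤ |b.1 - b'.1| ∨ 2 ≤ |b.2 - b'.2|) : SepG (1 / (K:ℝ)) N (nkc K N b μ) (nkc K N b' μ) := by
  intro k _ k' _ h1 h2
  have key : ∀ (c k : ℤ × ℤ), (∃ s, nkc K N c μ k s ≠ 0) → capK K N k = c := by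
    rintro c k ⟨s, hs⟩
    by_contra hc
    apply hs
    unfold nkc
    rw [if_neg hc]
  have e1 := key _ _ h1
  have e2 := key _ _ h2
  rw [← e1, ← e2] at h
  rcases h with h | h
  · exact Or.inl (nkc_sep1 hK hN h)
  · exact Or.inr (nkc_sep1 hK hN h)

/-- the bilinear term for caps from the global bilinear estimate -/
theorem stBILr_of_g {r : ℝ} (h : StBILg r) : StBILr (1/2) r := by
  intro ε C0 K hε hC0 hK
  have hK' : (0:ℝ) < K := by exact_mod_cast hK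
  obtain ⟨C, hC, H⟩ := h (1 / K) C0 ε (by positivity) hC0 hε
  refine ⟨2 * C, by positivity, ?_⟩
  intro N μ hN hμ b b' hb
  have h1 := H N (nkc K N b μ) (nkc K N b' μ) hN (nkc_den hN hμ b) (nkc_den hN hμ b') (nkc_sep hK hN μ hb)
  simp only [← nkc_Wb] at h1
  have hexp : (1/2 : ℝ) * (r - 1) + ε = (r - 1) / 2 + ε := by ring
  rw [hexp]
  have h2 : ENNReal.ofReal (2 * C * (N:ℝ) ^ ((r - 1) / 2 + ε)) =
      ENNReal.ofReal (C * (N:ℝ) ^ ((r - 1) / 2 + ε)) * 2 := by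
    have e : (2:ℝ≥0∞) = ENNReal.ofReal 2 := by norm_num
    rw [e, mul_comm (ENNReal.ofReal (C * (N:ℝ) ^ ((r - 1) / 2 + ε))), ← ENNReal.ofReal_mul (by norm_num), mul_assoc]
  rw [h2, mul_assoc]
  refine h1.trans ?_
  refine mul_le_mul_right ?_ _
  rw [two_mul]
  exact add_le_add (Finset.sum_le_sum fun k _ => lintegral_mono fun s => nkc_le K N μ b k s)
    (Finset.sum_le_sum fun k _ => lintegral_mono fun s => nkc_le K N μ b' k s)

/-- localisation: the bilinear term for caps from the local bilinear estimate -/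
theorem stBILr_of_l {r : ℝ} (h : StBILl r) : StBILr (1/2) r := stBILr_of_g (stBILg h)

end Vale.Agent.P106.Q
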