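import Vale.Agent.P106.Q.NK3Ra

/-! # P106 / Q : block NK3E, recursion: the bilinear estimate implies `StNK3` -/

open MeasureTheory Complex Set
open scoped ENNReal NNReal

set_option linter.all false

namespace Vale.Agent.P106.Q.NR

open Vale.Agent.P106.G Vale.Agent.P106.Q

theorem sum_rpow_le {ι : Type*} (S : Finset ι) (f : ι → ℝ≥0∞) {r : ℝ} (hr : 1 ≤ r) :
    (∑ i ∈ S, f i) ^ r ≤ (S.card : ℝ≥0∞) ^ (r - 1) * ∑ i ∈ S, f i ^ r :=
  ENNReal.rpow_sum_le_const_mul_sum_rpow S f hr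

/-- far caps -/
def far (b b' : ℤ × ℤ) : Prop := 2 ≤ |b.1 - b'.1| ∨ 2 ≤ |b.2 - b'.2|

instance (b b' : ℤ × ℤ) : Decidable (far b b') := by unfold far; infer_instance

/-- pointwise dichotomy -/
theorem dich {K : ℕ} (hK : 1 ≤ K) (B : Finset (ℤ × ℤ)) (hB : B.card ≤ K ^ 2) (a : ℤ × ℤ → ℝ≥0∞) (ha : ∀ b ∈ B, a b ≠ ⊤)
    {r : ℝ} (hr : 1 ≤ r) :
    (∑ b ∈ B, a b) ^ r ≤ (2:ℝ≥0∞) ^ r * (9:ℝ≥0∞) ^ (r - 1) * ∑ b ∈ B, a b ^ r +
      ((2:ℝ≥0∞) * K ^ 2) ^ r * ∑ p ∈ (B ×ˢ B).filter (fun p => far p.1 p.2), (a p.1 * a p.2) ^ (r / 2) := by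
  classical
  set W := ∑ b ∈ B, a b with hW
  have hWt : W ≠ ⊤ := ENNReal.sum_ne_top.2 ha
  have hK2 : ((2:ℝ≥0∞) * (K:ℝ≥0∞) ^ 2) ≠ 0 := by
    have : (K:ℝ≥0∞) ≠ 0 := by exact_mod_cast (by omega : K ≠ 0)
    positivity
  have hK2t : ((2:ℝ≥0∞) * (K:ℝ≥0∞) ^ 2) ≠ ⊤ := by
    refine ENNReal.mul_ne_top (by norm_num) (ENNReal.pow_ne_top (ENNReal.natCast_ne_top K))
  set S := B.filter (fun b => W ≤ (2 * (K:ℝ≥0∞) ^ 2) * a b) with hS
  -- the significant ones carry half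
  have h1 : W ≤ 2 * ∑ b ∈ S, a b := by
    have h2 : ∑ b ∈ B.filter (fun b => ¬ W ≤ (2 * (K:ℝ≥0∞) ^ 2) * a b), (2 * (K:ℝ≥0∞) ^ 2) * a b ≤ (K:ℝ≥0∞) ^ 2 * W := by
      calc ∑ b ∈ B.filter (fun b => ¬ W ≤ (2 * (K:ℝ≥0∞) ^ 2) * a b), (2 * (K:ℝ≥0∞) ^ 2) * a b
          ≤ ∑ b ∈ B.filter (fun b => ¬ W ≤ (2 * (K:ℝ≥0∞) ^ 2) * a b), W :=
            Finset.sum_le_sum fun b hb => (not_le.1 (Finset.mem_filter.1 hb).2).le
        _ = ((B.filter (fun b => ¬ W ≤ (2 * (K:ℝ≥0∞) ^ 2) * a b)).card : ℝ≥0∞) * W := by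
            rw [Finset.sum_const, nsmul_eq_mul]
        _ ≤ (K:ℝ≥0∞) ^ 2 * W := by
            gcongr
            exact_mod_cast (Finset.card_le_card (Finset.filter_subset _ _)).trans hB
    rw [← Finset.mul_sum] at h2
    have h3 : 2 * ∑ b ∈ B.filter (fun b => ¬ W ≤ (2 * (K:ℝ≥0∞) ^ 2) * a b), a b ≤ W := by
      have hk : ((K:ℝ≥0∞) ^ 2) ≠ 0 := by
        have : (K:ℝ≥0∞) ≠ 0 := by exact_mod_cast (by omega : K ≠ 0)
        positivity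
      have hkt : ((K:ℝ≥0∞) ^ 2) ≠ ⊤ := ENNReal.pow_ne_top (ENNReal.natCast_ne_top K)
      have h4 : (K:ℝ≥0∞) ^ 2 * (2 * ∑ b ∈ B.filter (fun b => ¬ W ≤ (2 * (K:ℝ≥0∞) ^ 2) * a b), a b) ≤ (K:ℝ≥0∞) ^ 2 * W := by
        refine le_trans (le_of_eq ?_) h2
        ring
      exact (ENNReal.mul_le_mul_iff_right hk hkt).1 h4
    have h5 : W = ∑ b ∈ S, a b + ∑ b ∈ B.filter (fun b => ¬ W ≤ (2 * (K:ℝ≥0∞) ^ 2) * a b), a b := by
      rw [hS, Finset.sum_filter_add_sum_filter_not]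
    have h6 : 2 * W ≤ 2 * ∑ b ∈ S, a b + W := by
      calc 2 * W = 2 * ∑ b ∈ S, a b + 2 * ∑ b ∈ B.filter (fun b => ¬ W ≤ (2 * (K:ℝ≥0∞) ^ 2) * a b), a b := by
            rw [← mul_add, ← h5]
        _ ≤ _ := by gcongr
    rw [two_mul W] at h6
    exact (ENNReal.add_le_add_iff_right hWt).1 h6
  by_cases hf : ∃ b ∈ S, ∃ b' ∈ S, far b b'
  · -- broad
    obtain ⟨b, hb, b', hb', hbb⟩ := hf
    refine le_trans ?_ le_add_self
    have g1 := (Finset.mem_filter.1 hb).2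
    have g2 := (Finset.mem_filter.1 hb').2
    have e1 : W ^ r = (W * W) ^ (r / 2) := by
      rw [ENNReal.mul_rpow_of_nonneg _ _ (by linarith), ← ENNReal.rpow_add_of_nonneg _ _ (by linarith) (by linarith)]
      congr 1; ring
    calc W ^ r = (W * W) ^ (r / 2) := e1
      _ ≤ (((2 * (K:ℝ≥0∞) ^ 2) * a b) * ((2 * (K:ℝ≥0∞) ^ 2) * a b')) ^ (r / 2) := by gcongr
      _ = ((2 * (K:ℝ≥0∞) ^ 2) * (2 * (K:ℝ≥0∞) ^ 2)) ^ (r / 2) * (a b * a b') ^ (r / 2) := by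
          rw [← ENNReal.mul_rpow_of_nonneg _ _ (by linarith)]
          congr 1; ring
      _ = ((2:ℝ≥0∞) * K ^ 2) ^ r * (a b * a b') ^ (r / 2) := by
          congr 1
          rw [ENNReal.mul_rpow_of_nonneg _ _ (by linarith), ← ENNReal.rpow_add_of_nonneg _ _ (by linarith) (by linarith)]
          congr 1; ring
      _ ≤ _ := by
          gcongr
          have hmem : (b, b') ∈ (B ×ˢ B).filter (fun p => far p.1 p.2) :=
            Finset.mem_filter.2 ⟨Finset.mem_product.2 ⟨(Finset.mem_filter.1 hb).1, (Finset.mem_filter.1 hb').1⟩, hbb⟩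
          exact Finset.single_le_sum (f := fun p : (ℤ × ℤ) × (ℤ × ℤ) => (a p.1 * a p.2) ^ (r / 2)) (fun _ _ => bot_le) hmem
  · -- narrow
    push Not at hf
    refine le_trans ?_ le_self_add
    have hc : S.card ≤ 9 := by
      rcases S.eq_empty_or_nonempty with h0 | ⟨b0, hb0⟩
      · rw [h0]; simp
      · have hsub : S ⊆ Finset.Icc (b0.1 - 1) (b0.1 + 1) ×ˢ Finset.Icc (b0.2 - 1) (b0.2 + 1) := by
          intro b hb
          have h := hf b0 hb0 b hb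
          unfold far at h
          push Not at h
          have h1 := abs_lt.1 h.1
          have h2 := abs_lt.1 h.2
          rw [Finset.mem_product, Finset.mem_Icc, Finset.mem_Icc]
          omega
        refine (Finset.card_le_card hsub).trans ?_
        rw [Finset.card_product, Int.card_Icc, Int.card_Icc]
        have e1 : b0.1 + 1 + 1 - (b0.1 - 1) = 3 := by ring
        have e2 : b0.2 + 1 + 1 - (b0.2 - 1) = 3 := by ring
        rw [e1, e2]; decide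
    calc W ^ r ≤ (2 * ∑ b ∈ S, a b) ^ r := by gcongr
      _ = 2 ^ r * (∑ b ∈ S, a b) ^ r := ENNReal.mul_rpow_of_nonneg _ _ (by linarith)
      _ ≤ 2 ^ r * ((S.card : ℝ≥0∞) ^ (r - 1) * ∑ b ∈ S, a b ^ r) := by
          gcongr
          exact sum_rpow_le S a hr
      _ ≤ 2 ^ r * ((9 : ℝ≥0∞) ^ (r - 1) * ∑ b ∈ B, a b ^ r) := by
          refine mul_le_mul' le_rfl (mul_le_mul' (ENNReal.rpow_le_rpow ?_ (by linarith))
            (Finset.sum_le_sum_of_subset (Finset.filter_subset _ _)))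
          exact_mod_cast hc
      _ = _ := by ring

variable {N K : ℕ} {μ : ℤ × ℤ → ℝ × ℝ → ℝ≥0∞} {C0 : ℝ}

theorem capK_mem (hK : 1 ≤ K) (hN : 1 ≤ N) {k : ℤ × ℤ} (hk : k ∈ grd N) : capK K N k ∈ grd K := by
  simp only [grd, Finset.mem_product, Finset.mem_Ico] at hk ⊢
  have hN0 : (0:ℤ) < N := by exact_mod_cast hN
  have hK0 : (0:ℤ) < K := by exact_mod_cast hK
  have key : ∀ x : ℤ, 0 ≤ x → x < N → 0 ≤ x * K / N ∧ x * K / N < K := by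
    intro x h0 h1
    constructor
    · exact Int.ediv_nonneg (by positivity) hN0.le
    · rw [Int.ediv_lt_iff_lt_mul hN0]; nlinarith
  exact ⟨key _ hk.1.1 hk.1.2, key _ hk.2.1 hk.2.2⟩

theorem sum_caps (hK : 1 ≤ K) (hN : 1 ≤ N) (F : ℤ × ℤ → ℝ≥0∞) :
    ∑ b ∈ grd K, ∑ k ∈ grb K N b, F k = ∑ k ∈ grd N, F k := by
  classical
  unfold grb
  exact Finset.sum_fiberwise_of_maps_to (fun k hk => capK_mem hK hN hk) F

theorem Wf_eq (hK : 1 ≤ K) (hN : 1 ≤ N) (t : ℝ) (s : ℝ × ℝ) : Wf N μ t s = ∑ b ∈ grd K, Wb K N μ b t s := by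
  unfold Wf Wb
  exact (sum_caps hK hN _).symm

theorem card_grd (N : ℕ) : (grd N).card = N ^ 2 := by
  simp [grd, sq]

theorem mu_le_one (h : Den3 C0 N μ) {k : ℤ × ℤ} (hk : k ∈ grd N) (s : ℝ × ℝ) : μ k s ≤ 1 :=
  (Finset.single_le_sum (f := fun k => μ k s) (fun _ _ => bot_le) hk).trans (h.sum s)

/-- trivial bound -/
theorem triv (hN : 1 ≤ N) (h : Den3 C0 N μ) {r : ℝ} (hr : 1 ≤ r) :
    ∫⁻ t in Icc (1/2 : ℝ) 4, ∫⁻ s, Wf N μ t s ^ r ≤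
      ENNReal.ofReal (4 * ((N:ℝ) ^ 2) ^ (r - 1)) * ∑ k ∈ grd N, ∫⁻ s, μ k s := by
  have hN0 : (0:ℝ) < N := by exact_mod_cast hN
  have h1 : ∀ t : ℝ, ∫⁻ s, Wf N μ t s ^ r ≤ ENNReal.ofReal (((N:ℝ) ^ 2) ^ (r - 1)) * ∑ k ∈ grd N, ∫⁻ s, μ k s := by
    intro t
    have mk : ∀ k, Measurable fun s : ℝ × ℝ => μ k (s.1 - t * (k.1 / N), s.2 - t * (k.2 / N)) := fun k =>
      (h.meas k).comp (by fun_prop)
    calc ∫⁻ s, Wf N μ t s ^ r
        ≤ ∫⁻ s : ℝ × ℝ, ENNReal.ofReal (((N:ℝ) ^ 2) ^ (r - 1)) *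
            ∑ k ∈ grd N, μ k (s.1 - t * (k.1 / N), s.2 - t * (k.2 / N)) := by
          refine lintegral_mono fun s => ?_
          unfold Wf
          refine (sum_rpow_le _ _ hr).trans ?_
          rw [card_grd]
          have e : (((N ^ 2 : ℕ) : ℝ≥0∞)) ^ (r - 1) = ENNReal.ofReal (((N:ℝ) ^ 2) ^ (r - 1)) := by
            rw [← ENNReal.ofReal_rpow_of_nonneg (by positivity) (by linarith)]
            congr 1
            rw [← ENNReal.ofReal_natCast]; push_cast; rfl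
          rw [e]
          gcongr with k hk
          calc μ k _ ^ r ≤ μ k _ ^ (1:ℝ) := ENNReal.rpow_le_rpow_of_exponent_ge (mu_le_one h hk _) hr
            _ = _ := ENNReal.rpow_one _
      _ = ENNReal.ofReal (((N:ℝ) ^ 2) ^ (r - 1)) * ∑ k ∈ grd N, ∫⁻ s : ℝ × ℝ, μ k (s.1 - t * (k.1 / N), s.2 - t * (k.2 / N)) := by
          rw [lintegral_const_mul _ (Finset.measurable_sum _ fun k _ => mk k), lintegral_finset_sum _ fun k _ => mk k]
      _ = _ := by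
          congr 1
          refine Finset.sum_congr rfl fun k _ => ?_
          exact lintegral_sub_right_eq_self (μ := (volume : Measure (ℝ × ℝ))) (μ k) (t * ((k.1:ℝ) / N), t * ((k.2:ℝ) / N))
  calc ∫⁻ t in Icc (1/2 : ℝ) 4, ∫⁻ s, Wf N μ t s ^ r
      ≤ ∫⁻ t in Icc (1/2 : ℝ) 4, ENNReal.ofReal (((N:ℝ) ^ 2) ^ (r - 1)) * ∑ k ∈ grd N, ∫⁻ s, μ k s :=
        lintegral_mono fun t => h1 t
    _ = ENNReal.ofReal (((N:ℝ) ^ 2) ^ (r - 1)) * (∑ k ∈ grd N, ∫⁻ s, μ k s) * ENNReal.ofReal (4 - 1/2) := by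
        rw [setLIntegral_const, Real.volume_Icc]
    _ ≤ ENNReal.ofReal (((N:ℝ) ^ 2) ^ (r - 1)) * (∑ k ∈ grd N, ∫⁻ s, μ k s) * ENNReal.ofReal 4 := by
        gcongr; norm_num
    _ = _ := by
        rw [ENNReal.ofReal_mul (by norm_num : (0:ℝ) ≤ 4)]; ring

/-- one step of the recursion -/
theorem step (hK : 1 ≤ K) (hN : 1 ≤ N) (h : Den3 C0 N μ) {r A Bc : ℝ} (hr : 1 ≤ r) (hA0 : 0 ≤ A) (hB0 : 0 ≤ Bc)
    (hA : ∀ b, ∫⁻ t in Icc (1/2 : ℝ) 4, ∫⁻ s, Wf (N / K + 1) (resc K N μ b) t s ^ r ≤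
      ENNReal.ofReal A * ∑ m ∈ grd (N / K + 1), ∫⁻ s, resc K N μ b m s)
    (hB : ∀ b b', far b b' → ∫⁻ t in Icc (1/2 : ℝ) 4, ∫⁻ s, (Wb K N μ b t s * Wb K N μ b' t s) ^ (r / 2) ≤
      ENNReal.ofReal Bc * ∑ k ∈ grd N, ∫⁻ s, μ k s) :
    ∫⁻ t in Icc (1/2 : ℝ) 4, ∫⁻ s, Wf N μ t s ^ r ≤
      ENNReal.ofReal (2 ^ r * 9 ^ (r - 1) * A + (2 * (K:ℝ) ^ 2) ^ r * (K:ℝ) ^ 4 * Bc) * ∑ k ∈ grd N, ∫⁻ s, μ k s := by
  classical
  have hK0 : (0:ℝ) < K := by exact_mod_cast hK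
  have mWb := fun b => meas_Wb (K := K) (N := N) (μ := μ) h.meas b
  have mS : ∀ (b : ℤ × ℤ) (t : ℝ), Measurable fun s => Wb K N μ b t s := fun b t =>
    (mWb b).comp (measurable_const.prodMk measurable_id)
  have mT : ∀ b : ℤ × ℤ, Measurable fun t : ℝ => ∫⁻ s, Wb K N μ b t s ^ r := fun b =>
    Measurable.lintegral_prod_right' ((mWb b).pow_const r)
  have mP : ∀ b b' : ℤ × ℤ, Measurable fun t : ℝ => ∫⁻ s, (Wb K N μ b t s * Wb K N μ b' t s) ^ (r / 2) := fun b b' =>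
    Measurable.lintegral_prod_right' (((mWb b).mul (mWb b')).pow_const (r / 2))
  set E := ∑ k ∈ grd N, ∫⁻ s, μ k s with hE
  have hfin : ∀ (b : ℤ × ℤ) (t : ℝ) (s : ℝ × ℝ), Wb K N μ b t s ≠ ⊤ := by
    intro b t s
    unfold Wb
    refine ENNReal.sum_ne_top.2 fun k hk => ?_
    exact ne_top_of_le_ne_top ENNReal.one_ne_top (mu_le_one h (grb_sub b hk) _)
  set P := (grd K ×ˢ grd K).filter (fun p : (ℤ × ℤ) × (ℤ × ℤ) => far p.1 p.2) with hP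
  have hPc : (P.card : ℝ) ≤ (K:ℝ) ^ 4 := by
    have h1 : P.card ≤ (grd K ×ˢ grd K).card := Finset.card_le_card (Finset.filter_subset _ _)
    rw [Finset.card_product, card_grd] at h1
    have h2 : (P.card : ℝ) ≤ ((K ^ 2 * K ^ 2 : ℕ) : ℝ) := by exact_mod_cast h1
    push_cast at h2
    linarith [show (K:ℝ) ^ 2 * (K:ℝ) ^ 2 = (K:ℝ) ^ 4 by ring]
  have c1 : (2:ℝ≥0∞) ^ r * (9:ℝ≥0∞) ^ (r - 1) = ENNReal.ofReal (2 ^ r * 9 ^ (r - 1)) := by
    rw [ENNReal.ofReal_mul (by positivity), ← ENNReal.ofReal_rpow_of_nonneg (by norm_num) (by linarith),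
      ← ENNReal.ofReal_rpow_of_nonneg (by norm_num) (by linarith)]
    norm_num
  have c2 : ((2:ℝ≥0∞) * (K:ℝ≥0∞) ^ 2) ^ r = ENNReal.ofReal ((2 * (K:ℝ) ^ 2) ^ r) := by
    rw [← ENNReal.ofReal_rpow_of_nonneg (by positivity) (by linarith), ENNReal.ofReal_mul (by norm_num),
      ENNReal.ofReal_pow (by positivity), ENNReal.ofReal_natCast]
    norm_num
  have h1 : ∀ t : ℝ, ∫⁻ s, Wf N μ t s ^ r ≤ ENNReal.ofReal (2 ^ r * 9 ^ (r - 1)) * (∑ b ∈ grd K, ∫⁻ s, Wb K N μ b t s ^ r) +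
      ENNReal.ofReal ((2 * (K:ℝ) ^ 2) ^ r) * ∑ p ∈ P, ∫⁻ s, (Wb K N μ p.1 t s * Wb K N μ p.2 t s) ^ (r / 2) := by
    intro t
    calc ∫⁻ s, Wf N μ t s ^ r
        ≤ ∫⁻ s, (ENNReal.ofReal (2 ^ r * 9 ^ (r - 1)) * ∑ b ∈ grd K, Wb K N μ b t s ^ r +
            ENNReal.ofReal ((2 * (K:ℝ) ^ 2) ^ r) * ∑ p ∈ P, (Wb K N μ p.1 t s * Wb K N μ p.2 t s) ^ (r / 2)) := by
          refine lintegral_mono fun s => ?_
          rw [Wf_eq hK hN t s]
          have := dich hK (grd K) (by rw [card_grd]) (fun b => Wb K N μ b t s) (fun b _ => hfin b t s) hr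
          rw [c1, c2] at this
          exact this
      _ = _ := by
          rw [lintegral_add_left]
          · rw [lintegral_const_mul _ (Finset.measurable_sum _ fun b _ => (mS b t).pow_const r),
              lintegral_const_mul _ (Finset.measurable_sum _ fun p _ => ((mS p.1 t).mul (mS p.2 t)).pow_const (r / 2)),
              lintegral_finset_sum _ fun b _ => (mS b t).pow_const r,
              lintegral_finset_sum _ fun p _ => ((mS p.1 t).mul (mS p.2 t)).pow_const (r / 2)]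
          · exact (Finset.measurable_sum _ fun b _ => (mS b t).pow_const r).const_mul _
  calc ∫⁻ t in Icc (1/2 : ℝ) 4, ∫⁻ s, Wf N μ t s ^ r
      ≤ ∫⁻ t in Icc (1/2 : ℝ) 4, (ENNReal.ofReal (2 ^ r * 9 ^ (r - 1)) * (∑ b ∈ grd K, ∫⁻ s, Wb K N μ b t s ^ r) +
        ENNReal.ofReal ((2 * (K:ℝ) ^ 2) ^ r) * ∑ p ∈ P, ∫⁻ s, (Wb K N μ p.1 t s * Wb K N μ p.2 t s) ^ (r / 2)) :=
        lintegral_mono fun t => h1 t
    _ = ENNReal.ofReal (2 ^ r * 9 ^ (r - 1)) * (∑ b ∈ grd K, ∫⁻ t in Icc (1/2 : ℝ) 4, ∫⁻ s, Wb K N μ b t s ^ r) +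
        ENNReal.ofReal ((2 * (K:ℝ) ^ 2) ^ r) * ∑ p ∈ P, ∫⁻ t in Icc (1/2 : ℝ) 4, ∫⁻ s, (Wb K N μ p.1 t s * Wb K N μ p.2 t s) ^ (r / 2) := by
        rw [lintegral_add_left]
        · rw [lintegral_const_mul _ (Finset.measurable_sum _ fun b _ => mT b),
            lintegral_const_mul _ (Finset.measurable_sum _ fun p _ => mP p.1 p.2),
            lintegral_finset_sum _ fun b _ => mT b, lintegral_finset_sum _ fun p _ => mP p.1 p.2]
        · exact (Finset.measurable_sum _ fun b _ => mT b).const_mul _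
    _ ≤ ENNReal.ofReal (2 ^ r * 9 ^ (r - 1)) * (∑ b ∈ grd K, ENNReal.ofReal A * ∑ k ∈ grb K N b, ∫⁻ s, μ k s) +
        ENNReal.ofReal ((2 * (K:ℝ) ^ 2) ^ r) * ∑ p ∈ P, ENNReal.ofReal Bc * E := by
        gcongr with b hb p hp
        · exact narrow hK hN h b (hA b)
        · exact hB _ _ (Finset.mem_filter.1 hp).2
    _ = ENNReal.ofReal (2 ^ r * 9 ^ (r - 1)) * (ENNReal.ofReal A * E) +
        ENNReal.ofReal ((2 * (K:ℝ) ^ 2) ^ r) * ((P.card : ℝ≥0∞) * (ENNReal.ofReal Bc * E)) := by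
        rw [← Finset.mul_sum, sum_caps hK hN, Finset.sum_const, nsmul_eq_mul]
    _ ≤ ENNReal.ofReal (2 ^ r * 9 ^ (r - 1)) * (ENNReal.ofReal A * E) +
        ENNReal.ofReal ((2 * (K:ℝ) ^ 2) ^ r) * (ENNReal.ofReal ((K:ℝ) ^ 4) * (ENNReal.ofReal Bc * E)) := by
        gcongr
        rw [← ENNReal.ofReal_natCast]
        exact ENNReal.ofReal_le_ofReal hPc
    _ = _ := by
        rw [ENNReal.ofReal_add (by positivity) (by positivity), ENNReal.ofReal_mul (by positivity : (0:ℝ) ≤ 2 ^ r * 9 ^ (r - 1)),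
          ENNReal.ofReal_mul (by positivity : (0:ℝ) ≤ (2 * (K:ℝ) ^ 2) ^ r * (K:ℝ) ^ 4), ENNReal.ofReal_mul (by positivity : (0:ℝ) ≤ (2 * (K:ℝ) ^ 2) ^ r)]
        ring

/-- **the recursion** -/
theorem nk3_of_bil {κ r : ℝ} (hκ : 0 ≤ κ) (hr : 1 < r) (hbil : StBILr κ r) : StNK3 κ r := by
  intro ε C0 hε hC0
  set a : ℝ := κ * (r - 1) + ε with ha
  have ha0 : 0 < a := by
    have : 0 ≤ κ * (r - 1) := mul_nonneg hκ (by linarith)
    linarith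
  -- choice of K
  obtain ⟨K, hK4, hKs⟩ : ∃ K : ℕ, 4 ≤ K ∧ 2 ^ r * 9 ^ (r - 1) * (2 / (K:ℝ)) ^ a ≤ 1 / 2 := by
    have ht : Filter.Tendsto (fun K : ℕ => 2 ^ r * 9 ^ (r - 1) * (2 / (K:ℝ)) ^ a) Filter.atTop (nhds (2 ^ r * 9 ^ (r - 1) * (0:ℝ) ^ a)) := by
      refine Filter.Tendsto.const_mul _ ?_
      refine Filter.Tendsto.rpow_const ?_ (Or.inr ha0.le)
      exact tendsto_const_div_atTop_nhds_zero_nat 2
    rw [Real.zero_rpow ha0.ne', mul_zero] at ht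
    have h1 := (ht.eventually (gt_mem_nhds (show (0:ℝ) < 1/2 by norm_num))).and (Filter.eventually_ge_atTop 4)
    obtain ⟨K, hK⟩ := h1.exists
    exact ⟨K, hK.2, hK.1.le⟩
  have hK : 1 ≤ K := by omega
  obtain ⟨Cb, hCb, hb⟩ := hbil ε C0 K hε hC0 hK
  set C : ℝ := 4 * ((K:ℝ) ^ 2) ^ (r - 1) + 2 * ((2 * (K:ℝ) ^ 2) ^ r * (K:ℝ) ^ 4 * Cb) with hC
  have hK0 : (0:ℝ) < K := by exact_mod_cast hK
  have hC1 : 0 ≤ C := by positivity
  refine ⟨C, hC1, ?_⟩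
  have main : ∀ N : ℕ, 1 ≤ N → ∀ μ : ℤ × ℤ → ℝ × ℝ → ℝ≥0∞, Den3 C0 N μ →
      ∫⁻ t in Icc (1/2 : ℝ) 4, ∫⁻ s, Wf N μ t s ^ r ≤ ENNReal.ofReal (C * (N:ℝ) ^ a) * ∑ k ∈ grd N, ∫⁻ s, μ k s := by
    intro N
    induction N using Nat.strong_induction_on with
    | _ N ih =>
      intro hN μ h
      have hN1 : (1:ℝ) ≤ N := by exact_mod_cast hN
      have hNa : (1:ℝ) ≤ (N:ℝ) ^ a := Real.one_le_rpow hN1 ha0.le
      rcases lt_or_ge N K with hNK | hNK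
      · refine (triv hN h hr.le).trans (mul_le_mul' (ENNReal.ofReal_le_ofReal ?_) le_rfl)
        have h1 : ((N:ℝ) ^ 2) ^ (r - 1) ≤ ((K:ℝ) ^ 2) ^ (r - 1) := by
          refine Real.rpow_le_rpow (by positivity) ?_ (by linarith)
          have : (N:ℝ) ≤ K := by exact_mod_cast hNK.le
          gcongr
        calc 4 * ((N:ℝ) ^ 2) ^ (r - 1) ≤ 4 * ((K:ℝ) ^ 2) ^ (r - 1) := by gcongr
          _ ≤ C := by rw [hC]; have : 0 ≤ 2 * ((2 * (K:ℝ) ^ 2) ^ r * (K:ℝ) ^ 4 * Cb) := by positivity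
                      linarith
          _ ≤ C * (N:ℝ) ^ a := by nlinarith
      · have hlt : N / K + 1 < N := by
          have h1 : N / K ≤ N / 4 := Nat.div_le_div_left hK4 (by norm_num)
          omega
        have h2 : (((N / K + 1 : ℕ) : ℝ)) ≤ 2 / K * N := by
          have h3 : ((N / K : ℕ) : ℝ) ≤ (N:ℝ) / K := Nat.cast_div_le
          have h4 : (1:ℝ) ≤ (N:ℝ) / K := by rw [one_le_div hK0]; exact_mod_cast hNK
          push_cast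
          have : 2 / (K:ℝ) * N = N / K + N / K := by ring
          linarith
        have hst := step (A := C * ((N / K + 1 : ℕ) : ℝ) ^ a) (Bc := Cb * (N:ℝ) ^ a) hK hN h hr.le (by positivity) (by positivity)
          (fun b => ih _ hlt (Nat.le_add_left 1 _) _ (den_resc hK hN h b)) (fun b b' hbb => hb N μ hN h b b' hbb)
        refine hst.trans (mul_le_mul' (ENNReal.ofReal_le_ofReal ?_) le_rfl)
        have h5 : (((N / K + 1 : ℕ) : ℝ)) ^ a ≤ (2 / K) ^ a * (N:ℝ) ^ a := by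
          rw [← Real.mul_rpow (by positivity) (by positivity)]
          exact Real.rpow_le_rpow (by positivity) h2 ha0.le
        calc 2 ^ r * 9 ^ (r - 1) * (C * ((N / K + 1 : ℕ) : ℝ) ^ a) + (2 * (K:ℝ) ^ 2) ^ r * (K:ℝ) ^ 4 * (Cb * (N:ℝ) ^ a)
            ≤ 2 ^ r * 9 ^ (r - 1) * (C * ((2 / K) ^ a * (N:ℝ) ^ a)) + (2 * (K:ℝ) ^ 2) ^ r * (K:ℝ) ^ 4 * (Cb * (N:ℝ) ^ a) := by
              gcongr
          _ = (2 ^ r * 9 ^ (r - 1) * (2 / K) ^ a) * (C * (N:ℝ) ^ a) + (2 * (K:ℝ) ^ 2) ^ r * (K:ℝ) ^ 4 * Cb * (N:ℝ) ^ a := by ring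
          _ ≤ 1 / 2 * (C * (N:ℝ) ^ a) + C / 2 * (N:ℝ) ^ a := by
              have h6 : (2 * (K:ℝ) ^ 2) ^ r * (K:ℝ) ^ 4 * Cb ≤ C / 2 := by
                rw [hC]
                have : 0 ≤ 4 * ((K:ℝ) ^ 2) ^ (r - 1) := by positivity
                linarith
              have h7 : 0 ≤ C * (N:ℝ) ^ a := by positivity
              have h8 := mul_le_mul_of_nonneg_right hKs h7
              have h9 := mul_le_mul_of_nonneg_right h6 (by positivity : (0:ℝ) ≤ (N:ℝ) ^ a)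
              linarith
          _ = C * (N:ℝ) ^ a := by ring
  intro N μ hN hm hs hsum hfin
  exact main N hN μ ⟨hm, hs, hsum, hfin⟩

end Vale.Agent.P106.Q.NR
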