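import Vale.Agent.P106.Q.NK3Eb
import Vale.Agent.P106.Q.NK3R

/-! # P106 / Q : block NK3E, reduction to the local bilinear estimate -/

namespace Vale.Agent.P106.Q

/-- the flat Nikodym estimate with loss `1/2` from the local bilinear estimate -/
theorem nk3E_of_l {r : ℝ} (h1 : 1 < r) (h : StBILl r) : StNK3 (1/2) r :=
  NR.nk3_of_bil (by norm_num) h1 (stBILr_of_l h)

end Vale.Agent.P106.Q
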