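import Vale.Agent.P106.Q.NKCb

/-! # P106 / Q / NKC : conclusion -/

open MeasureTheory Complex Set Filter
open scoped ENNReal NNReal ContDiff FourierTransform Topology

set_option linter.all false

namespace Vale.Agent.P106.Q

open Vale.Agent.P106.G

theorem nkc_mem_capN {N : ℕ} {a1 a2 σ : ℝ} {k : ℤ × ℤ} : k ∈ capN N a1 a2 σ ↔
    k ∈ grd N ∧ (a1 ≤ (k.1:ℝ) / N ∧ (k.1:ℝ) / N < a1 + σ) ∧ (a2 ≤ (k.2:ℝ) / N ∧ (k.2:ℝ) / N < a2 + σ) := by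
  unfold capN
  rw [Finset.mem_filter]

theorem nkc_cap_coord {N : ℕ} {a σ : ℝ} (hN : 1 ≤ N) {k : ℤ} (hk : k < N) (h1 : a ≤ (k:ℝ) / N) (h2 : (k:ℝ) / N < a + σ) :
    min ⌈(N:ℝ) * a⌉ ((N:ℤ) - (⌈(N:ℝ) * σ⌉₊ : ℤ)) ≤ k ∧ k - min ⌈(N:ℝ) * a⌉ ((N:ℤ) - (⌈(N:ℝ) * σ⌉₊ : ℤ)) < (⌈(N:ℝ) * σ⌉₊ : ℤ) := by
  have hNr : (0:ℝ) < N := by exact_mod_cast hN
  rw [le_div_iff₀ hNr] at h1
  rw [div_lt_iff₀ hNr] at h2
  have h3 : ⌈(N:ℝ) * a⌉ ≤ k := by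
    rw [Int.ceil_le]
    linarith
  refine ⟨(min_le_left _ _).trans h3, ?_⟩
  rcases min_choice ⌈(N:ℝ) * a⌉ ((N:ℤ) - (⌈(N:ℝ) * σ⌉₊ : ℤ)) with h | h
  · rw [h]
    have h4 : (N:ℝ) * a ≤ (⌈(N:ℝ) * a⌉ : ℝ) := Int.le_ceil _
    have h5 : (N:ℝ) * σ ≤ (⌈(N:ℝ) * σ⌉₊ : ℝ) := Nat.le_ceil _
    have h6 : (k:ℝ) < (⌈(N:ℝ) * a⌉ : ℝ) + (⌈(N:ℝ) * σ⌉₊ : ℝ) := by nlinarith
    have h7 : k < ⌈(N:ℝ) * a⌉ + (⌈(N:ℝ) * σ⌉₊ : ℤ) := by exact_mod_cast h6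
    linarith
  · rw [h]
    linarith

theorem nkc_meas_Wc (H : Hyp) (N : ℕ) {ν : ℤ × ℤ → E3 → ℝ≥0∞} (hν : ∀ k, Measurable (ν k)) (a1 a2 σ : ℝ) : Measurable (Wc H N ν a1 a2 σ) := by
  unfold Wc
  exact Finset.measurable_sum _ fun k _ => (hν k).comp (cont_bp H _ _).measurable

/-- the box estimate for an arbitrary square of directions -/
theorem nkc_gen : ∃ C : ℝ, 0 ≤ C ∧ ∀ (B C0 : ℝ) (N : ℕ) (R D : ℝ) (H : Hyp) (ν : ℤ × ℤ → E3 → ℝ≥0∞), DenR B C0 N R D H ν →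
  ∀ (a1 a2 σ : ℝ), 0 < σ → σ ≤ 1 → 0 ≤ a1 → 0 ≤ a2 →
    ∫⁻ z in {z : E4 | |H.tm z| ≤ 4 * R}, Wc H N ν a1 a2 σ z ^ 2 ≤ ENNReal.ofReal (C * D * (N * σ + 1) * R) * Ec N ν a1 a2 σ := by
  obtain ⟨C, hC, hnik⟩ := nikt
  refine ⟨4 * C, by positivity, ?_⟩
  intro B C0 N R D H ν hd a1 a2 σ hσ hσ1 ha1 ha2
  have hN1 := hd.N1
  have hNr : (1:ℝ) ≤ N := by exact_mod_cast hN1
  have hR0 : 0 < R := lt_of_lt_of_le (by positivity) hd.R1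
  set N' : ℕ := ⌈(N:ℝ) * σ⌉₊ with hN'
  have hN'1 : 1 ≤ N' := by
    rw [hN']
    exact Nat.ceil_pos.2 (by positivity)
  have hN'N : N' ≤ N := by
    rw [hN', Nat.ceil_le]
    nlinarith
  have hN'2 : (N':ℝ) ≤ N * σ + 1 := (Nat.ceil_lt_add_one (show 0 ≤ (N:ℝ) * σ by positivity)).le
  set kk : ℤ × ℤ := (min ⌈(N:ℝ) * a1⌉ ((N:ℤ) - (N':ℤ)), min ⌈(N:ℝ) * a2⌉ ((N:ℤ) - (N':ℤ))) with hkk
  have hNZ : (N':ℤ) ≤ N := by exact_mod_cast hN'N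
  have hc : ∀ k ∈ capN N a1 a2 σ, ∃ k' ∈ grd N', k = kk + k' := by
    intro k hk
    rw [nkc_mem_capN] at hk
    obtain ⟨h1, ⟨h2, h3⟩, h4, h5⟩ := hk
    unfold grd at h1
    rw [Finset.mem_product, Finset.mem_Ico, Finset.mem_Ico] at h1
    have c1 := nkc_cap_coord hN1 h1.1.2 h2 h3
    have c2 := nkc_cap_coord hN1 h1.2.2 h4 h5
    refine ⟨k - kk, ?_, by abel⟩
    unfold grd
    rw [Finset.mem_product, Finset.mem_Ico, Finset.mem_Ico]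
    refine ⟨⟨?_, ?_⟩, ?_, ?_⟩
    · exact sub_nonneg.2 c1.1
    · exact c1.2
    · exact sub_nonneg.2 c2.1
    · exact c2.2
  have hcN : capN N a1 a2 σ ⊆ grd N := fun k hk => (nkc_mem_capN.1 hk).1
  have hs : ∀ y, ∑ k ∈ capN N a1 a2 σ, ν k y ≤ ENNReal.ofReal D := fun y =>
    (Finset.sum_le_sum_of_subset hcN).trans (hd.sum y)
  have hf : ∑ k ∈ capN N a1 a2 σ, ∫⁻ y, ν k y < ⊤ := lt_of_le_of_lt (Finset.sum_le_sum_of_subset hcN) hd.fin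
  have k1 : 0 ≤ kk.1 := le_min (Int.ceil_nonneg (by positivity)) (by linarith)
  have k2 : 0 ≤ kk.2 := le_min (Int.ceil_nonneg (by positivity)) (by linarith)
  have k1' : kk.1 + N' ≤ N := by
    have : kk.1 ≤ (N:ℤ) - (N':ℤ) := min_le_right _ _
    linarith
  have k2' : kk.2 + N' ≤ N := by
    have : kk.2 ≤ (N:ℤ) - (N':ℤ) := min_le_right _ _
    linarith
  have h1 := nkc_resc_int hN1 hN'1 hd.ok hd.meas hs hf hd.D0 hc hcN k1 k2 k1' k2' (T := 4 * R) (by positivity) hC hnik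
  rw [nkc_time_int H ((nkc_meas_Wc H N hd.meas a1 a2 σ).pow_const 2)]
  have e1 : ∀ t : ℝ, ∀ y : E3, Wc H N ν a1 a2 σ (H.zt t y) = ∑ k ∈ capN N a1 a2 σ, ν k (y - t • H.vk N k) := by
    intro t y
    unfold Wc
    refine Finset.sum_congr rfl fun k _ => ?_
    rw [bp_zt]
    rfl
  simp_rw [e1]
  refine h1.trans (mul_le_mul' (ENNReal.ofReal_le_ofReal ?_) le_rfl)
  calc C * D * N' * (4 * R) ≤ C * D * (N * σ + 1) * (4 * R) := by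
        have := hd.D0
        gcongr
    _ = _ := by ring

/-- **[NKC]** -/
theorem stNKC : StNKC := by
  obtain ⟨C, hC, h⟩ := nkc_gen
  refine ⟨2 * C, by positivity, ?_⟩
  intro B C0 N R D H ν hd a1 a2 σ hσ ha1 ha1' ha2 ha2' hNσ
  have hR0 : 0 ≤ R := le_trans (by positivity) hd.R1
  have hD0 := hd.D0
  refine (h B C0 N R D H ν hd a1 a2 σ hσ (by linarith) ha1 ha2).trans (mul_le_mul' (ENNReal.ofReal_le_ofReal ?_) le_rfl)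
  calc C * D * (N * σ + 1) * R ≤ C * D * (2 * (N * σ)) * R := by
        gcongr
        linarith
    _ = _ := by ring

end Vale.Agent.P106.Q
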