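import Vale.Agent.P106.Q.NKCa

/-! # P106 / Q / NKC : the box estimate for a square of directions -/

open MeasureTheory Complex Set Filter
open scoped ENNReal NNReal ContDiff FourierTransform Topology

set_option linter.all false

namespace Vale.Agent.P106.Q

open Vale.Agent.P106.G

/-- the densities in the new coordinates -/
noncomputable def nkcNu (c : Finset (ℤ × ℤ)) (kk : ℤ × ℤ) (A : Matrix (Fin 3) (Fin 3) ℝ) (ν : ℤ × ℤ → E3 → ℝ≥0∞) (k' : ℤ × ℤ) (x : E3) : ℝ≥0∞ :=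
  (c : Set (ℤ × ℤ)).indicator (fun k => ν k (mat3 A⁻¹ x)) (kk + k')

theorem nkcNu_meas {c : Finset (ℤ × ℤ)} {kk : ℤ × ℤ} {A : Matrix (Fin 3) (Fin 3) ℝ} {ν : ℤ × ℤ → E3 → ℝ≥0∞} (hν : ∀ k, Measurable (ν k))
    (k' : ℤ × ℤ) : Measurable (nkcNu c kk A ν k') := by
  unfold nkcNu
  by_cases h : kk + k' ∈ (c : Set (ℤ × ℤ))
  · simp_rw [indicator_of_mem h]
    exact (hν _).comp (mat3_cont _).measurable
  · simp_rw [indicator_of_notMem h]
    exact measurable_const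

theorem eng_nkcNu {c : Finset (ℤ × ℤ)} {kk : ℤ × ℤ} {A : Matrix (Fin 3) (Fin 3) ℝ} {ν : ℤ × ℤ → E3 → ℝ≥0∞} (hA : 0 < A.det) {N' : ℕ}
    (hc : ∀ k ∈ c, ∃ k' ∈ grd N', k = kk + k') :
    Eng N' (nkcNu c kk A ν) = ENNReal.ofReal A.det * ∑ k ∈ c, ∫⁻ y, ν k y := by
  have hAi : (A⁻¹).det ≠ 0 := by
    rw [Matrix.det_nonsing_inv, Ring.inverse_eq_inv']
    exact inv_ne_zero hA.ne'
  have h1 : ∀ k' : ℤ × ℤ, ∫⁻ x, nkcNu c kk A ν k' x =
      (c : Set (ℤ × ℤ)).indicator (fun k => ENNReal.ofReal A.det * ∫⁻ y, ν k y) (kk + k') := by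
    intro k'
    unfold nkcNu
    by_cases h : kk + k' ∈ (c : Set (ℤ × ℤ))
    · simp_rw [indicator_of_mem h]
      rw [lintegral_mat3 hAi (fun x => ν (kk + k') x), Matrix.det_nonsing_inv, Ring.inverse_eq_inv', inv_inv, abs_of_pos hA]
    · simp_rw [indicator_of_notMem h]
      simp
  unfold Eng
  simp_rw [h1]
  rw [nkc_sum_tr c N' kk hc, Finset.mul_sum]

/-- the rescaling of the integral -/
theorem nkc_resc_int {H : Hyp} {N N' : ℕ} {D : ℝ} {ν : ℤ × ℤ → E3 → ℝ≥0∞} {c : Finset (ℤ × ℤ)} {kk : ℤ × ℤ} (hN : 1 ≤ N) (hN' : 1 ≤ N')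
    (hH : H.ok2) (hν : ∀ k, Measurable (ν k)) (hsum : ∀ y, ∑ k ∈ c, ν k y ≤ ENNReal.ofReal D) (hfin : ∑ k ∈ c, ∫⁻ y, ν k y < ⊤)
    (hD : 0 ≤ D) (hc : ∀ k ∈ c, ∃ k' ∈ grd N', k = kk + k') (hcN : c ⊆ grd N) (hk1 : 0 ≤ kk.1) (hk2 : 0 ≤ kk.2) (hk1' : kk.1 + N' ≤ N) (hk2' : kk.2 + N' ≤ N)
    {T C : ℝ} (hT : 0 < T) (hC : 0 ≤ C) (hnik : ∀ (N : ℕ) (T D : ℝ) (H : Hyp)
      (ν : ℤ × ℤ → E3 → ℝ≥0∞), 1 ≤ N → 0 < T → H.ok2 → 0 ≤ D → (∀ k, Measurable (ν k)) →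
      (∀ y, ∑ k ∈ grd N, ν k y ≤ ENNReal.ofReal D) → Eng N ν < ⊤ →
      ∫⁻ t in Icc (-T) T, ∫⁻ y, (∑ k ∈ grd N, ν k (y - t • H.vk N k)) ^ 2 ≤ ENNReal.ofReal (C * D * N * T) * Eng N ν) :
    ∫⁻ t in Icc (-T) T, ∫⁻ y, (∑ k ∈ c, ν k (y - t • H.vk N k)) ^ 2 ≤ ENNReal.ofReal (C * D * N' * T) * ∑ k ∈ c, ∫⁻ y, ν k y := by
  have hNr : (0:ℝ) < N := by exact_mod_cast hN
  have hNr' : (0:ℝ) < N' := by exact_mod_cast hN'
  set β1 : ℝ := kk.1 / N with hβ1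
  set β2 : ℝ := kk.2 / N with hβ2
  set τ : ℝ := N' / N with hτ
  have hτ0 : 0 < τ := by rw [hτ]; positivity
  have b1 : 0 ≤ β1 := by rw [hβ1]; exact div_nonneg (by exact_mod_cast hk1) hNr.le
  have b2 : 0 ≤ β2 := by rw [hβ2]; exact div_nonneg (by exact_mod_cast hk2) hNr.le
  have b1' : β1 + τ ≤ 1 := by
    rw [hβ1, hτ, ← add_div, div_le_one hNr]
    exact_mod_cast hk1'
  have b2' : β2 + τ ≤ 1 := by
    rw [hβ2, hτ, ← add_div, div_le_one hNr]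
    exact_mod_cast hk2'
  have hm := (hH.m_bd b1 (by linarith) b2 (by linarith)).1
  have hm0 : 0 < H.m β1 β2 := by linarith
  have hsub := hH.sub hτ0 b1 b1' b2 b2'
  set H' := H.sub β1 β2 τ with hH'
  set A := (H.AT β1 β2 τ).transpose with hA
  have hdet : 0 < A.det := by
    rw [hA, Matrix.det_transpose, AT_det]
    positivity
  set l := τ ^ 2 / H.m β1 β2 with hl
  have hl0 : 0 < l := by rw [hl]; positivity
  set cc : E3 := !₂[β1 ^ 2 + β2 ^ 2, 2 * τ * β1, 2 * τ * β2] with hcc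
  set ν' := nkcNu c kk A ν with hν'
  -- pointwise identity
  have hpt : ∀ t : ℝ, ∀ y : E3, ∑ k ∈ c, ν k (y - t • H.vk N k) = ∑ k' ∈ grd N', ν' k' ((mat3 A y + t • cc) - (l * t) • H'.vk N' k') := by
    intro t y
    rw [← nkc_sum_tr c N' kk hc]
    refine Finset.sum_congr rfl fun k' hk' => ?_
    rw [hν']
    unfold nkcNu
    by_cases h : kk + k' ∈ (c : Set (ℤ × ℤ))
    · rw [indicator_of_mem h, indicator_of_mem h]
      congr 1
      have e1 : H.vk N (kk + k') = H.vel (β1 + τ * (k'.1 / N')) (β2 + τ * (k'.2 / N')) := by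
        unfold Hyp.vk
        congr 1
        · rw [hβ1, hτ]; push_cast [Prod.fst_add]; field_simp
        · rw [hβ2, hτ]; push_cast [Prod.snd_add]; field_simp
      have hin := grd_bd (hcN (Finset.mem_coe.1 h))
      have e3 : ((kk + k').1 : ℝ) / N = β1 + τ * (k'.1 / N') := by
        rw [hβ1, hτ]; push_cast [Prod.fst_add]; field_simp
      have e4 : ((kk + k').2 : ℝ) / N = β2 + τ * (k'.2 / N') := by
        rw [hβ2, hτ]; push_cast [Prod.snd_add]; field_simp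
      rw [e3, e4] at hin
      have hm' := (hH.m_bd hin.1 hin.2.1 hin.2.2.1 hin.2.2.2).1
      have e2 := nkc_vel_resc H (β1 := β1) (β2 := β2) (τ := τ) (w1 := k'.1 / N') (w2 := k'.2 / N') hm0.ne' (by linarith)
      have e5 : (mat3 A y + t • cc) - (l * t) • H'.vk N' k' = mat3 A (y - t • H.vk N (kk + k')) := by
        rw [e1, map_sub, map_smul]
        have e6 : (l * t) • H'.vk N' k' = t • (l • H'.vel (k'.1 / N') (k'.2 / N')) := by
          rw [mul_comm, mul_smul]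
          rfl
        rw [e6, ← e2, smul_add]
        abel
      rw [e5, mat3_inv_left hdet.ne']
    · rw [indicator_of_notMem h, indicator_of_notMem h]
  have hin : ∀ t : ℝ, ∫⁻ y, (∑ k ∈ c, ν k (y - t • H.vk N k)) ^ 2 =
      ENNReal.ofReal (A.det⁻¹) * ∫⁻ y, (∑ k' ∈ grd N', ν' k' (y - (l * t) • H'.vk N' k')) ^ 2 := by
    intro t
    simp_rw [hpt t]
    rw [lintegral_mat3 hdet.ne' (fun x : E3 => (∑ k' ∈ grd N', ν' k' ((x + t • cc) - (l * t) • H'.vk N' k')) ^ 2), abs_of_pos (inv_pos.2 hdet)]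
    congr 1
    exact lintegral_add_right_eq_self (fun x : E3 => (∑ k' ∈ grd N', ν' k' (x - (l * t) • H'.vk N' k')) ^ 2) _
  simp_rw [hin]
  rw [nkc_lint_scale hl0 (-T) T (fun t => ENNReal.ofReal (A.det⁻¹) * ∫⁻ y, (∑ k' ∈ grd N', ν' k' (y - t • H'.vk N' k')) ^ 2),
    lintegral_const_mul' _ _ ENNReal.ofReal_ne_top, show l * -T = -(l * T) by ring]
  have hE := eng_nkcNu (ν := ν) hdet hc
  rw [← hν'] at hE
  have hs' : ∀ y, ∑ k ∈ grd N', ν' k y ≤ ENNReal.ofReal D := by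
    intro y
    rw [hν']
    unfold nkcNu
    rw [nkc_sum_tr c N' kk hc (fun k => ν k (mat3 A⁻¹ y))]
    exact hsum _
  have h1 := hnik N' (l * T) D H' ν' hN' (by positivity) hsub hD (fun k => nkcNu_meas hν k) hs' (by
    rw [hE]
    exact ENNReal.mul_lt_top ENNReal.ofReal_lt_top hfin)
  rw [hE] at h1
  calc ENNReal.ofReal l⁻¹ * (ENNReal.ofReal (A.det⁻¹) * ∫⁻ t in Icc (-(l * T)) (l * T), ∫⁻ y, (∑ k' ∈ grd N', ν' k' (y - t • H'.vk N' k')) ^ 2) ≤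
      ENNReal.ofReal l⁻¹ * (ENNReal.ofReal (A.det⁻¹) * (ENNReal.ofReal (C * D * N' * (l * T)) * (ENNReal.ofReal A.det * ∑ k ∈ c, ∫⁻ y, ν k y))) := by
        gcongr
    _ = _ := by
        rw [← mul_assoc, ← mul_assoc, ← mul_assoc, ← ENNReal.ofReal_mul (by positivity), ← ENNReal.ofReal_mul (by positivity),
          ← ENNReal.ofReal_mul (by positivity)]
        congr 2
        field_simp

end Vale.Agent.P106.Q
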