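import Vale.Agent.P106.Q.RecA

/-! # P106 / Q : [REC] induction over the caps (helper301) -/

open MeasureTheory Complex Set
open scoped ENNReal NNReal

set_option autoImplicit false
set_option linter.all false

namespace Vale.Agent.P106.Q.RecQ

open Vale.Agent.P106.G Vale.Agent.P106.Q

theorem continuous_tm (H : Hyp) : Continuous H.tm := by
  unfold Hyp.tm; fun_prop

theorem measurable_bp (H : Hyp) (v1 v2 : ℝ) : Measurable (H.bp v1 v2) := by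
  have h : Continuous (H.bp v1 v2) := by
    unfold Hyp.bp
    have := continuous_tm H
    refine (PiLp.continuous_toLp 2 _).comp (continuous_pi fun i => ?_)
    fin_cases i <;> simp <;> fun_prop
  exact h.measurable

theorem measurable_Wc {B C0 : ℝ} {N : ℕ} {R D : ℝ} {H : Hyp} {ν : ℤ × ℤ → E3 → ℝ≥0∞} (h : DenR B C0 N R D H ν)
    (a1 a2 σ : ℝ) : Measurable (Wc H N ν a1 a2 σ) := by
  unfold Wc
  refine Finset.measurable_fun_sum _ fun k _ => ?_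
  exact (h.meas k).comp (measurable_bp H _ _)

theorem Wc_eq_sum {N K : ℕ} (hK : 0 < K) {a1 a2 σ : ℝ} (hσ : 0 < σ) (H : Hyp) (ν : ℤ × ℤ → E3 → ℝ≥0∞) (z : E4) :
    Wc H N ν a1 a2 σ z = ∑ s ∈ grd K, Wc H N ν (a1 + σ * ((s.1:ℝ) / K)) (a2 + σ * ((s.2:ℝ) / K)) (σ / K) z := by
  unfold Wc
  rw [sum_sub hK hσ]
  rfl

theorem Ec_eq_sum {N K : ℕ} (hK : 0 < K) {a1 a2 σ : ℝ} (hσ : 0 < σ) (ν : ℤ × ℤ → E3 → ℝ≥0∞) :
    Ec N ν a1 a2 σ = ∑ s ∈ grd K, Ec N ν (a1 + σ * ((s.1:ℝ) / K)) (a2 + σ * ((s.2:ℝ) / K)) (σ / K) := by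
  unfold Ec
  rw [sum_sub hK hσ]
  rfl

theorem Wc_fin {B C0 : ℝ} {N : ℕ} {R D : ℝ} {H : Hyp} {ν : ℤ × ℤ → E3 → ℝ≥0∞} (h : DenR B C0 N R D H ν)
    (a1 a2 σ : ℝ) (z : E4) : Wc H N ν a1 a2 σ z ≠ ⊤ := by
  unfold Wc
  rw [ENNReal.sum_ne_top]
  intro k hk
  have hk' : k ∈ grd N := (mem_capN.1 hk).1
  have h1 : ν k (H.bp (k.1 / N) (k.2 / N) z) ≤ ∑ k' ∈ grd N, ν k' (H.bp (k.1 / N) (k.2 / N) z) :=
    Finset.single_le_sum (f := fun k' => ν k' (H.bp (k.1 / N) (k.2 / N) z)) (fun _ _ => zero_le) hk'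
  exact ((h1.trans (h.sum _)).trans_lt ENNReal.ofReal_lt_top).ne

open Classical in
/-- quadruples of sub-squares in general position -/
noncomputable def quad (K : ℕ) (δ : ℝ) : Finset (Fin 4 → ℤ × ℤ) :=
  (Fintype.piFinset fun _ : Fin 4 => grd K).filter
    (fun x => δ ≤ |D4 (fun i => (((x i).1:ℝ) / K, ((x i).2:ℝ) / K))|)

theorem card_quad_le (K : ℕ) (δ : ℝ) : ((quad K δ).card : ℝ) ≤ (K:ℝ) ^ 8 := by
  classical
  unfold quad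
  have h := Finset.card_filter_le (Fintype.piFinset fun _ : Fin 4 => grd K)
    (fun x => δ ≤ |D4 (fun i => (((x i).1:ℝ) / K, ((x i).2:ℝ) / K))|)
  rw [Fintype.card_piFinset_const, card_grd] at h
  calc _ ≤ (((K * K) ^ 4 : ℕ) : ℝ) := Nat.cast_le.2 h
    _ = (K:ℝ) ^ 8 := by push_cast; ring

theorem grd_nonempty {K : ℕ} (hK : 0 < K) : (grd K).Nonempty := ⟨(0, 0), by
  rw [mem_grdQ]
  have : (0:ℤ) < K := by exact_mod_cast hK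
  exact ⟨⟨le_rfl, this⟩, le_rfl, this⟩⟩

theorem pointwise {c1 Cb : ℝ} (hc1 : 0 < c1)
    (hBGL : ∀ (K : ℕ) (S : Finset (ℝ × ℝ)), 1 ≤ K →
      (∀ v ∈ S, (0 ≤ v.1 ∧ v.1 ≤ 1) ∧ (0 ≤ v.2 ∧ v.2 ≤ 1)) →
      (∀ x : Fin 4 → ℝ × ℝ, (∀ i, x i ∈ S) → |D4 x| ≤ c1 / (K:ℝ) ^ 4) →
      (((S.image (cel K)).card : ℕ) : ℝ) ≤ Cb * K)
    {B C0 : ℝ} {N : ℕ} {R D : ℝ} {H : Hyp} {ν : ℤ × ℤ → E3 → ℝ≥0∞} (h : DenR B C0 N R D H ν)
    {K m : ℕ} (hK : 0 < K) (hm : 0 < m) {a1 a2 σ : ℝ} (hσ : 0 < σ) {r : ℝ} (hr : 1 ≤ r) (z : E4) :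
    Wc H N ν a1 a2 σ z ^ r ≤
      ENNReal.ofReal ((2 * ((K * m : ℕ) : ℝ) ^ 2) ^ r) * ∑ x ∈ quad (K * m) (c1 / (K:ℝ) ^ 4),
        ∏ i, Wc H N ν (a1 + σ * (((x i).1:ℝ) / (K * m : ℕ))) (a2 + σ * (((x i).2:ℝ) / (K * m : ℕ))) (σ / (K * m : ℕ)) z ^ (r / 4) +
      ENNReal.ofReal (2 ^ r * (Cb * K) ^ (r - 1)) * ∑ b ∈ grd K,
        Wc H N ν (a1 + σ * ((b.1:ℝ) / K)) (a2 + σ * ((b.2:ℝ) / K)) (σ / K) z ^ r := by
  classical
  have hKm := Nat.mul_pos hK hm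
  have hKmr : (0:ℝ) < ((K * m : ℕ) : ℝ) := by exact_mod_cast hKm
  have key := pt_abs (grd (K * m)) (grd_nonempty hKm)
    (fun s => Wc H N ν (a1 + σ * ((s.1:ℝ) / (K * m : ℕ))) (a2 + σ * ((s.2:ℝ) / (K * m : ℕ))) (σ / (K * m : ℕ)) z)
    (by rw [← Wc_eq_sum hKm hσ]; exact Wc_fin h _ _ _ _) (par m)
    (fun b => Wc H N ν (a1 + σ * ((b.1:ℝ) / K)) (a2 + σ * ((b.2:ℝ) / K)) (σ / K) z) (grd K)
    (fun s hs => par_mem_grd hm hs)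
    (fun b T hT => sum_par_le hK hm hσ (fun k => ν k (H.bp (k.1 / N) (k.2 / N) z)) b T hT)
    (fun x => c1 / (K:ℝ) ^ 4 ≤ |D4 (fun i => (((x i).1:ℝ) / (K * m : ℕ), ((x i).2:ℝ) / (K * m : ℕ)))|)
    (Cb * K) ?_ r hr
  · rw [← Wc_eq_sum hKm hσ, card_grd] at key
    have e : (2 * (((K * m) * (K * m) : ℕ) : ℝ)) = 2 * ((K * m : ℕ) : ℝ) ^ 2 := by push_cast; ring
    rw [e] at key
    exact key
  · intro S hS hq
    have h1 := hBGL K (S.image fun s => ((s.1:ℝ) / (K * m : ℕ), (s.2:ℝ) / (K * m : ℕ))) hK ?_ ?_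
    · rw [Finset.image_image] at h1
      have e : (cel K ∘ fun s : ℤ × ℤ => ((s.1:ℝ) / (K * m : ℕ), (s.2:ℝ) / (K * m : ℕ))) = par m := by
        ext1 s
        unfold cel par
        simp only [Function.comp]
        rw [cel_div hK hm, cel_div hK hm]
      rw [e] at h1
      exact h1
    · intro v hv
      obtain ⟨s, hs, rfl⟩ := Finset.mem_image.1 hv
      have hs' := mem_grdQ.1 (hS hs)
      obtain ⟨⟨g1, g2⟩, g3, g4⟩ := hs'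
      have g1' : (0:ℝ) ≤ s.1 := by exact_mod_cast g1
      have g3' : (0:ℝ) ≤ s.2 := by exact_mod_cast g3
      have g2' : (s.1:ℝ) ≤ (K * m : ℕ) := by exact_mod_cast g2.le
      have g4' : (s.2:ℝ) ≤ (K * m : ℕ) := by exact_mod_cast g4.le
      simp only
      refine ⟨⟨by positivity, ?_⟩, by positivity, ?_⟩
      · rw [div_le_one hKmr]; exact g2'
      · rw [div_le_one hKmr]; exact g4'
    · intro x hx
      have hx' : ∀ i, ∃ s ∈ S, ((s.1:ℝ) / (K * m : ℕ), (s.2:ℝ) / (K * m : ℕ)) = x i := fun i => Finset.mem_image.1 (hx i)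
      choose y hy1 hy2 using hx'
      have := hq y hy1
      push Not at this
      have e : (fun i => (((y i).1:ℝ) / (K * m : ℕ), ((y i).2:ℝ) / (K * m : ℕ))) = x := by
        ext1 i; exact hy2 i
      rw [e] at this
      exact this.le

/-- one step -/
theorem step {c1 Cb : ℝ} (hc1 : 0 < c1)
    (hBGL : ∀ (K : ℕ) (S : Finset (ℝ × ℝ)), 1 ≤ K →
      (∀ v ∈ S, (0 ≤ v.1 ∧ v.1 ≤ 1) ∧ (0 ≤ v.2 ∧ v.2 ≤ 1)) →
      (∀ x : Fin 4 → ℝ × ℝ, (∀ i, x i ∈ S) → |D4 x| ≤ c1 / (K:ℝ) ^ 4) →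
      (((S.image (cel K)).card : ℕ) : ℝ) ≤ Cb * K)
    {B C0 : ℝ} {N : ℕ} {R D : ℝ} {H : Hyp} {ν : ℤ × ℤ → E3 → ℝ≥0∞} (h : DenR B C0 N R D H ν)
    {K m : ℕ} (hK : 0 < K) (hm : 0 < m) {r : ℝ} (hr : 1 ≤ r) {T : ℝ} (hT0 : 0 ≤ T)
    (hBRD : ∀ (a1 a2 σ : ℝ) (x : Fin 4 → ℝ × ℝ), 0 < σ → 0 ≤ a1 → a1 + σ ≤ 1 → 0 ≤ a2 → a2 + σ ≤ 1 → 1 ≤ N * σ →
      (∀ i, (0 ≤ (x i).1 ∧ (x i).1 ≤ 1) ∧ (0 ≤ (x i).2 ∧ (x i).2 ≤ 1)) → c1 / (K:ℝ) ^ 4 ≤ |D4 x| →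
      ∫⁻ z in {z : E4 | |H.tm z| ≤ 4 * R}, ∏ i, Wc H N ν (a1 + σ * (x i).1) (a2 + σ * (x i).2) (σ / (K * m : ℕ)) z ^ (r / 4) ≤
        ENNReal.ofReal T * ∏ i, Ec N ν (a1 + σ * (x i).1) (a2 + σ * (x i).2) (σ / (K * m : ℕ)) ^ (1/4 : ℝ))
    {a1 a2 σ : ℝ} (hσ : 0 < σ) (ha1 : 0 ≤ a1) (hb1 : a1 + σ ≤ 1) (ha2 : 0 ≤ a2) (hb2 : a2 + σ ≤ 1) (hN : 1 ≤ N * σ) :
    ∫⁻ z in {z : E4 | R / 2 ≤ H.tm z ∧ H.tm z ≤ 4 * R}, Wc H N ν a1 a2 σ z ^ r ≤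
      ENNReal.ofReal ((2 * ((K * m : ℕ) : ℝ) ^ 2) ^ r * ((K * m : ℕ) : ℝ) ^ 8 * T) * Ec N ν a1 a2 σ +
      ENNReal.ofReal (2 ^ r * (Cb * K) ^ (r - 1)) * ∑ b ∈ grd K,
        ∫⁻ z in {z : E4 | R / 2 ≤ H.tm z ∧ H.tm z ≤ 4 * R},
          Wc H N ν (a1 + σ * ((b.1:ℝ) / K)) (a2 + σ * ((b.2:ℝ) / K)) (σ / K) z ^ r := by
  have hKm := Nat.mul_pos hK hm
  have hKmr : (0:ℝ) < ((K * m : ℕ) : ℝ) := by exact_mod_cast hKm
  have hR : 0 < R := by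
    have h1 := h.R1
    have h2 : (1:ℝ) ≤ N := by exact_mod_cast h.N1
    nlinarith
  set Q : Set E4 := {z : E4 | R / 2 ≤ H.tm z ∧ H.tm z ≤ 4 * R} with hQ
  have hsub : Q ⊆ {z : E4 | |H.tm z| ≤ 4 * R} := by
    intro z hz
    have h1 := hz.1
    have h2 := hz.2
    show |H.tm z| ≤ 4 * R
    rw [abs_le]; constructor <;> linarith
  have hmW : ∀ a b c : ℝ, Measurable (Wc H N ν a b c) := fun a b c => measurable_Wc h a b c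
  have s1 : ∫⁻ z in Q, Wc H N ν a1 a2 σ z ^ r ≤ ∫⁻ z in Q,
      (ENNReal.ofReal ((2 * ((K * m : ℕ) : ℝ) ^ 2) ^ r) * ∑ x ∈ quad (K * m) (c1 / (K:ℝ) ^ 4),
        ∏ i, Wc H N ν (a1 + σ * (((x i).1:ℝ) / (K * m : ℕ))) (a2 + σ * (((x i).2:ℝ) / (K * m : ℕ))) (σ / (K * m : ℕ)) z ^ (r / 4) +
      ENNReal.ofReal (2 ^ r * (Cb * K) ^ (r - 1)) * ∑ b ∈ grd K,
        Wc H N ν (a1 + σ * ((b.1:ℝ) / K)) (a2 + σ * ((b.2:ℝ) / K)) (σ / K) z ^ r) :=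
    lintegral_mono fun z => pointwise hc1 hBGL h hK hm hσ hr z
  refine s1.trans ?_
  rw [lintegral_add_left (by
      refine Measurable.const_mul ?_ _
      refine Finset.measurable_fun_sum _ fun x _ => ?_
      refine Finset.measurable_fun_prod _ fun i _ => ?_
      exact (hmW _ _ _).pow_const _)]
  rw [lintegral_const_mul' _ _ ENNReal.ofReal_ne_top, lintegral_const_mul' _ _ ENNReal.ofReal_ne_top]
  rw [lintegral_finsetSum _ (fun x _ => by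
      refine Finset.measurable_fun_prod _ fun i _ => ?_
      exact (hmW _ _ _).pow_const _),
    lintegral_finsetSum _ (fun b _ => (hmW _ _ _).pow_const _)]
  refine add_le_add ?_ le_rfl
  have hx : ∀ x ∈ quad (K * m) (c1 / (K:ℝ) ^ 4),
      ∫⁻ z in Q, ∏ i, Wc H N ν (a1 + σ * (((x i).1:ℝ) / (K * m : ℕ))) (a2 + σ * (((x i).2:ℝ) / (K * m : ℕ))) (σ / (K * m : ℕ)) z ^ (r / 4) ≤
        ENNReal.ofReal T * Ec N ν a1 a2 σ := by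
    intro x hx
    classical
    unfold quad at hx
    rw [Finset.mem_filter, Fintype.mem_piFinset] at hx
    have h1 := hBRD a1 a2 σ (fun i => (((x i).1:ℝ) / (K * m : ℕ), ((x i).2:ℝ) / (K * m : ℕ))) hσ ha1 hb1 ha2 hb2 hN (by
      intro i
      have hs' := mem_grdQ.1 (hx.1 i)
      obtain ⟨⟨g1, g2⟩, g3, g4⟩ := hs'
      have g1' : (0:ℝ) ≤ (x i).1 := by exact_mod_cast g1
      have g3' : (0:ℝ) ≤ (x i).2 := by exact_mod_cast g3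
      have g2' : ((x i).1:ℝ) ≤ (K * m : ℕ) := by exact_mod_cast g2.le
      have g4' : ((x i).2:ℝ) ≤ (K * m : ℕ) := by exact_mod_cast g4.le
      simp only
      refine ⟨⟨by positivity, ?_⟩, by positivity, ?_⟩
      · rw [div_le_one hKmr]; exact g2'
      · rw [div_le_one hKmr]; exact g4') hx.2
    refine (lintegral_mono_set hsub).trans (h1.trans ?_)
    gcongr
    have h2 : ∀ i : Fin 4, Ec N ν (a1 + σ * (((x i).1:ℝ) / (K * m : ℕ))) (a2 + σ * (((x i).2:ℝ) / (K * m : ℕ))) (σ / (K * m : ℕ)) ≤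
        Ec N ν a1 a2 σ := by
      intro i
      have := sub_eq_filter (N := N) hKm (a1 := a1) (a2 := a2) hσ (hx.1 i)
      unfold Ec
      have e : capN N (a1 + σ * (((x i).1:ℝ) / (K * m : ℕ))) (a2 + σ * (((x i).2:ℝ) / (K * m : ℕ))) (σ / (K * m : ℕ)) =
        sub N (K * m) a1 a2 σ (x i) := rfl
      rw [e, this]
      exact Finset.sum_le_sum_of_subset (Finset.filter_subset _ _)
    calc ∏ i : Fin 4, Ec N ν (a1 + σ * (((x i).1:ℝ) / (K * m : ℕ))) (a2 + σ * (((x i).2:ℝ) / (K * m : ℕ))) (σ / (K * m : ℕ)) ^ (1/4 : ℝ)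
        ≤ ∏ i : Fin 4, Ec N ν a1 a2 σ ^ (1/4 : ℝ) :=
          Finset.prod_le_prod' fun i _ => ENNReal.rpow_le_rpow (h2 i) (by norm_num)
      _ = Ec N ν a1 a2 σ := by
          rw [Finset.prod_const, Finset.card_univ, Fintype.card_fin, ← ENNReal.rpow_natCast, ← ENNReal.rpow_mul]
          norm_num
  calc ENNReal.ofReal ((2 * ((K * m : ℕ) : ℝ) ^ 2) ^ r) * ∑ x ∈ quad (K * m) (c1 / (K:ℝ) ^ 4), ∫⁻ z in Q,
        ∏ i, Wc H N ν (a1 + σ * (((x i).1:ℝ) / (K * m : ℕ))) (a2 + σ * (((x i).2:ℝ) / (K * m : ℕ))) (σ / (K * m : ℕ)) z ^ (r / 4)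
      ≤ ENNReal.ofReal ((2 * ((K * m : ℕ) : ℝ) ^ 2) ^ r) * (((quad (K * m) (c1 / (K:ℝ) ^ 4)).card : ℝ≥0∞) * (ENNReal.ofReal T * Ec N ν a1 a2 σ)) := by
        gcongr
        rw [← nsmul_eq_mul]
        exact Finset.sum_le_card_nsmul _ _ _ hx
    _ ≤ _ := by
        have h3 : ((quad (K * m) (c1 / (K:ℝ) ^ 4)).card : ℝ≥0∞) ≤ ENNReal.ofReal (((K * m : ℕ) : ℝ) ^ 8) := by
          rw [← ENNReal.ofReal_natCast]
          exact ENNReal.ofReal_le_ofReal (card_quad_le _ _)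
        rw [ENNReal.ofReal_mul (by positivity), ENNReal.ofReal_mul (by positivity), mul_assoc, mul_assoc]
        gcongr

/-- the induction -/
theorem ind {c1 Cb : ℝ} (hc1 : 0 < c1) (hCb : 1 ≤ Cb)
    (hBGL : ∀ (K : ℕ) (S : Finset (ℝ × ℝ)), 1 ≤ K →
      (∀ v ∈ S, (0 ≤ v.1 ∧ v.1 ≤ 1) ∧ (0 ≤ v.2 ∧ v.2 ≤ 1)) →
      (∀ x : Fin 4 → ℝ × ℝ, (∀ i, x i ∈ S) → |D4 x| ≤ c1 / (K:ℝ) ^ 4) →
      (((S.image (cel K)).card : ℕ) : ℝ) ≤ Cb * K)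
    {B C0 : ℝ} {N : ℕ} {R D : ℝ} {H : Hyp} {ν : ℤ × ℤ → E3 → ℝ≥0∞} (h : DenR B C0 N R D H ν)
    {K m : ℕ} (hK : 0 < K) (hm : 0 < m) {r : ℝ} (hr : 1 ≤ r) {T : ℝ} (hT0 : 0 ≤ T)
    (hBRD : ∀ (a1 a2 σ : ℝ) (x : Fin 4 → ℝ × ℝ), 0 < σ → 0 ≤ a1 → a1 + σ ≤ 1 → 0 ≤ a2 → a2 + σ ≤ 1 → 1 ≤ N * σ →
      (∀ i, (0 ≤ (x i).1 ∧ (x i).1 ≤ 1) ∧ (0 ≤ (x i).2 ∧ (x i).2 ≤ 1)) → c1 / (K:ℝ) ^ 4 ≤ |D4 x| →
      ∫⁻ z in {z : E4 | |H.tm z| ≤ 4 * R}, ∏ i, Wc H N ν (a1 + σ * (x i).1) (a2 + σ * (x i).2) (σ / (K * m : ℕ)) z ^ (r / 4) ≤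
        ENNReal.ofReal T * ∏ i, Ec N ν (a1 + σ * (x i).1) (a2 + σ * (x i).2) (σ / (K * m : ℕ)) ^ (1/4 : ℝ))
    {X A bt : ℝ} (hX0 : 0 ≤ X) (hbt : bt = (2 * ((K * m : ℕ) : ℝ) ^ 2) ^ r * ((K * m : ℕ) : ℝ) ^ 8 * T)
    (hA : A = 2 ^ r * (Cb * K) ^ (r - 1))
    (hFLT : ∀ (a1 a2 σ : ℝ), 0 < σ → 0 ≤ a1 → a1 + σ ≤ 1 → 0 ≤ a2 → a2 + σ ≤ 1 → N * σ ^ 2 ≤ 1 →
      ∫⁻ z in {z : E4 | R / 2 ≤ H.tm z ∧ H.tm z ≤ 4 * R}, Wc H N ν a1 a2 σ z ^ r ≤ ENNReal.ofReal X * Ec N ν a1 a2 σ)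
    (J : ℕ) : ∀ (a1 a2 σ : ℝ), 0 < σ → 0 ≤ a1 → a1 + σ ≤ 1 → 0 ≤ a2 → a2 + σ ≤ 1 → N * σ ^ 2 ≤ (K:ℝ) ^ (2 * J) →
      (∫⁻ z in {z : E4 | R / 2 ≤ H.tm z ∧ H.tm z ≤ 4 * R}, Wc H N ν a1 a2 σ z ^ r) + ENNReal.ofReal bt * Ec N ν a1 a2 σ ≤
        ENNReal.ofReal (A ^ J * (X + bt)) * Ec N ν a1 a2 σ := by
  have hKr : (1:ℝ) ≤ K := by exact_mod_cast hK
  have hA2 : 2 ≤ A := by
    rw [hA]
    have h1 : (2:ℝ) ≤ 2 ^ r := by
      conv_lhs => rw [← Real.rpow_one 2]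
      exact Real.rpow_le_rpow_of_exponent_le (by norm_num) hr
    have h2 : 1 ≤ (Cb * K) ^ (r - 1) := Real.one_le_rpow (by nlinarith) (by linarith)
    nlinarith
  have hbt0 : 0 ≤ bt := by rw [hbt]; positivity
  induction J with
  | zero =>
    intro a1 a2 σ hσ h1 h2 h3 h4 h5
    rw [pow_zero, one_mul, ENNReal.ofReal_add hX0 hbt0, add_mul]
    gcongr
    exact hFLT a1 a2 σ hσ h1 h2 h3 h4 (by simpa using h5)
  | succ J ih =>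
    intro a1 a2 σ hσ h1 h2 h3 h4 h5
    by_cases h6 : (N:ℝ) * σ ^ 2 ≤ (K:ℝ) ^ (2 * J)
    · refine (ih a1 a2 σ hσ h1 h2 h3 h4 h6).trans ?_
      gcongr
      · linarith
      · omega
    · push Not at h6
      have hσ1 : σ ≤ 1 := by linarith
      have hN0 : (0:ℝ) ≤ N := by positivity
      have hN1 : 1 ≤ (N:ℝ) * σ := by
        have e1 : (1:ℝ) ≤ (K:ℝ) ^ (2 * J) := one_le_pow₀ hKr
        have e2 : (N:ℝ) * σ ^ 2 ≤ N * σ := by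
          apply mul_le_mul_of_nonneg_left _ hN0
          nlinarith
        linarith
      have hst := step hc1 hBGL h hK hm hr hT0 hBRD hσ h1 h2 h3 h4 hN1
      rw [← hbt, ← hA] at hst
      have hKp : (0:ℝ) < K := by linarith
      have hb : ∀ b ∈ grd K, (∫⁻ z in {z : E4 | R / 2 ≤ H.tm z ∧ H.tm z ≤ 4 * R},
          Wc H N ν (a1 + σ * ((b.1:ℝ) / K)) (a2 + σ * ((b.2:ℝ) / K)) (σ / K) z ^ r) +
            ENNReal.ofReal bt * Ec N ν (a1 + σ * ((b.1:ℝ) / K)) (a2 + σ * ((b.2:ℝ) / K)) (σ / K) ≤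
          ENNReal.ofReal (A ^ J * (X + bt)) * Ec N ν (a1 + σ * ((b.1:ℝ) / K)) (a2 + σ * ((b.2:ℝ) / K)) (σ / K) := by
        intro b hb
        obtain ⟨⟨g1, g2⟩, g3, g4⟩ := mem_grdQ.1 hb
        have g1' : (0:ℝ) ≤ b.1 := by exact_mod_cast g1
        have g3' : (0:ℝ) ≤ b.2 := by exact_mod_cast g3
        have g2' : (b.1:ℝ) + 1 ≤ K := by exact_mod_cast g2
        have g4' : (b.2:ℝ) + 1 ≤ K := by exact_mod_cast g4
        have e : ∀ x : ℝ, x + 1 ≤ K → σ * (x / K) + σ / K ≤ σ := by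
          intro x hx
          have : σ * (x / K) + σ / K = σ * ((x + 1) / K) := by ring
          rw [this]
          have : (x + 1) / K ≤ 1 := by rw [div_le_one hKp]; exact hx
          nlinarith
        refine ih _ _ _ (by positivity) (by positivity) ?_ (by positivity) ?_ ?_
        · have := e _ g2'; linarith
        · have := e _ g4'; linarith
        · rw [div_pow, mul_div_assoc', div_le_iff₀ (by positivity)]
          refine h5.trans (le_of_eq ?_)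
          rw [← pow_add]
          congr 1
      calc (∫⁻ z in {z : E4 | R / 2 ≤ H.tm z ∧ H.tm z ≤ 4 * R}, Wc H N ν a1 a2 σ z ^ r) + ENNReal.ofReal bt * Ec N ν a1 a2 σ
          ≤ (ENNReal.ofReal bt * Ec N ν a1 a2 σ + ENNReal.ofReal A * ∑ b ∈ grd K,
            ∫⁻ z in {z : E4 | R / 2 ≤ H.tm z ∧ H.tm z ≤ 4 * R},
              Wc H N ν (a1 + σ * ((b.1:ℝ) / K)) (a2 + σ * ((b.2:ℝ) / K)) (σ / K) z ^ r) + ENNReal.ofReal bt * Ec N ν a1 a2 σ := by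
            gcongr
        _ = 2 * (ENNReal.ofReal bt * Ec N ν a1 a2 σ) + ENNReal.ofReal A * ∑ b ∈ grd K,
            ∫⁻ z in {z : E4 | R / 2 ≤ H.tm z ∧ H.tm z ≤ 4 * R},
              Wc H N ν (a1 + σ * ((b.1:ℝ) / K)) (a2 + σ * ((b.2:ℝ) / K)) (σ / K) z ^ r := by ring
        _ ≤ ENNReal.ofReal A * (ENNReal.ofReal bt * Ec N ν a1 a2 σ) + ENNReal.ofReal A * ∑ b ∈ grd K,
            ∫⁻ z in {z : E4 | R / 2 ≤ H.tm z ∧ H.tm z ≤ 4 * R},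
              Wc H N ν (a1 + σ * ((b.1:ℝ) / K)) (a2 + σ * ((b.2:ℝ) / K)) (σ / K) z ^ r := by
            gcongr
            have : (2:ℝ≥0∞) = ENNReal.ofReal 2 := by norm_num
            rw [this]
            exact ENNReal.ofReal_le_ofReal hA2
        _ = ENNReal.ofReal A * ∑ b ∈ grd K, ((∫⁻ z in {z : E4 | R / 2 ≤ H.tm z ∧ H.tm z ≤ 4 * R},
              Wc H N ν (a1 + σ * ((b.1:ℝ) / K)) (a2 + σ * ((b.2:ℝ) / K)) (σ / K) z ^ r) +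
            ENNReal.ofReal bt * Ec N ν (a1 + σ * ((b.1:ℝ) / K)) (a2 + σ * ((b.2:ℝ) / K)) (σ / K)) := by
            rw [Finset.sum_add_distrib, ← Finset.mul_sum, ← Ec_eq_sum hK hσ, ← mul_add, add_comm]
        _ ≤ ENNReal.ofReal A * ∑ b ∈ grd K, ENNReal.ofReal (A ^ J * (X + bt)) *
            Ec N ν (a1 + σ * ((b.1:ℝ) / K)) (a2 + σ * ((b.2:ℝ) / K)) (σ / K) := by
            gcongr with b hb'
            exact hb b hb'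
        _ = ENNReal.ofReal (A ^ (J + 1) * (X + bt)) * Ec N ν a1 a2 σ := by
            rw [← Finset.mul_sum, ← Ec_eq_sum hK hσ, ← mul_assoc, ← ENNReal.ofReal_mul (by linarith)]
            congr 2
            ring

theorem capN_one {N : ℕ} (hN : 1 ≤ N) : capN N 0 0 1 = grd N := by
  ext k
  rw [mem_capN, mem_grdQ]
  have hN' : (0:ℝ) < N := by exact_mod_cast hN
  constructor
  · exact fun h => h.1
  · rintro ⟨⟨g1, g2⟩, g3, g4⟩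
    have g1' : (0:ℝ) ≤ k.1 := by exact_mod_cast g1
    have g3' : (0:ℝ) ≤ k.2 := by exact_mod_cast g3
    have g2' : (k.1:ℝ) < N := by exact_mod_cast g2
    have g4' : (k.2:ℝ) < N := by exact_mod_cast g4
    refine ⟨⟨⟨g1, g2⟩, g3, g4⟩, ⟨by positivity, ?_⟩, by positivity, ?_⟩
    · rw [zero_add, div_lt_one hN']; exact g2'
    · rw [zero_add, div_lt_one hN']; exact g4'

/-- **[REC]** -/
theorem stREC : StREC := by
  intro κ' r hκ hr1 hr2 hBGLs hBRDs hFLTs ε B C0 hε hB hC0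
  obtain ⟨c1, Cb, hc1, hCb, hBGL⟩ := hBGLs
  have hr : 1 ≤ r := hr1.le
  -- choice of K
  obtain ⟨K, hK2, hKε⟩ : ∃ K : ℕ, 2 ≤ K ∧ (2:ℝ) ^ r * Cb ^ (r - 1) ≤ (K:ℝ) ^ (ε / 2) := by
    have ht : Filter.Tendsto (fun K : ℕ => (K:ℝ) ^ (ε / 2)) Filter.atTop Filter.atTop :=
      (tendsto_rpow_atTop (by positivity)).comp tendsto_natCast_atTop_atTop
    obtain ⟨K, h1, h2⟩ := ((Filter.eventually_ge_atTop 2).and (ht.eventually_ge_atTop ((2:ℝ) ^ r * Cb ^ (r - 1)))).exists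
    exact ⟨K, h1, h2⟩
  have hK : 0 < K := by omega
  have hKr : (2:ℝ) ≤ K := by exact_mod_cast hK2
  obtain ⟨K1, hK1, hBR⟩ := hBRDs B C0 (c1 / (K:ℝ) ^ 4) (ε / 2) r hB hC0 (by positivity) (by positivity) hr hr2
  have hK1' : 0 < K1 := by omega
  obtain ⟨CB, hCB, hBR⟩ := hBR (K * K1) (Nat.le_mul_of_pos_left _ hK)
  obtain ⟨CF, hCF, hFL⟩ := hFLTs (ε / 2) B C0 1 (by positivity) hB hC0 le_rfl
  set e : ℝ := κ' * (r - 1) + ε / 2 with he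
  have he0 : 0 ≤ e := by
    have : 0 ≤ κ' * (r - 1) := mul_nonneg hκ (by linarith)
    rw [he]; linarith
  set cB : ℝ := (2 * ((K * K1 : ℕ) : ℝ) ^ 2) ^ r * ((K * K1 : ℕ) : ℝ) ^ 8 * CB with hcB
  have hcB0 : 0 ≤ cB := by positivity
  refine ⟨(K:ℝ) ^ (ε / 2 + (r - 1)) * (CF * 3 ^ e + cB), by positivity, ?_⟩
  intro N R D H ν h
  have hN1 : (1:ℝ) ≤ N := by exact_mod_cast h.N1
  have hN0 : (0:ℝ) < N := by linarith
  have hR : 0 < R := by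
    have h1 := h.R1
    nlinarith
  have hDr : 0 ≤ D ^ (r - 1) := Real.rpow_nonneg h.D0 _
  -- depth
  have hsq1 : (1:ℝ) ≤ Real.sqrt N := Real.one_le_sqrt.2 hN1
  obtain ⟨n, hn1, hn2⟩ := exists_nat_pow_near hsq1 (show (1:ℝ) < K by linarith)
  set J := n + 1 with hJ
  have hJ1 : (K:ℝ) ^ J ≤ K * Real.sqrt N := by
    rw [hJ, pow_succ]
    nlinarith
  have hJ2 : (N:ℝ) * 1 ^ 2 ≤ (K:ℝ) ^ (2 * J) := by
    have h1 : (N:ℝ) = Real.sqrt N ^ 2 := (Real.sq_sqrt hN0.le).symm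
    rw [one_pow, mul_one, h1, mul_comm 2 J, pow_mul]
    gcongr
  set T : ℝ := CB * (N:ℝ) ^ (ε / 2) * D ^ (r - 1) * R with hT
  have hT0 : 0 ≤ T := by positivity
  set X : ℝ := CF * (3 * Real.sqrt N) ^ e * D ^ (r - 1) * R with hX
  have hX0 : 0 ≤ X := by positivity
  have main := ind hc1 hCb hBGL h hK hK1' hr hT0
    (fun a1 a2 σ x h1 h2 h3 h4 h5 h6 h7 h8 => hBR N R D H ν h a1 a2 σ x h1 h2 h3 h4 h5 h6 h7 h8)
    (X := X) (A := 2 ^ r * (Cb * K) ^ (r - 1)) (bt := (2 * ((K * K1 : ℕ) : ℝ) ^ 2) ^ r * ((K * K1 : ℕ) : ℝ) ^ 8 * T) hX0 rfl rfl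
    (by
      intro a1 a2 σ hσ h1 h2 h3 h4 h5
      refine (hFL N R D H ν h a1 a2 σ hσ h1 h2 h3 h4 h5).trans ?_
      gcongr
      rw [hX]
      gcongr
      have h6 : (N:ℝ) * σ ≤ Real.sqrt N := by
        apply Real.le_sqrt_of_sq_le
        have : ((N:ℝ) * σ) ^ 2 = N * (N * σ ^ 2) := by ring
        rw [this]
        nlinarith
      linarith)
    J 0 0 1 (by norm_num) le_rfl (by norm_num) le_rfl (by norm_num) hJ2
  have e1 : ∀ z, Wc H N ν 0 0 1 z = H.Wu N ν z := by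
    intro z
    unfold Wc Hyp.Wu
    rw [capN_one h.N1]
  have e2 : Ec N ν 0 0 1 = Eng N ν := by
    unfold Ec Eng
    rw [capN_one h.N1]
  rw [e2] at main
  simp_rw [e1] at main
  refine le_self_add.trans (main.trans (mul_le_mul' (ENNReal.ofReal_le_ofReal ?_) le_rfl))
  -- numerical part
  have hA : 2 ^ r * (Cb * K) ^ (r - 1) ≤ (K:ℝ) ^ (ε / 2 + (r - 1)) := by
    rw [Real.mul_rpow (by linarith) (by linarith), ← mul_assoc, Real.rpow_add (by linarith)]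
    gcongr
  have hAJ : (2 ^ r * (Cb * K) ^ (r - 1)) ^ J ≤ (K:ℝ) ^ (ε / 2 + (r - 1)) * (N:ℝ) ^ (ε / 4 + (r - 1) / 2) := by
    calc (2 ^ r * (Cb * K) ^ (r - 1)) ^ J ≤ ((K:ℝ) ^ (ε / 2 + (r - 1))) ^ J := by gcongr
      _ = ((K:ℝ) ^ J) ^ (ε / 2 + (r - 1)) := by
          rw [← Real.rpow_natCast, ← Real.rpow_mul (by linarith), mul_comm, Real.rpow_mul (by linarith), Real.rpow_natCast]
      _ ≤ (K * Real.sqrt N) ^ (ε / 2 + (r - 1)) := by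
          apply Real.rpow_le_rpow (by positivity) hJ1
          linarith
      _ = (K:ℝ) ^ (ε / 2 + (r - 1)) * (N:ℝ) ^ (ε / 4 + (r - 1) / 2) := by
          rw [Real.mul_rpow (by linarith) (Real.sqrt_nonneg _), Real.sqrt_eq_rpow, ← Real.rpow_mul hN0.le]
          congr 2
          ring
  have hXb : X + (2 * ((K * K1 : ℕ) : ℝ) ^ 2) ^ r * ((K * K1 : ℕ) : ℝ) ^ 8 * T ≤
      (CF * 3 ^ e + cB) * (N:ℝ) ^ (κ' * (r - 1) / 2 + ε / 2) * D ^ (r - 1) * R := by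
    have a1 : X ≤ CF * 3 ^ e * (N:ℝ) ^ (κ' * (r - 1) / 2 + ε / 2) * D ^ (r - 1) * R := by
      rw [hX, Real.mul_rpow (by norm_num) (Real.sqrt_nonneg _), ← mul_assoc CF, Real.sqrt_eq_rpow, ← Real.rpow_mul hN0.le]
      gcongr
      rw [he]; linarith
    have a2 : (2 * ((K * K1 : ℕ) : ℝ) ^ 2) ^ r * ((K * K1 : ℕ) : ℝ) ^ 8 * T ≤
        cB * (N:ℝ) ^ (κ' * (r - 1) / 2 + ε / 2) * D ^ (r - 1) * R := by
      have : (2 * ((K * K1 : ℕ) : ℝ) ^ 2) ^ r * ((K * K1 : ℕ) : ℝ) ^ 8 * T = cB * (N:ℝ) ^ (ε / 2) * D ^ (r - 1) * R := by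
        rw [hT, hcB]; ring
      rw [this]
      gcongr
      have : 0 ≤ κ' * (r - 1) := mul_nonneg hκ (by linarith)
      linarith
    calc _ ≤ _ := add_le_add a1 a2
      _ = _ := by ring
  calc (2 ^ r * (Cb * K) ^ (r - 1)) ^ J * (X + (2 * ((K * K1 : ℕ) : ℝ) ^ 2) ^ r * ((K * K1 : ℕ) : ℝ) ^ 8 * T)
      ≤ ((K:ℝ) ^ (ε / 2 + (r - 1)) * (N:ℝ) ^ (ε / 4 + (r - 1) / 2)) *
        ((CF * 3 ^ e + cB) * (N:ℝ) ^ (κ' * (r - 1) / 2 + ε / 2) * D ^ (r - 1) * R) := by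
        apply mul_le_mul hAJ hXb _ (by positivity)
        positivity
    _ = (K:ℝ) ^ (ε / 2 + (r - 1)) * (CF * 3 ^ e + cB) * ((N:ℝ) ^ (ε / 4 + (r - 1) / 2) * (N:ℝ) ^ (κ' * (r - 1) / 2 + ε / 2)) *
        D ^ (r - 1) * R := by ring
    _ ≤ (K:ℝ) ^ (ε / 2 + (r - 1)) * (CF * 3 ^ e + cB) * (N:ℝ) ^ ((1 + κ') / 2 * (r - 1) + ε) * D ^ (r - 1) * R := by
        rw [← Real.rpow_add hN0]
        have hexp : ε / 4 + (r - 1) / 2 + (κ' * (r - 1) / 2 + ε / 2) ≤ (1 + κ') / 2 * (r - 1) + ε := by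
          have : (1 + κ') / 2 * (r - 1) = (r - 1) / 2 + κ' * (r - 1) / 2 := by ring
          rw [this]; linarith
        have := Real.rpow_le_rpow_of_exponent_le hN1 hexp
        gcongr

end Vale.Agent.P106.Q.RecQ
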