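import Vale.Agent.P106.Q.Defs

/-! # P106 / Q : [REC], combinatorial part (helper301) -/

open MeasureTheory Complex Set
open scoped ENNReal NNReal

set_option autoImplicit false
set_option linter.all false

namespace Vale.Agent.P106.Q.RecQ

open Vale.Agent.P106.G Vale.Agent.P106.Q

theorem mem_grdQ {N : ℕ} {k : ℤ × ℤ} : k ∈ grd N ↔ (0 ≤ k.1 ∧ k.1 < N) ∧ (0 ≤ k.2 ∧ k.2 < N) := by
  simp [grd, Finset.mem_product]

theorem mem_capN {N : ℕ} {a1 a2 σ : ℝ} {k : ℤ × ℤ} : k ∈ capN N a1 a2 σ ↔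
    k ∈ grd N ∧ (a1 ≤ (k.1:ℝ) / N ∧ (k.1:ℝ) / N < a1 + σ) ∧ (a2 ≤ (k.2:ℝ) / N ∧ (k.2:ℝ) / N < a2 + σ) := by
  unfold capN
  simp only [Finset.mem_filter]

/-- index of the sub-interval -/
noncomputable def ixq (K : ℕ) (a σ u : ℝ) : ℤ := ⌊(K:ℝ) * (u - a) / σ⌋

theorem ixq_iff {K : ℕ} (hK : 0 < K) {a σ u : ℝ} (hσ : 0 < σ) {i : ℤ} :
    ixq K a σ u = i ↔ a + σ * ((i:ℝ) / K) ≤ u ∧ u < a + σ * ((i:ℝ) / K) + σ / K := by
  unfold ixq
  rw [Int.floor_eq_iff]
  have hK' : (0:ℝ) < K := by exact_mod_cast hK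
  rw [le_div_iff₀ hσ, div_lt_iff₀ hσ]
  constructor
  · rintro ⟨h1, h2⟩
    constructor
    · have : σ * ((i:ℝ) / K) ≤ u - a := by
        rw [mul_div_assoc', div_le_iff₀ hK']; linarith
      linarith
    · have : u - a < σ * ((i:ℝ) / K) + σ / K := by
        rw [mul_div_assoc', ← add_div, lt_div_iff₀ hK']; linarith
      linarith
  · rintro ⟨h1, h2⟩
    constructor
    · have : σ * ((i:ℝ) / K) ≤ u - a := by linarith
      rw [mul_div_assoc', div_le_iff₀ hK'] at this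
      linarith
    · have : u - a < σ * ((i:ℝ) / K) + σ / K := by linarith
      rw [mul_div_assoc', ← add_div, lt_div_iff₀ hK'] at this
      linarith

theorem ixq_range {K : ℕ} (hK : 0 < K) {a σ u : ℝ} (hσ : 0 < σ) :
    (0 ≤ ixq K a σ u ∧ ixq K a σ u < K) ↔ a ≤ u ∧ u < a + σ := by
  unfold ixq
  have hK' : (0:ℝ) < K := by exact_mod_cast hK
  rw [Int.floor_nonneg, Int.floor_lt, div_lt_iff₀ hσ]
  have e : ((K:ℤ):ℝ) = (K:ℝ) := by push_cast; rfl
  rw [e]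
  constructor
  · rintro ⟨h1, h2⟩
    constructor
    · by_contra hc
      push Not at hc
      have : (K:ℝ) * (u - a) / σ < 0 := by
        apply div_neg_of_neg_of_pos _ hσ
        nlinarith
      linarith
    · have := lt_of_mul_lt_mul_left h2 hK'.le
      linarith
  · rintro ⟨h1, h2⟩
    constructor
    · have : 0 ≤ u - a := by linarith
      positivity
    · have : u - a < σ := by linarith
      nlinarith

/-- index of the sub-square -/
noncomputable def ix (N K : ℕ) (a1 a2 σ : ℝ) (k : ℤ × ℤ) : ℤ × ℤ :=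
  (ixq K a1 σ ((k.1:ℝ) / N), ixq K a2 σ ((k.2:ℝ) / N))

/-- sub-square -/
noncomputable def sub (N K : ℕ) (a1 a2 σ : ℝ) (s : ℤ × ℤ) : Finset (ℤ × ℤ) :=
  capN N (a1 + σ * ((s.1:ℝ) / K)) (a2 + σ * ((s.2:ℝ) / K)) (σ / K)

theorem mem_sub {N K : ℕ} (hK : 0 < K) {a1 a2 σ : ℝ} (hσ : 0 < σ) {s k : ℤ × ℤ} :
    k ∈ sub N K a1 a2 σ s ↔ k ∈ grd N ∧ ix N K a1 a2 σ k = s := by
  unfold sub ix
  rw [mem_capN, Prod.ext_iff]
  simp only
  rw [ixq_iff hK hσ, ixq_iff hK hσ]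

theorem ix_mem_grd {N K : ℕ} (hK : 0 < K) {a1 a2 σ : ℝ} (hσ : 0 < σ) {k : ℤ × ℤ} :
    k ∈ capN N a1 a2 σ ↔ k ∈ grd N ∧ ix N K a1 a2 σ k ∈ grd K := by
  rw [mem_capN, mem_grdQ (N := K)]
  unfold ix
  simp only
  rw [ixq_range hK hσ, ixq_range hK hσ]

theorem sub_eq_filter {N K : ℕ} (hK : 0 < K) {a1 a2 σ : ℝ} (hσ : 0 < σ) {s : ℤ × ℤ} (hs : s ∈ grd K) :
    sub N K a1 a2 σ s = (capN N a1 a2 σ).filter fun k => ix N K a1 a2 σ k = s := by
  ext k
  rw [Finset.mem_filter, mem_sub hK hσ, ix_mem_grd hK hσ]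
  constructor
  · rintro ⟨h1, h2⟩
    exact ⟨⟨h1, by rw [h2]; exact hs⟩, h2⟩
  · rintro ⟨⟨h1, h3⟩, h2⟩
    exact ⟨h1, h2⟩

theorem sum_sub {M : Type*} [AddCommMonoid M] {N K : ℕ} (hK : 0 < K) {a1 a2 σ : ℝ} (hσ : 0 < σ) (f : ℤ × ℤ → M) :
    ∑ k ∈ capN N a1 a2 σ, f k = ∑ s ∈ grd K, ∑ k ∈ sub N K a1 a2 σ s, f k := by
  rw [← Finset.sum_fiberwise_of_maps_to (g := ix N K a1 a2 σ) (t := grd K) (fun k hk => ((ix_mem_grd hK hσ).1 hk).2)]
  refine Finset.sum_congr rfl fun s hs => ?_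
  rw [sub_eq_filter hK hσ hs]

/-- parent index -/
def par (m : ℕ) (s : ℤ × ℤ) : ℤ × ℤ := (s.1 / m, s.2 / m)

theorem cel_div {K m : ℕ} (hK : 0 < K) (hm : 0 < m) (i : ℤ) :
    ⌊(K:ℝ) * ((i:ℝ) / ((K * m : ℕ) : ℝ))⌋ = i / m := by
  have hK' : (0:ℝ) < K := by exact_mod_cast hK
  have hm' : (0:ℝ) < m := by exact_mod_cast hm
  have e : (K:ℝ) * ((i:ℝ) / ((K * m : ℕ) : ℝ)) = (i:ℝ) / (m:ℝ) := by
    push_cast; field_simp
  rw [e]
  have : (i:ℝ) / (m:ℝ) = (((i:ℚ) / (m:ℚ) : ℚ) : ℝ) := by push_cast; rfl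
  rw [Int.floor_eq_iff]
  have hmz : (0:ℤ) < m := by exact_mod_cast hm
  have h1 : (i / m) * (m:ℤ) ≤ i := Int.ediv_mul_le i hmz.ne'
  have h2 : i < (i / m + 1) * (m:ℤ) := Int.lt_ediv_add_one_mul_self i hmz
  constructor
  · rw [le_div_iff₀ hm']; exact_mod_cast h1
  · rw [div_lt_iff₀ hm']; exact_mod_cast h2

theorem ix_par {N K m : ℕ} (hK : 0 < K) (hm : 0 < m) {a1 a2 σ : ℝ} (hσ : 0 < σ) (k : ℤ × ℤ) :
    ix N K a1 a2 σ k = par m (ix N (K * m) a1 a2 σ k) := by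
  have key : ∀ a u : ℝ, ixq K a σ u = ixq (K * m) a σ u / m := by
    intro a u
    have hK' : (0:ℝ) < K := by exact_mod_cast hK
    have hm' : (0:ℝ) < m := by exact_mod_cast hm
    have hmz : (0:ℤ) < m := by exact_mod_cast hm
    have h := (ixq_iff (Nat.mul_pos hK hm) (a := a) (σ := σ) (u := u) hσ (i := ixq (K * m) a σ u)).1 rfl
    set i := ixq (K * m) a σ u with hi
    rw [ixq_iff hK hσ]
    have h1 : (i / m) * (m:ℤ) ≤ i := Int.ediv_mul_le i hmz.ne'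
    have h2 : i + 1 ≤ (i / m + 1) * (m:ℤ) := Int.lt_ediv_add_one_mul_self i hmz
    have h1' : ((i / m : ℤ) : ℝ) * m ≤ i := by exact_mod_cast h1
    have h2' : (i:ℝ) + 1 ≤ (((i / m : ℤ) : ℝ) + 1) * m := by exact_mod_cast h2
    push_cast at h
    constructor
    · refine le_trans ?_ h.1
      have : ((i / m : ℤ) : ℝ) / K ≤ (i:ℝ) / (K * m) := by
        rw [div_le_div_iff₀ hK' (by positivity)]
        nlinarith
      have := mul_le_mul_of_nonneg_left this hσ.le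
      linarith
    · refine lt_of_lt_of_le h.2 ?_
      have e1 : σ * ((i:ℝ) / (K * m)) + σ / (K * m) = σ * (((i:ℝ) + 1) / (K * m)) := by ring
      have e2 : σ * (((i / m : ℤ) : ℝ) / K) + σ / K = σ * ((((i / m : ℤ) : ℝ) + 1) / K) := by ring
      have : ((i:ℝ) + 1) / (K * m) ≤ (((i / m : ℤ) : ℝ) + 1) / K := by
        rw [div_le_div_iff₀ (by positivity) hK']
        nlinarith
      have := mul_le_mul_of_nonneg_left this hσ.le
      linarith
  unfold ix par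
  simp only
  rw [key, key]

theorem sum_par_le {N K m : ℕ} (hK : 0 < K) (hm : 0 < m) {a1 a2 σ : ℝ} (hσ : 0 < σ) (f : ℤ × ℤ → ℝ≥0∞)
    (b : ℤ × ℤ) (T : Finset (ℤ × ℤ)) (hT : ∀ s ∈ T, par m s = b) :
    ∑ s ∈ T, ∑ k ∈ sub N (K * m) a1 a2 σ s, f k ≤ ∑ k ∈ sub N K a1 a2 σ b, f k := by
  have hKm := Nat.mul_pos hK hm
  have e : ∀ s ∈ T, ∑ k ∈ sub N (K * m) a1 a2 σ s, f k =
      ∑ k ∈ (sub N K a1 a2 σ b).filter (fun k => ix N (K * m) a1 a2 σ k = s), f k := by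
    intro s hs
    congr 1
    ext k
    rw [Finset.mem_filter, mem_sub hKm hσ, mem_sub hK hσ]
    constructor
    · rintro ⟨h1, h2⟩
      refine ⟨⟨h1, ?_⟩, h2⟩
      rw [ix_par hK hm hσ, h2, hT s hs]
    · rintro ⟨⟨h1, _⟩, h2⟩
      exact ⟨h1, h2⟩
  rw [Finset.sum_congr rfl e]
  exact Finset.sum_fiberwise_le_sum_of_sum_fiber_nonneg (fun _ _ => zero_le)

theorem par_mem_grd {K m : ℕ} (hm : 0 < m) {s : ℤ × ℤ} (hs : s ∈ grd (K * m)) : par m s ∈ grd K := by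
  rw [mem_grdQ] at hs ⊢
  have hmz : (0:ℤ) < m := by exact_mod_cast hm
  obtain ⟨⟨h1, h2⟩, h3, h4⟩ := hs
  push_cast at h2 h4
  unfold par
  refine ⟨⟨Int.ediv_nonneg h1 hmz.le, ?_⟩, Int.ediv_nonneg h3 hmz.le, ?_⟩
  · exact Int.ediv_lt_of_lt_mul hmz h2
  · exact Int.ediv_lt_of_lt_mul hmz h4

theorem card_grd (K : ℕ) : (grd K).card = K * K := by
  unfold grd
  rw [Finset.card_product]
  simp

/-- the pointwise alternative -/
theorem pt_abs {ι β : Type} [DecidableEq ι] [DecidableEq β] (I : Finset ι) (hI : I.Nonempty) (w : ι → ℝ≥0∞) (hfin : ∑ s ∈ I, w s ≠ ⊤)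
    (par : ι → β) (V : β → ℝ≥0∞) (J : Finset β) (hJ : ∀ s ∈ I, par s ∈ J)
    (hpar : ∀ (b : β) (T : Finset ι), (∀ s ∈ T, par s = b) → ∑ s ∈ T, w s ≤ V b)
    (Qd : (Fin 4 → ι) → Prop) [DecidablePred Qd] (c : ℝ)
    (hB : ∀ S ⊆ I, (∀ x : Fin 4 → ι, (∀ i, x i ∈ S) → ¬ Qd x) → (((S.image par).card : ℕ) : ℝ) ≤ c) (r : ℝ) (hr : 1 ≤ r) :
    (∑ s ∈ I, w s) ^ r ≤ ENNReal.ofReal ((2 * (I.card : ℝ)) ^ r) *
        ∑ x ∈ (Fintype.piFinset fun _ : Fin 4 => I).filter Qd, ∏ i, w (x i) ^ (r / 4) +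
      ENNReal.ofReal (2 ^ r * c ^ (r - 1)) * ∑ b ∈ J, V b ^ r := by
  set W := ∑ s ∈ I, w s with hW
  have hcard : 0 < I.card := hI.card_pos
  have hcr : (0:ℝ) < I.card := by exact_mod_cast hcard
  set L : ℝ≥0∞ := 2 * (I.card : ℝ≥0∞) with hL
  have hLR : L = ENNReal.ofReal (2 * (I.card : ℝ)) := by
    rw [hL, ENNReal.ofReal_mul (by norm_num), ENNReal.ofReal_natCast]; norm_num
  set S := I.filter (fun s => W ≤ L * w s) with hS
  have hr0 : 0 ≤ r := by linarith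
  by_cases h : ∃ x : Fin 4 → ι, (∀ i, x i ∈ S) ∧ Qd x
  · obtain ⟨x, hx, hq⟩ := h
    refine le_trans ?_ le_self_add
    have h1 : W ^ r ≤ ENNReal.ofReal ((2 * (I.card : ℝ)) ^ r) * ∏ i, w (x i) ^ (r / 4) := by
      have h2 : ∀ i : Fin 4, W ^ (r / 4) ≤ L ^ (r / 4) * w (x i) ^ (r / 4) := by
        intro i
        have := (Finset.mem_filter.1 (hx i)).2
        rw [← ENNReal.mul_rpow_of_nonneg _ _ (by positivity)]
        exact ENNReal.rpow_le_rpow this (by positivity)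
      have h3 : ∏ i : Fin 4, W ^ (r / 4) ≤ ∏ i : Fin 4, (L ^ (r / 4) * w (x i) ^ (r / 4)) :=
        Finset.prod_le_prod' fun i _ => h2 i
      rw [Finset.prod_mul_distrib, Finset.prod_const, Finset.prod_const, Finset.card_univ, Fintype.card_fin,
        ← ENNReal.rpow_natCast, ← ENNReal.rpow_natCast, ← ENNReal.rpow_mul, ← ENNReal.rpow_mul] at h3
      have e : r / 4 * ((4:ℕ):ℝ) = r := by push_cast; ring
      rw [e, hLR, ENNReal.ofReal_rpow_of_pos (by positivity)] at h3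
      exact h3
    refine h1.trans ?_
    gcongr
    refine Finset.single_le_sum (f := fun x : Fin 4 → ι => ∏ i, w (x i) ^ (r / 4)) (fun _ _ => zero_le) ?_
    rw [Finset.mem_filter, Fintype.mem_piFinset]
    exact ⟨fun i => (Finset.mem_filter.1 (hx i)).1, hq⟩
  · push Not at h
    refine le_trans ?_ le_add_self
    have hc := hB S (Finset.filter_subset _ _) h
    have hc0 : 0 ≤ c := le_trans (by positivity) hc
    -- W ≤ 2 ∑ S
    have h1 : W ≤ 2 * ∑ s ∈ S, w s := by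
      have hsplit : W = ∑ s ∈ S, w s + ∑ s ∈ I.filter (fun s => ¬ W ≤ L * w s), w s := by
        rw [hW, hS]; exact (Finset.sum_filter_add_sum_filter_not _ _ _).symm
      have hsm : L * ∑ s ∈ I.filter (fun s => ¬ W ≤ L * w s), w s ≤ (I.card : ℝ≥0∞) * W := by
        rw [Finset.mul_sum]
        calc ∑ s ∈ I.filter (fun s => ¬ W ≤ L * w s), L * w s ≤ ∑ s ∈ I.filter (fun s => ¬ W ≤ L * w s), W := by
              refine Finset.sum_le_sum fun s hs => ?_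
              have := (Finset.mem_filter.1 hs).2
              push Not at this
              exact this.le
          _ = ((I.filter (fun s => ¬ W ≤ L * w s)).card : ℝ≥0∞) * W := by rw [Finset.sum_const, nsmul_eq_mul]
          _ ≤ _ := by
              gcongr
              exact Finset.filter_subset _ _
      have hb : 2 * ∑ s ∈ I.filter (fun s => ¬ W ≤ L * w s), w s ≤ W := by
        have h3 : (I.card : ℝ≥0∞) * (2 * ∑ s ∈ I.filter (fun s => ¬ W ≤ L * w s), w s) ≤ (I.card : ℝ≥0∞) * W := by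
          refine le_trans (le_of_eq ?_) hsm
          rw [hL]; ring
        exact (ENNReal.mul_le_mul_iff_right (by exact_mod_cast hcard.ne') (ENNReal.natCast_ne_top _)).1 h3
      have h4 : W + W ≤ 2 * ∑ s ∈ S, w s + W := by
        calc W + W = 2 * W := by ring
          _ = 2 * ∑ s ∈ S, w s + 2 * ∑ s ∈ I.filter (fun s => ¬ W ≤ L * w s), w s := by
              conv_lhs => rw [hsplit]
              ring
          _ ≤ _ := by gcongr
      exact (ENNReal.add_le_add_iff_right hfin).1 h4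
    have h2 : ∑ s ∈ S, w s ≤ ∑ b ∈ S.image par, V b := by
      rw [← Finset.sum_fiberwise_of_maps_to (g := par) (t := S.image par) (fun s hs => Finset.mem_image_of_mem _ hs)]
      refine Finset.sum_le_sum fun b _ => hpar b _ ?_
      intro s hs
      exact (Finset.mem_filter.1 hs).2
    calc W ^ r ≤ (2 * ∑ b ∈ S.image par, V b) ^ r := by
          refine ENNReal.rpow_le_rpow (h1.trans ?_) hr0
          gcongr
      _ = 2 ^ r * (∑ b ∈ S.image par, V b) ^ r := ENNReal.mul_rpow_of_nonneg _ _ hr0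
      _ ≤ 2 ^ r * (((S.image par).card : ℝ≥0∞) ^ (r - 1) * ∑ b ∈ S.image par, V b ^ r) := by
          gcongr
          exact ENNReal.rpow_sum_le_const_mul_sum_rpow _ _ hr
      _ ≤ ENNReal.ofReal (2 ^ r * c ^ (r - 1)) * ∑ b ∈ J, V b ^ r := by
          rw [ENNReal.ofReal_mul (by positivity), mul_assoc]
          have e2 : (2:ℝ≥0∞) ^ r = ENNReal.ofReal (2 ^ r) := by
            rw [← ENNReal.ofReal_rpow_of_pos (by norm_num)]; norm_num
          rw [e2]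
          gcongr
          · rw [← ENNReal.ofReal_natCast, ENNReal.ofReal_rpow_of_nonneg (by positivity) (by linarith)]
            apply ENNReal.ofReal_le_ofReal
            exact Real.rpow_le_rpow (by positivity) hc (by linarith)
          · intro b hb
            obtain ⟨s, hs, rfl⟩ := Finset.mem_image.1 hb
            exact hJ s (Finset.mem_filter.1 hs).1

end Vale.Agent.P106.Q.RecQ
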